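import Vale.Agent.P011.W.LocB
import Vale.Agent.P011.Even.R1

/-!
Every element of a local field is approximated by reduced norms of a central division algebra.
-/

open Module Polynomial

namespace Vale.Agent.P011.W

open Vale.Agent.P011.Even.LocDiv

namespace Cyc

section approx

variable {k E : Type} [NontriviallyNormedField k] [NormedDivisionRing E] [NormedAlgebra k E]
  {R : Frame E} {W : Type} [Field W] [Algebra k W] (C : Cyc k E W R) [IsUltrametricDist E]

theorem norm_prod_sub (s : Finset ℕ) (x : ℕ → W) {δ : ℝ} (hδ1 : δ ≤ 1)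
    (hx : ∀ i ∈ s, ‖C.ι (x i)‖ ≤ δ) :
    ‖C.ι (∏ i ∈ s, (1 + x i) - 1 - ∑ i ∈ s, x i)‖ ≤ δ ^ 2 := by
  classical
  induction s using Finset.induction_on with
  | empty => simpa using sq_nonneg δ
  | insert c s hc ih =>
    have ih' := ih fun i hi => hx i (Finset.mem_insert_of_mem hi)
    have hcx := hx c (Finset.mem_insert_self _ _)
    have hδ0 : 0 ≤ δ := (norm_nonneg _).trans hcx
    rw [Finset.prod_insert hc, Finset.sum_insert hc]
    have e : (1 + x c) * ∏ i ∈ s, (1 + x i) - 1 - (x c + ∑ i ∈ s, x i) =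
        (∏ i ∈ s, (1 + x i) - 1 - ∑ i ∈ s, x i) * (1 + x c) + x c * ∑ i ∈ s, x i := by ring
    rw [e, map_add]
    refine (IsUltrametricDist.norm_add_le_max _ _).trans (max_le ?_ ?_)
    · rw [map_mul, norm_mul, map_add, map_one]
      have h1 : ‖1 + C.ι (x c)‖ ≤ 1 := by
        refine (IsUltrametricDist.norm_add_le_max _ _).trans (max_le ?_ (hcx.trans hδ1))
        rw [norm_one]
      calc _ ≤ δ ^ 2 * 1 := by gcongr
        _ = δ ^ 2 := mul_one _
    · rw [map_mul, norm_mul, pow_two]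
      have h1 : ‖C.ι (∑ i ∈ s, x i)‖ ≤ δ := by
        rw [map_sum]
        exact norm_sum_le' _ _ hδ0 fun i hi => hx i (Finset.mem_insert_of_mem hi)
      gcongr

/-- Every unit is approximated by norms. -/
theorem unit_approx (n : ℕ) : ∀ y : k, ‖y‖ = 1 → ∃ (w : W) (c : k), ‖C.ι w‖ = 1 ∧
    algebraMap k W c = C.N w ∧ ‖c - y‖ ≤ ‖R.π‖ ^ (n + 1) := by
  have hπ1 : ‖R.π‖ ≤ 1 := R.π1.le
  induction n with
  | zero =>
    intro y hy
    obtain ⟨i, hi⟩ := C.residue_norm y hy
    obtain ⟨c, hc⟩ := C.exists_base (C.σ_N (C.ω ^ i))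
    refine ⟨C.ω ^ i, c, C.norm_ω i, hc, ?_⟩
    rw [zero_add, pow_one, ← norm_algebraMap' E (c - y), map_sub]
    have h1 : algebraMap k E c = C.ι (C.N (C.ω ^ i)) := by rw [← hc, C.ι.commutes]
    rw [h1]
    exact R.πm _ hi
  | succ n ih =>
    intro y hy
    obtain ⟨w, c, hw, hc, hcy⟩ := ih y hy
    have hc1 : ‖c‖ = 1 := by
      rw [← C.norm_alg, hc, C.norm_N, hw, one_pow]
    have hc0 : c ≠ 0 := by
      rintro rfl
      rw [norm_zero] at hc1
      exact zero_ne_one hc1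
    obtain ⟨l, τ, hτ, hτ1⟩ := C.exists_trace
    have hτ0 : τ ≠ 0 := by
      rintro rfl
      rw [norm_zero] at hτ1
      exact zero_ne_one hτ1
    set δ := ‖R.π‖ ^ (n + 1) with hδ
    have hδ1 : δ ≤ 1 := pow_le_one₀ (norm_nonneg _) hπ1
    have hδlt : δ < 1 := pow_lt_one₀ (norm_nonneg _) R.π1 (by omega)
    set u : k := y / c with hu
    have hu1 : ‖u - 1‖ ≤ δ := by
      have : u - 1 = -((c - y) / c) := by rw [hu]; field_simp; ring
      rw [this, norm_neg, norm_div, hc1, div_one]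
      exact hcy
    set s : k := (u - 1) / τ with hs
    have hs1 : ‖s‖ ≤ δ := by rw [hs, norm_div, hτ1, div_one]; exact hu1
    set x : ℕ → W := fun i => algebraMap k W s * C.σ^[i] (C.ω ^ l) with hx
    have hxn : ∀ i, ‖C.ι (x i)‖ ≤ δ := by
      intro i
      rw [hx]
      simp only
      rw [map_mul, norm_mul, C.norm_alg, C.norm_σ, C.norm_ω, mul_one]
      exact hs1
    have hxs : ∑ i ∈ Finset.range C.m, x i = algebraMap k W (u - 1) := by
      rw [hx]
      simp only
      rw [← Finset.mul_sum]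
      have h1 : ∑ i ∈ Finset.range C.m, C.σ^[i] (C.ω ^ l) = algebraMap k W τ := hτ.symm
      rw [h1, ← map_mul, hs, div_mul_cancel₀ _ hτ0]
    set w' : W := 1 + algebraMap k W s * C.ω ^ l with hw'
    have hNw' : C.N w' = ∏ i ∈ Finset.range C.m, (1 + x i) := by
      rw [N]
      refine Finset.prod_congr rfl fun i _ => ?_
      rw [hw', C.σ_add, C.σ_one, C.σ_mul, C.σ_alg]
    obtain ⟨c', hc'⟩ := C.exists_base (C.σ_N w')
    have h2 : ‖c' - u‖ ≤ δ ^ 2 := by
      have h3 := C.norm_prod_sub (Finset.range C.m) x hδ1 fun i _ => hxn i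
      rw [← hNw', hxs, ← hc', ← map_one (algebraMap k W), ← map_sub, ← map_sub, C.norm_alg] at h3
      have e : c' - 1 - (u - 1) = c' - u := by ring
      rwa [e] at h3
    refine ⟨w * w', c * c', ?_, ?_, ?_⟩
    · rw [map_mul, norm_mul, hw, one_mul, hw', map_add, map_one]
      have h3 : ‖C.ι (algebraMap k W s * C.ω ^ l)‖ < 1 := by
        rw [map_mul, norm_mul, C.norm_alg, C.norm_ω, mul_one]
        exact hs1.trans_lt hδlt
      have h4 : ‖(1 : E)‖ ≠ ‖C.ι (algebraMap k W s * C.ω ^ l)‖ := by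
        rw [norm_one]
        exact h3.ne'
      rw [IsUltrametricDist.norm_add_eq_max_of_norm_ne_norm h4, norm_one, max_eq_left h3.le]
    · rw [map_mul, hc, hc', C.N_mul]
    · have e : c * c' - y = c * (c' - u) := by rw [hu]; field_simp
      rw [e, norm_mul, hc1, one_mul]
      refine h2.trans ?_
      rw [hδ, ← pow_mul]
      exact pow_le_pow_of_le_one (norm_nonneg _) hπ1 (by omega)

omit [IsUltrametricDist E] in
theorem dvd_of_fix {i : ℕ} (hi : R.ζ ^ (R.j ^ i) = R.ζ) : C.m ∣ i := by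
  obtain ⟨ϖ, hϖ⟩ := C.exists_ϖ
  have h1 : i = C.m * (i / C.m) + i % C.m := (Nat.div_add_mod i C.m).symm
  have h2 : R.π ^ i = algebraMap k E (ϖ ^ (i / C.m)) * R.π ^ (i % C.m) := by
    conv_lhs => rw [h1]
    rw [pow_add, pow_mul, ← hϖ, map_pow]
  have h3 := pi_pow R i
  rw [hi, h2, mul_assoc, pi_pow, ← mul_assoc, ← mul_assoc, ← Algebra.commutes (ϖ ^ (i / C.m))
    R.ζ] at h3
  have hϖ0 : algebraMap k E (ϖ ^ (i / C.m)) ≠ 0 := by
    rw [map_pow, hϖ, ← pow_mul]
    exact pow_ne_zero _ R.π0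
  rw [mul_assoc, mul_assoc] at h3
  have h4 := mul_left_cancel₀ hϖ0 h3
  have h5 := mul_right_cancel₀ (pow_ne_zero _ R.π0) h4
  by_contra hcon
  have h6 : 0 < i % C.m := Nat.pos_of_ne_zero fun h => hcon (Nat.dvd_of_mod_eq_zero h)
  exact C.min _ h6 (Nat.mod_lt _ C.m0) h5

theorem dvd_of_norm {y : k} {i : ℕ} (hi : ‖y‖ = ‖R.π‖ ^ i) : C.m ∣ i := by
  apply C.dvd_of_fix
  set u : E := algebraMap k E y * (R.π ^ i)⁻¹ with hu
  have hπi : R.π ^ i ≠ 0 := pow_ne_zero _ R.π0
  have hu1 : ‖u‖ = 1 := by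
    rw [hu, norm_mul, norm_inv, norm_algebraMap', hi, norm_pow, mul_inv_cancel₀]
    exact pow_ne_zero _ R.πpos.ne'
  have h1 : u * R.ζ ^ (R.j ^ i) = R.ζ * u := by
    apply mul_right_cancel₀ hπi
    have h2 : u * R.π ^ i = algebraMap k E y := by
      rw [hu, inv_mul_cancel_right₀ hπi]
    rw [mul_assoc, ← pi_pow, ← mul_assoc, h2, mul_assoc, h2, Algebra.commutes]
  have h3 := R.comm_mod hu1 (R.j ^ i)
  rw [h1] at h3
  have h4 : ‖(R.ζ - R.ζ ^ (R.j ^ i)) * u‖ < 1 := by rwa [sub_mul]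
  rw [norm_mul, hu1, mul_one, norm_sub_rev] at h4
  have h5 := R.pow_inj (a := R.j ^ i) (b := 1) (by rwa [pow_one])
  rwa [pow_one] at h5

theorem dvd_of_norm' {y : k} {i : ℤ} (hi : ‖y‖ = ‖R.π‖ ^ i) : (C.m : ℤ) ∣ i := by
  rcases Int.natAbs_eq i with h | h
  · rw [h] at hi ⊢
    rw [zpow_natCast] at hi
    exact_mod_cast C.dvd_of_norm hi
  · rw [h] at hi ⊢
    rw [zpow_neg, zpow_natCast] at hi
    have h1 : ‖y⁻¹‖ = ‖R.π‖ ^ i.natAbs := by rw [norm_inv, hi, inv_inv]
    rw [dvd_neg]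
    exact_mod_cast C.dvd_of_norm h1

end approx

end Cyc

section main

variable {k E : Type} [NontriviallyNormedField k] [CompleteSpace k] [NormedDivisionRing E]
  [NormedAlgebra k E] [IsUltrametricDist E] [FiniteDimensional k E] [CharZero k]
  [Algebra.IsCentral k E]

/-- Approximation by reduced norms, normed version. -/
theorem local_nrd (R : Frame E) {q : ℕ} (hq0 : 0 < q) (hq : finrank k E = q ^ 2) {y : k}
    (hy : y ≠ 0) {ε : ℝ} (hε : 0 < ε) : ∃ (x : E) (ν : k), ‖ν - y‖ < ε ∧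
      ∀ (Ω : Type) [Field Ω] [Algebra k Ω] (f : E →ₐ[k] Matrix (Fin q) (Fin q) Ω),
        (f x).det = algebraMap k Ω ν := by
  classical
  obtain ⟨W, _, _, _, ⟨C⟩⟩ := exists_cyc (k := k) R
  obtain ⟨X, hX, hdim⟩ := C.exists_X
  let Xa : E →ₐ[k] Matrix (Fin C.m) (Fin C.m) W :=
    { X with
      commutes' := fun c => by
        change X (algebraMap k E c) = _
        rw [← C.ι.commutes, hX]
        ext i j
        rw [Matrix.algebraMap_matrix_apply, Matrix.diagonal_apply, C.σ_alg] }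
  have hXa : ∀ w, Xa (C.ι w) = Matrix.diagonal fun i : Fin C.m => C.σ^[(i : ℕ)] w := hX
  rw [Module.finrank_fin_fun] at hdim
  -- dimensions
  have h1 : C.m ≤ finrank k W := by
    let s : Fin C.m → (W →ₐ[k] W) := fun i => C.σ ^ (i : ℕ)
    have hs : ∀ i : Fin C.m, s i C.ω = C.ω ^ (R.j ^ (i : ℕ)) := by
      intro i
      have h2 : ∀ n : ℕ, (C.σ ^ n) C.ω = C.σ^[n] C.ω := by
        intro n
        rw [AlgHom.coe_pow]
      rw [← C.σ_ω]
      exact h2 i
    have hinj : Function.Injective s := by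
      intro a b hab
      by_contra hne
      have hne' : (a : ℕ) ≠ b := fun h => hne (Fin.ext h)
      have h2 := congrArg (fun g : W →ₐ[k] W => C.ι (g C.ω)) hab
      simp only [hs, map_pow, C.hω] at h2
      have h3 := C.norm_ζ_sub hne' a.2 b.2
      rw [h2, sub_self, norm_zero] at h3
      exact zero_ne_one h3
    have h2 := Nat.card_le_card_of_injective s hinj
    rw [Nat.card_eq_fintype_card, Fintype.card_fin] at h2
    exact h2.trans (card_algHom_le_finrank k W W)
  have h2 : finrank k E ≤ C.m * C.m := by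
    have h3 := Vale.Agent.P011S.SF.split_indep C.m0 Xa (finBasis k E)
      (finBasis k E).linearIndependent
    have h4 := h3.fintype_card_le_finrank
    rw [Fintype.card_fin, Module.finrank_matrix, Fintype.card_fin, Module.finrank_self,
      mul_one] at h4
    exact h4
  have h3 : finrank k E = C.m ^ 2 := by
    apply le_antisymm (by rw [pow_two]; exact h2)
    rw [← hdim, pow_two]
    exact Nat.mul_le_mul_left _ h1
  have h4 : q = C.m := Nat.pow_left_injective (n := 2) (by norm_num) (hq.symm.trans h3)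
  subst h4
  -- the determinant as a homomorphism
  have : Nonempty (Fin C.m) := ⟨⟨0, C.m0⟩⟩
  let dt : E →*₀ W :=
    { toFun := fun x => (Xa x).det
      map_zero' := by rw [map_zero, Matrix.det_zero]
      map_one' := by rw [map_one, Matrix.det_one]
      map_mul' := fun x y => by rw [map_mul, Matrix.det_mul] }
  have hdt : ∀ x, dt x = (Xa x).det := fun _ => rfl
  obtain ⟨νπ, hνπ⟩ := Vale.Agent.P011.Even.exists_nrd C.m0 h3 Xa R.π
  obtain ⟨ϖ, hϖ⟩ := C.exists_ϖ
  have hϖn : ‖ϖ‖ = ‖R.π‖ ^ C.m := by rw [← norm_algebraMap' E ϖ, hϖ, norm_pow]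
  have hνn : ‖νπ‖ = ‖ϖ‖ := by
    have e1 : (algebraMap k W νπ) ^ C.m = (algebraMap k W ϖ) ^ C.m := by
      have e0 : algebraMap k (Matrix (Fin C.m) (Fin C.m) W) ϖ =
          Matrix.diagonal fun _ => algebraMap k W ϖ := by
        ext i j
        rw [Matrix.algebraMap_matrix_apply, Matrix.diagonal_apply]
      rw [← hνπ, ← hdt, ← map_pow, ← hϖ, hdt, AlgHom.commutes, e0, Matrix.det_diagonal,
        Finset.prod_const, Finset.card_univ, Fintype.card_fin]
    have e2 : νπ ^ C.m = ϖ ^ C.m := by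
      apply (algebraMap k W).injective
      rw [map_pow, map_pow, e1]
    have e3 := congrArg norm e2
    rw [norm_pow, norm_pow] at e3
    exact (pow_left_inj₀ (norm_nonneg _) (norm_nonneg _) C.m0.ne').mp e3
  have hν0 : νπ ≠ 0 := by
    rw [← norm_ne_zero_iff, hνn, hϖn]
    exact pow_ne_zero _ R.πpos.ne'
  obtain ⟨i, hi⟩ := norm_eq_zpow R.π0 R.π1 R.πm (x := algebraMap k E y)
    ((_root_.map_ne_zero _).mpr hy)
  rw [norm_algebraMap'] at hi
  obtain ⟨t, ht⟩ := C.dvd_of_norm' hi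
  have hyt : ‖y‖ = ‖νπ‖ ^ t := by rw [hi, ht, hνn, hϖn, zpow_mul, zpow_natCast]
  set y' : k := y / νπ ^ t with hy'
  have hy'1 : ‖y'‖ = 1 := by
    rw [hy', norm_div, norm_zpow, hyt, div_self]
    exact zpow_ne_zero _ (norm_ne_zero_iff.mpr hν0)
  obtain ⟨n, hn⟩ := exists_pow_lt_of_lt_one (y := ‖R.π‖) (x := ε / ‖y‖)
    (div_pos hε (norm_pos_iff.mpr hy)) R.π1
  obtain ⟨w, c, hw, hc, hcy⟩ := C.unit_approx n y' hy'1
  have hdet : (Xa (R.π ^ t * C.ι w)).det = algebraMap k W (νπ ^ t * c) := by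
    rw [← hdt, map_mul, map_zpow₀, hdt, hdt, hνπ, hXa, Matrix.det_diagonal, map_mul, map_zpow₀, hc,
      Cyc.N, Finset.prod_range]
  refine ⟨R.π ^ t * C.ι w, νπ ^ t * c, ?_, ?_⟩
  · have e : νπ ^ t * c - y = νπ ^ t * (c - y') := by
      rw [mul_sub, hy', mul_div_cancel₀]
      exact zpow_ne_zero _ hν0
    rw [e, norm_mul, norm_zpow, ← hyt]
    have h5 : ‖c - y'‖ < ε / ‖y‖ := by
      refine hcy.trans_lt (lt_of_le_of_lt ?_ hn)
      exact pow_le_pow_of_le_one (norm_nonneg _) R.π1.le (by omega)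
    rw [lt_div_iff₀ (norm_pos_iff.mpr hy), mul_comm] at h5
    exact h5
  · intro Ω _ _ f
    exact Vale.Agent.P011.Even.det_compare C.m0 h3 Xa f _ hdet

end main

section final

open Vale.Agent.P011.Even.LocDiv

/-- Approximation by reduced norms in a local central division algebra. -/
theorem local_nrd' {k E : Type} [NontriviallyNormedField k] [IsUltrametricDist k] [ProperSpace k]
    [CharZero k] [DivisionRing E] [Algebra k E] [FiniteDimensional k E] [Algebra.IsCentral k E]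
    {q : ℕ} (hq0 : 0 < q) (hq : finrank k E = q ^ 2) {y : k} (hy : y ≠ 0) {ε : ℝ} (hε : 0 < ε) :
    ∃ (x : E) (ν : k), ‖ν - y‖ < ε ∧
      ∀ (Ω : Type) [Field Ω] [Algebra k Ω] (f : E →ₐ[k] Matrix (Fin q) (Fin q) Ω),
        (f x).det = algebraMap k Ω ν := by
  let _ : NormedDivisionRing E := ndr k
  let _ : NormedAlgebra k E :=
    { (inferInstance : Algebra k E) with
      norm_smul_le := fun c x => by
        change nm k (c • x) ≤ ‖c‖ * nm k x
        rw [Algebra.smul_def, nm_mul, nm_algebraMap] }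
  have hU : IsUltrametricDist E := IsUltrametricDist.isUltrametricDist_of_forall_norm_add_le_max_norm
    (fun x y => nm_add_le_max k x y)
  have : ProperSpace E := FiniteDimensional.proper k E
  obtain ⟨c, hc0, hc1⟩ := NormedField.exists_norm_lt_one k
  have hc : ‖algebraMap k E c‖ = ‖c‖ := nm_algebraMap k c
  have hcne : algebraMap k E c ≠ 0 := by
    rw [← norm_ne_zero_iff, hc]
    exact hc0.ne'
  obtain ⟨R⟩ := exists_frame (algebraMap k E c) hcne (by rw [hc]; exact hc1)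
  exact local_nrd R hq0 hq hy hε

end final

end Vale.Agent.P011.W
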