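import Vale.Agent.P011.W.Gen
import Vale.Agent.P011.W.LocC

/-!
Elements whose reduced norm is close to a given element at a given finite place.
-/

open Module Polynomial NumberField IsDedekindDomain TensorProduct

namespace Vale.Agent.P011.W

open Vale.Agent.P011.Arith (Z0)
open Vale.Agent.P011.Even (nnf isUltra properSpace_compl valued_alg exists_radius dense)
open Vale.Agent.P011S

section cont

variable {k Ω : Type} [NontriviallyNormedField k] [Field Ω] [Algebra k Ω]

/-- Polynomial functions followed by a linear retraction are continuous. -/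
theorem cont_poly (la : Ω →ₗ[k] k) {N : ℕ} (P : MvPolynomial (Fin N) Ω) :
    Continuous fun r : Fin N → k => la (MvPolynomial.eval (fun i => algebraMap k Ω (r i)) P) := by
  have h1 : (fun r : Fin N → k => la (MvPolynomial.eval (fun i => algebraMap k Ω (r i)) P)) =
      fun r => ∑ d ∈ P.support, la (MvPolynomial.coeff d P) * ∏ i, r i ^ d i := by
    funext r
    rw [MvPolynomial.eval_eq', map_sum]
    refine Finset.sum_congr rfl fun d _ => ?_
    have h2 : MvPolynomial.coeff d P * ∏ i, algebraMap k Ω (r i) ^ d i =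
        (∏ i, r i ^ d i) • MvPolynomial.coeff d P := by
      rw [Algebra.smul_def, map_prod, mul_comm]
      simp only [map_pow]
    rw [h2, map_smul, smul_eq_mul, mul_comm]
  rw [h1]
  fun_prop

theorem exists_retraction : ∃ la : Ω →ₗ[k] k, ∀ c, la (algebraMap k Ω c) = c := by
  obtain ⟨la, hla⟩ := (Algebra.linearMap k Ω).exists_leftInverse_of_injective
    (LinearMap.ker_eq_bot.mpr (algebraMap k Ω).injective)
  exact ⟨la, fun c => LinearMap.congr_fun hla c⟩

end cont

variable {F D : Type} [Field F] [NumberField F] [DivisionRing D] [Algebra F D]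
  [FiniteDimensional F D] [Algebra.IsCentral F D] {q : ℕ}

/-- Elements with reduced norm close to a given element, over the completion. -/
theorem exists_compl (hq0 : 0 < q) (hq : finrank F D = q ^ 2) (v : HeightOneSpectrum (𝓞 F))
    (g : D →ₐ[F] Matrix (Fin q) (Fin q) (AlgebraicClosure (v.adicCompletion F))) {N : ℕ}
    (b : Basis (Fin N) F D) {y : v.adicCompletion F} (hy : y ≠ 0) {ε : ℝ} (hε : 0 < ε) :
    ∃ (r : Fin N → v.adicCompletion F) (ν : v.adicCompletion F), ‖ν - y‖ < ε ∧
      (∑ l, algebraMap _ (AlgebraicClosure (v.adicCompletion F)) (r l) • g (b l)).det =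
        algebraMap _ (AlgebraicClosure (v.adicCompletion F)) ν := by
  let _ := nnf v
  have := isUltra v
  obtain ⟨n, hn, Δ, i1, i2, i3, i4, ψ, h1⟩ := exists_wed (E := v.adicCompletion F) hq
  let G : Matrix (Fin n) (Fin n) Δ →ₐ[v.adicCompletion F]
      Matrix (Fin q) (Fin q) (AlgebraicClosure (v.adicCompletion F)) :=
    (bcf g).comp (ψ.symm : Matrix (Fin n) (Fin n) Δ →ₐ[v.adicCompletion F]
      (v.adicCompletion F) ⊗[F] D)
  have h2 := corner_dim G
  obtain ⟨m, hm⟩ : ∃ m, m = finrank (AlgebraicClosure (v.adicCompletion F)) (cW G) := ⟨_, rfl⟩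
  rw [← hm] at h2
  have hnpos : 0 < n := Nat.pos_of_ne_zero (NeZero.ne n)
  have h3 : finrank (v.adicCompletion F) Δ = m ^ 2 := by
    rw [← h2, mul_pow] at h1
    exact Nat.eq_of_mul_eq_mul_left (pow_pos hnpos 2) h1
  have hm0 : 0 < m := by
    rcases Nat.eq_zero_or_pos m with h | h
    · rw [h, mul_zero] at h2; omega
    · exact h
  obtain ⟨f2, hf2⟩ := exists_corner G h2
  obtain ⟨x, ν, hν, hdet⟩ := local_nrd' hm0 h3 hy (ε := min ε ‖y‖)
    (lt_min hε (norm_pos_iff.mpr hy))
  have hν0 : ν ≠ 0 := by
    rintro rfl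
    rw [zero_sub, norm_neg] at hν
    exact absurd (hν.trans_le (min_le_right _ _)) (lt_irrefl _)
  have hx0 : x ≠ 0 := by
    rintro rfl
    have h4 := hdet _ f2
    have : Nonempty (Fin m) := ⟨⟨0, hm0⟩⟩
    rw [map_zero, Matrix.det_zero] at h4
    exact hν0 ((map_eq_zero _).mp h4.symm)
  have h4 := hf2 (Units.mk0 x hx0)
  rw [Units.val_mk0, hdet _ f2] at h4
  let B : Basis (Fin N) (v.adicCompletion F) ((v.adicCompletion F) ⊗[F] D) :=
    b.baseChange (v.adicCompletion F)
  let X : (v.adicCompletion F) ⊗[F] D := ψ.symm (dgU 0 (Units.mk0 x hx0) :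
    (Matrix (Fin n) (Fin n) Δ)ˣ)
  refine ⟨fun l => B.repr X l, ν, hν.trans_le (min_le_left _ _), ?_⟩
  rw [← h4]
  congr 1
  change _ = bcf g X
  conv_rhs => rw [← B.sum_repr X]
  rw [map_sum]
  refine Finset.sum_congr rfl fun l _ => ?_
  rw [map_smul, Basis.baseChange_apply, bcf_one_tmul, algebraMap_smul]

/-- Elements with reduced norm close to a given element. -/
theorem exists_near (hq0 : 0 < q) (hq : finrank F D = q ^ 2) (v : HeightOneSpectrum (𝓞 F))
    (y : Fˣ) (γ : Z0) (hγ : γ ≠ 0) : ∃ x : D, (minpoly F x).natDegree = q ∧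
      v.valuation F ((-1) ^ q * (minpoly F x).coeff 0 / y - 1) < γ := by
  let _ := nnf v
  have := isUltra v
  obtain ⟨g⟩ := exists_split (K := F) (D := D) hq (AlgebraicClosure (v.adicCompletion F))
  let b := finBasis F D
  obtain ⟨δ, hδ, hrad⟩ := exists_radius v γ hγ
  have hy0 : algebraMap F (v.adicCompletion F) y ≠ 0 := (_root_.map_ne_zero _).mpr y.ne_zero
  have hyn : 0 < ‖algebraMap F (v.adicCompletion F) y‖ := norm_pos_iff.mpr hy0
  set ε : ℝ := δ * ‖algebraMap F (v.adicCompletion F) y‖ with hε
  have hε0 : 0 < ε := mul_pos hδ hyn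
  obtain ⟨r, ν, hν, hr⟩ := exists_compl hq0 hq v g b hy0 hε0
  obtain ⟨P, hP⟩ := exists_poly_det b g
  obtain ⟨la, hla⟩ := exists_retraction (k := v.adicCompletion F)
    (Ω := AlgebraicClosure (v.adicCompletion F))
  have hcont := (cont_poly la P).continuousAt (x := r)
  obtain ⟨η, hη, hη2⟩ := Metric.continuousAt_iff.mp hcont ε hε0
  let S : Fin (finrank F D) → Set F := fun i =>
    {t : F | ‖algebraMap F (v.adicCompletion F) t - r i‖ < η}
  have hS : ∀ i, (S i).Infinite := by
    intro i
    obtain ⟨t0, ht0⟩ := dense v (r i) η hη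
    obtain ⟨z, hz0, hz1⟩ := NormedField.exists_norm_lt (v.adicCompletion F) hη
    obtain ⟨π, hπ⟩ := v.valuation_exists_uniformizer F
    have hπ0 : π ≠ 0 := by
      rintro rfl
      rw [map_zero] at hπ
      exact WithZero.exp_ne_zero hπ.symm
    have hπ1 : ‖algebraMap F (v.adicCompletion F) π‖ < 1 := by
      rw [Vale.Agent.P011.Even.norm_lt_one_iff, valued_alg, hπ, ← WithZero.exp_zero,
        WithZero.exp_lt_exp]
      norm_num
    have hπn : 0 < ‖algebraMap F (v.adicCompletion F) π‖ :=
      norm_pos_iff.mpr ((_root_.map_ne_zero _).mpr hπ0)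
    obtain ⟨n, hn⟩ := exists_pow_lt_of_lt_one hη hπ1
    have hinj : Function.Injective fun j : ℕ => t0 + π ^ (n + j) := by
      intro j j' hjj
      have h1 : π ^ (n + j) = π ^ (n + j') := add_left_cancel hjj
      have h2 := congrArg (fun z => ‖algebraMap F (v.adicCompletion F) z‖) h1
      simp only [map_pow, norm_pow] at h2
      have h3 := (pow_right_injective₀ hπn hπ1.ne) h2
      omega
    refine (Set.infinite_range_of_injective hinj).mono ?_
    rintro _ ⟨j, rfl⟩
    change ‖algebraMap F (v.adicCompletion F) (t0 + π ^ (n + j)) - r i‖ < η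
    have e : algebraMap F (v.adicCompletion F) (t0 + π ^ (n + j)) - r i =
        -(r i - algebraMap F (v.adicCompletion F) t0) +
          algebraMap F (v.adicCompletion F) (π ^ (n + j)) := by
      rw [map_add]
      ring
    rw [e]
    refine (IsUltrametricDist.norm_add_le_max _ _).trans_lt (max_lt (by rwa [norm_neg]) ?_)
    rw [map_pow, norm_pow]
    exact lt_of_le_of_lt (pow_le_pow_of_le_one hπn.le hπ1.le (by omega)) hn
  obtain ⟨t, ht, hdeg, hdet⟩ := exists_generic hq0 hq g b S hS
  refine ⟨∑ i, t i • b i, hdeg, hrad _ ?_⟩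
  set c : F := (-1) ^ q * (minpoly F (∑ i, t i • b i)).coeff 0 with hc
  have h1 := hη2 (x := fun i => algebraMap F (v.adicCompletion F) (t i)) (by
    rw [dist_pi_lt_iff hη]
    intro i
    rw [dist_eq_norm]
    exact ht i)
  rw [dist_eq_norm, hP, hP, hr, hla] at h1
  have e1 : (∑ l, algebraMap (v.adicCompletion F) (AlgebraicClosure (v.adicCompletion F))
      (algebraMap F (v.adicCompletion F) (t l)) • g (b l)).det =
      algebraMap (v.adicCompletion F) (AlgebraicClosure (v.adicCompletion F))
        (algebraMap F (v.adicCompletion F) c) := by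
    rw [← IsScalarTower.algebraMap_apply F (v.adicCompletion F)
      (AlgebraicClosure (v.adicCompletion F)) c, ← hdet, map_sum]
    congr 1
    refine Finset.sum_congr rfl fun l _ => ?_
    rw [map_smul, ← IsScalarTower.algebraMap_apply F (v.adicCompletion F)
      (AlgebraicClosure (v.adicCompletion F)) (t l), algebraMap_smul]
  rw [e1, hla] at h1
  have e2 : algebraMap F (v.adicCompletion F) (c / y - 1) =
      (algebraMap F (v.adicCompletion F) c - algebraMap F (v.adicCompletion F) y) /
        algebraMap F (v.adicCompletion F) y := by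
    rw [map_sub, map_div₀, map_one, sub_div, div_self hy0]
  rw [e2, norm_div, div_lt_iff₀ hyn, ← hε]
  have e3 : algebraMap F (v.adicCompletion F) c - algebraMap F (v.adicCompletion F) y =
      (algebraMap F (v.adicCompletion F) c - ν) + (ν - algebraMap F (v.adicCompletion F) y) := by
    ring
  rw [e3]
  exact (IsUltrametricDist.norm_add_le_max _ _).trans_lt (max_lt h1 hν)

end Vale.Agent.P011.W
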