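import Vale.Agent.P011.W.RedB

/-!
Almost all places split a central division algebra: the end of the proof.
-/

open Module Polynomial NumberField IsDedekindDomain

namespace Vale.Agent.P011.W

open Vale.Agent.P011.Arith (Z0 exists_residue finite_residue mk_eq_zero_iff finite_ne_one)

section poly

/-- A nonzero polynomial of degree at most `q` which vanishes at `q` distinct elements including
zero has degree `q` and a simple root at zero. -/
theorem simple_root {κ : Type} [CommRing κ] [IsDomain κ] {q : ℕ} (hq0 : 0 < q) {G : κ[X]}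
    (hG0 : G ≠ 0) (hG : G.natDegree ≤ q) (hinj : ∀ i < q, ∀ j < q, (i : κ) = j → i = j)
    (hroot : ∀ j < q, G.eval (j : κ) = 0) : G.natDegree = q ∧ G.coeff 0 = 0 ∧ G.coeff 1 ≠ 0 := by
  classical
  have key : ∀ (H : κ[X]) (s : Finset ℕ), (∀ j ∈ s, j < q) → H ≠ 0 →
      (∀ j ∈ s, H.eval (j : κ) = 0) → s.card ≤ H.natDegree := by
    intro H s hs hH hr
    have h1 : (s.image fun j : ℕ => (j : κ)).card = s.card :=
      Finset.card_image_of_injOn fun i hi j hj hij => hinj i (hs i hi) j (hs j hj) hij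
    rw [← h1]
    apply card_le_degree_of_subset_roots
    intro x hx
    rw [Finset.mem_val, Finset.mem_image] at hx
    obtain ⟨j, hj, rfl⟩ := hx
    rw [mem_roots hH]
    exact hr j hj
  have h1 := key G (Finset.range q) (fun j hj => Finset.mem_range.mp hj) hG0
    (fun j hj => hroot j (Finset.mem_range.mp hj))
  rw [Finset.card_range] at h1
  have hdeg := le_antisymm hG h1
  have h0 : G.coeff 0 = 0 := by
    have := hroot 0 hq0
    rwa [Nat.cast_zero, ← coeff_zero_eq_eval_zero] at this
  refine ⟨hdeg, h0, fun hc1 => ?_⟩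
  have hX : G = X ^ 2 * G.divX.divX := by
    have e1 := G.divX_mul_X_add
    have e2 := G.divX.divX_mul_X_add
    rw [h0, C_0, add_zero] at e1
    rw [coeff_divX, zero_add, hc1, C_0, add_zero] at e2
    rw [← e2] at e1
    rw [pow_two, mul_comm, ← mul_assoc]
    exact e1.symm
  have hH0 : G.divX.divX ≠ 0 := fun h => hG0 (by rw [hX, h, mul_zero])
  have hHd : G.natDegree = 2 + G.divX.divX.natDegree := by
    conv_lhs => rw [hX]
    rw [natDegree_mul (pow_ne_zero 2 X_ne_zero) hH0, natDegree_X_pow]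
  have h2 := key G.divX.divX ((Finset.range q).erase 0)
    (fun j hj => Finset.mem_range.mp (Finset.mem_of_mem_erase hj)) hH0 (by
      intro j hj
      have hj0 : j ≠ 0 := Finset.ne_of_mem_erase hj
      have hjq : j < q := Finset.mem_range.mp (Finset.mem_of_mem_erase hj)
      have h3 := hroot j hjq
      rw [hX, eval_mul, eval_pow, eval_X] at h3
      rcases mul_eq_zero.mp h3 with h4 | h4
      · exfalso
        have h5 : (j : κ) = ((0 : ℕ) : κ) := by
          rw [Nat.cast_zero]
          exact pow_eq_zero_iff two_ne_zero |>.mp h4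
        exact hj0 (hinj j hjq 0 hq0 h5)
      · exact h4)
  rw [Finset.card_erase_of_mem (Finset.mem_range.mpr hq0), Finset.card_range] at h2
  omega

end poly

variable {F D : Type} [Field F] [NumberField F] [DivisionRing D] [Algebra F D]
  [FiniteDimensional F D] [Algebra.IsCentral F D] {N : ℕ}
  {b : Basis (Fin N) F D} {v : HeightOneSpectrum (𝓞 F)}

/-- An element of degree `q` whose minimal polynomial has, up to a factor, a simple root at zero
modulo the place. -/
theorem Nice.exists_elt (h : Nice b (v.valuation F)) {q : ℕ} (hq0 : 0 < q)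
    (hq : finrank F D = q ^ 2) (hfac : v.valuation F (q.factorial : F) = 1) :
    ∃ (x : D) (c : F), (minpoly F x).natDegree = q ∧ c ≠ 0 ∧
      (∀ i, v.valuation F (c * (minpoly F x).coeff i) ≤ 1) ∧
      v.valuation F (c * (minpoly F x).coeff 0) < 1 ∧
      v.valuation F (c * (minpoly F x).coeff 1) = 1 := by
  classical
  have hprime : v.asIdeal.IsPrime := v.isPrime
  have : IsDomain (𝓞 F ⧸ v.asIdeal) := Ideal.Quotient.isDomain v.asIdeal
  obtain ⟨n, hn, Δ, _, φ, θ, hNn, hθi, hφ⟩ := h.exists_matrix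
  have hnq : n = q := by
    rw [Module.finrank_eq_card_basis b, Fintype.card_fin, hNn, ← pow_two] at hq
    exact Nat.pow_left_injective (n := 2) (by norm_num) hq
  subst hnq
  obtain ⟨x, hx⟩ := Ideal.Quotient.mk_surjective
    (φ.symm (Matrix.diagonal fun i : Fin n => ((i : ℕ) : Δ)))
  obtain ⟨g⟩ := Vale.Agent.P011S.exists_split (K := F) (D := D) hq (AlgebraicClosure F)
  have hint : IsIntegral F (x : D) := Algebra.IsIntegral.isIntegral _
  set μ := minpoly F (x : D) with hμ
  have hμm : μ.Monic := minpoly.monic hint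
  have hle : μ.natDegree ≤ n := natDegree_le hq0 g (x : D)
  -- normalisation
  obtain ⟨i0, hi0, hmax⟩ := Finset.exists_max_image (Finset.range (n + 1))
    (fun i => v.valuation F (μ.coeff i)) ⟨0, Finset.mem_range.mpr (by omega)⟩
  have hbig : ∀ i, n < i → μ.coeff i = 0 := fun i hi =>
    coeff_eq_zero_of_natDegree_lt (lt_of_le_of_lt hle hi)
  have hmax' : ∀ i, v.valuation F (μ.coeff i) ≤ v.valuation F (μ.coeff i0) := by
    intro i
    by_cases hi : i < n + 1
    · exact hmax i (Finset.mem_range.mpr hi)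
    · rw [hbig i (by omega), map_zero]
      exact zero_le
  have hc0 : μ.coeff i0 ≠ 0 := by
    intro h0
    have h1 := hmax' μ.natDegree
    rw [hμm.coeff_natDegree, h0, map_zero, map_one] at h1
    exact absurd h1 (by simp)
  set c := (μ.coeff i0)⁻¹ with hc
  have hcne : c ≠ 0 := inv_ne_zero hc0
  have hcle : ∀ i, v.valuation F (c * μ.coeff i) ≤ 1 := by
    intro i
    rw [hc, map_mul, map_inv₀]
    have h1 : 0 < v.valuation F (μ.coeff i0) := zero_lt_iff.mpr ((Valuation.ne_zero_iff _).mpr hc0)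
    rw [inv_mul_le_one₀ h1]
    exact hmax' i
  choose r hr using fun i => exists_residue v (hcle i)
  let G : (𝓞 F ⧸ v.asIdeal)[X] := ∑ k ∈ Finset.range (n + 1),
    monomial k (Ideal.Quotient.mk v.asIdeal (r k))
  have hGc : ∀ k < n + 1, G.coeff k = Ideal.Quotient.mk v.asIdeal (r k) := by
    intro k hk
    simp only [G]
    rw [finsetSum_coeff, Finset.sum_eq_single k]
    · rw [coeff_monomial, if_pos rfl]
    · intro j _ hj
      rw [coeff_monomial, if_neg hj]
    · intro hk'
      exact absurd (Finset.mem_range.mpr hk) hk'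
  have hmk : ∀ k, Ideal.Quotient.mk v.asIdeal (r k) = 0 ↔ v.valuation F (c * μ.coeff k) < 1 := by
    intro k
    rw [mk_eq_zero_iff]
    constructor
    · intro h1
      have e : c * μ.coeff k = algebraMap (𝓞 F) F (r k) +
          -(algebraMap (𝓞 F) F (r k) - c * μ.coeff k) := by ring
      rw [e]
      refine (Valuation.map_add _ _ _).trans_lt (max_lt h1 ?_)
      rw [Valuation.map_neg]
      exact hr k
    · intro h1
      have e : algebraMap (𝓞 F) F (r k) = (algebraMap (𝓞 F) F (r k) - c * μ.coeff k) +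
          c * μ.coeff k := by ring
      rw [e]
      exact (Valuation.map_add _ _ _).trans_lt (max_lt (hr k) h1)
  have hGdeg : G.natDegree ≤ n := by
    simp only [G]
    refine natDegree_sum_le_of_forall_le _ _ fun k hk => ?_
    exact (natDegree_monomial_le _).trans (Nat.lt_succ_iff.mp (Finset.mem_range.mp hk))
  have hG0 : G ≠ 0 := by
    intro h0
    have h1 := hGc i0 (Finset.mem_range.mp hi0)
    rw [h0, coeff_zero] at h1
    have h2 := (hmk i0).mp h1.symm
    rw [hc, inv_mul_cancel₀ hc0, map_one] at h2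
    exact lt_irrefl _ h2
  -- the relation in the reduction
  have hrel : ∑ k ∈ Finset.range (n + 1), h.sc (r k) * Ideal.Quotient.mk h.idl x ^ k = 0 := by
    have e1 : ∑ k ∈ Finset.range (n + 1), h.sc (r k) * Ideal.Quotient.mk h.idl x ^ k =
        Ideal.Quotient.mk h.idl (∑ k ∈ Finset.range (n + 1),
          ⟨algebraMap F D (r k : F), h.alg_mem (v.valuation_le_one (r k))⟩ * x ^ k) := by
      rw [map_sum]
      refine Finset.sum_congr rfl fun k _ => ?_
      rw [map_mul, map_pow]
      rfl
    rw [e1, Ideal.Quotient.eq_zero_iff_mem, h.mem_idl]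
    intro i
    have e2 : ((∑ k ∈ Finset.range (n + 1), (⟨algebraMap F D (r k : F),
        h.alg_mem (v.valuation_le_one (r k))⟩ : h.ord) * x ^ k : h.ord) : D) =
        ∑ k ∈ Finset.range (n + 1), ((r k : F) - c * μ.coeff k) • (x : D) ^ k := by
      rw [AddSubmonoidClass.coe_finsetSum]
      have e3 : ∑ k ∈ Finset.range (n + 1), (c * μ.coeff k) • (x : D) ^ k = 0 := by
        have h1 := minpoly.aeval F (x : D)
        rw [aeval_eq_sum_range' (Nat.lt_succ_of_le hle)] at h1
        have h2 := congrArg (fun z => c • z) h1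
        simp only [smul_zero, Finset.smul_sum, smul_smul] at h2
        exact h2
      have e4 : ∑ k ∈ Finset.range (n + 1), ((r k : F) - c * μ.coeff k) • (x : D) ^ k =
          ∑ k ∈ Finset.range (n + 1), (r k : F) • (x : D) ^ k := by
        simp only [sub_smul, Finset.sum_sub_distrib]
        rw [e3, sub_zero]
      rw [e4]
      refine Finset.sum_congr rfl fun k _ => ?_
      rw [Subring.coe_mul, Subring.coe_pow, Algebra.smul_def]
    rw [e2, map_sum, Finsupp.finsetSum_apply]
    apply Valuation.map_sum_lt _ one_ne_zero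
    intro k _
    rw [map_smul, Finsupp.smul_apply, smul_eq_mul, map_mul]
    calc _ ≤ v.valuation F ((r k : F) - c * μ.coeff k) * 1 :=
          mul_le_mul' le_rfl ((h.ord.pow_mem x.2 k) i)
      _ < 1 := by rw [mul_one]; exact hr k
  have hroot : ∀ j < n, G.eval ((j : ℕ) : 𝓞 F ⧸ v.asIdeal) = 0 := by
    intro j hj
    apply hθi
    rw [map_zero]
    have h1 := congrArg φ hrel
    rw [map_sum, map_zero] at h1
    have h2 := congrFun (congrFun h1 ⟨j, hj⟩) ⟨j, hj⟩
    rw [Matrix.sum_apply, Matrix.zero_apply] at h2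
    rw [← h2]
    simp only [G]
    rw [eval_finsetSum, map_sum]
    refine Finset.sum_congr rfl fun k _ => ?_
    rw [map_mul, map_pow, hx, φ.apply_symm_apply, ← h.sc'_mk, hφ, eval_monomial, map_mul,
      map_pow, map_natCast, Matrix.diagonal_pow, Matrix.scalar_apply, Matrix.diagonal_mul_diagonal,
      Matrix.diagonal_apply_eq]
    rfl
  have hinj : ∀ i < n, ∀ j < n, ((i : ℕ) : 𝓞 F ⧸ v.asIdeal) = (j : ℕ) → i = j := by
    have key : ∀ i j : ℕ, i < j → j < n → ((i : ℕ) : 𝓞 F ⧸ v.asIdeal) ≠ (j : ℕ) := by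
      intro i j hij hj heq
      have h1 : Ideal.Quotient.mk v.asIdeal ((j - i : ℕ) : 𝓞 F) = 0 := by
        rw [map_natCast, Nat.cast_sub hij.le, heq, sub_self]
      rw [mk_eq_zero_iff, map_natCast] at h1
      obtain ⟨m, hm⟩ := Nat.dvd_factorial (m := j - i) (n := n) (by omega) (by omega)
      rw [hm, Nat.cast_mul, map_mul] at hfac
      have h2 : v.valuation F ((m : ℕ) : F) ≤ 1 := by
        have := v.valuation_le_one (K := F) ((m : ℕ) : 𝓞 F)
        simpa using this
      have h3 : v.valuation F (((j - i : ℕ) : ℕ) : F) * v.valuation F ((m : ℕ) : F) < 1 := by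
        calc _ ≤ v.valuation F (((j - i : ℕ) : ℕ) : F) * 1 := mul_le_mul' le_rfl h2
          _ < 1 := by rw [mul_one]; exact h1
      rw [hfac] at h3
      exact lt_irrefl _ h3
    intro i hi j hj heq
    rcases lt_trichotomy i j with h1 | h1 | h1
    · exact absurd heq (key i j h1 hj)
    · exact h1
    · exact absurd heq.symm (key j i h1 hi)
  obtain ⟨h1, h2, h3⟩ := simple_root hq0 hG0 hGdeg hinj hroot
  refine ⟨x, c, ?_, hcne, hcle, ?_, ?_⟩
  · apply le_antisymm hle
    by_contra hcon
    rw [not_le] at hcon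
    have h4 : G.coeff n = 0 := by
      rw [hGc n (by omega), hmk]
      have h5 : μ.coeff n = 0 := coeff_eq_zero_of_natDegree_lt hcon
      rw [h5, mul_zero, map_zero]
      exact zero_lt_one
    rw [← h1] at h4
    exact hG0 (leadingCoeff_eq_zero.mp h4)
  · rw [hGc 0 (by omega)] at h2
    exact (hmk 0).mp h2
  · rw [hGc 1 (by omega), Ne, hmk, not_lt] at h3
    exact le_antisymm (hcle 1) h3

/-- Such a place splits the algebra over every extension. -/
theorem Nice.spl (h : Nice b (v.valuation F)) {q : ℕ} (hq0 : 0 < q)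
    (hq : finrank F D = q ^ 2) (hfac : v.valuation F (q.factorial : F) = 1)
    (E : Type) [Field E] [NumberField E] [Algebra F E] (w : HeightOneSpectrum (𝓞 E))
    (hw : w.asIdeal.comap (algebraMap (𝓞 F) (𝓞 E)) = v.asIdeal) : Spl D q (pl (F := F) E w) := by
  have := Vale.Agent.P011.Even.isUltra w
  obtain ⟨x, c, hx, hc0, hcle, h0, h1⟩ := h.exists_elt hq0 hq hfac
  set φ : F →+* w.adicCompletion E := pl E w with hφ
  set g : F[X] := C c * minpoly F x with hg
  have hgc : ∀ i, g.coeff i = c * (minpoly F x).coeff i := fun i => coeff_C_mul _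
  have hle : ∀ y : F, v.valuation F y ≤ 1 → ‖φ y‖ ≤ 1 := by
    intro y hy
    have h2 := (norm_pl_le (E := E) hw (x := y) (y := 1)).mpr (by rwa [map_one])
    rwa [map_one, norm_one] at h2
  have hge : ∀ y : F, 1 ≤ v.valuation F y → 1 ≤ ‖φ y‖ := by
    intro y hy
    have h2 := (norm_pl_le (E := E) hw (x := 1) (y := y)).mpr (by rwa [map_one])
    rwa [map_one, norm_one] at h2
  have hlt : ∀ y : F, v.valuation F y < 1 → ‖φ y‖ < 1 := by
    intro y hy
    have h2 := (norm_pl_lt (E := E) hw (x := y) (y := 1)).mpr (by rwa [map_one])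
    rwa [map_one, norm_one] at h2
  have e0 : (g.map φ).eval 0 = φ (g.coeff 0) := by
    rw [← coeff_zero_eq_eval_zero, coeff_map]
  have e1 : (g.map φ).derivative.eval 0 = φ (g.coeff 1) := by
    rw [← coeff_zero_eq_eval_zero, coeff_derivative, coeff_map]
    simp
  obtain ⟨r, hr⟩ := exists_root (g.map φ) 0 (M := 1) (fun k => by
    rw [taylor_zero, coeff_map, hgc]
    exact hle _ (hcle k)) (by
    rw [e0, e1, one_mul, hgc, hgc]
    have h2 : ‖φ (c * (minpoly F x).coeff 1)‖ = 1 := le_antisymm (hle _ h1.le) (hge _ h1.ge)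
    rw [h2, one_pow]
    exact hlt _ h0)
  refine spl_of_eval hq0 hq hx φ (r := r) ?_
  rw [eval_map, hg, eval₂_mul, eval₂_C] at hr
  rcases mul_eq_zero.mp hr with h2 | h2
  · exact absurd ((map_eq_zero φ).mp h2) hc0
  · exact h2

omit [FiniteDimensional F D] [Algebra.IsCentral F D] in
theorem finite_not_le (x : F) :
    {v : HeightOneSpectrum (𝓞 F) | ¬ v.valuation F x ≤ 1}.Finite := by
  by_cases hx : x = 0
  · refine Set.finite_empty.subset fun v hv => ?_
    apply hv
    rw [hx, map_zero]
    exact zero_le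
  · refine (finite_ne_one (Units.mk0 x hx)).subset fun v hv h1 => hv ?_
    rw [Units.val_mk0] at h1
    exact h1.le

/-- Almost all places split a central division algebra. -/
theorem spl_almost {q : ℕ} (hq0 : 0 < q) (hq : finrank F D = q ^ 2) :
    ∃ S : Set (HeightOneSpectrum (𝓞 F)), S.Finite ∧ ∀ v ∉ S, ∀ (E : Type) [Field E]
      [NumberField E] [Algebra F E] (w : HeightOneSpectrum (𝓞 E)),
      w.asIdeal.comap (algebraMap (𝓞 F) (𝓞 E)) = v.asIdeal → Spl D q (pl (F := F) E w) := by
  classical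
  let b := finBasis F D
  have hsand : ∀ s t, ∃ a : Fin (finrank F D) → D, ∀ x, b.repr x t • b s = ∑ i, a i * x * b i := by
    intro s t
    obtain ⟨a, ha⟩ := Vale.Agent.P011.T2.sandwich_surj b
      ((b.coord t).smulRight (b s))
    exact ⟨a, fun x => ha x⟩
  choose a ha using hsand
  obtain ⟨t0, ht0⟩ : ∃ t, b.repr 1 t ≠ 0 := by
    by_contra hcon
    push Not at hcon
    have h1 : b.repr 1 = 0 := Finsupp.ext hcon
    exact one_ne_zero ((LinearEquiv.map_eq_zero_iff _).mp h1)
  let S1 : Set (HeightOneSpectrum (𝓞 F)) := ⋃ i, ⋃ j, ⋃ l,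
    {v | ¬ v.valuation F (b.repr (b i * b j) l) ≤ 1}
  let S2 : Set (HeightOneSpectrum (𝓞 F)) := ⋃ i, {v | ¬ v.valuation F (b.repr 1 i) ≤ 1}
  let S3 : Set (HeightOneSpectrum (𝓞 F)) := {v | v.valuation F (b.repr 1 t0) ≠ 1}
  let S4 : Set (HeightOneSpectrum (𝓞 F)) := ⋃ s, ⋃ t, ⋃ i, ⋃ l,
    {v | ¬ v.valuation F (b.repr (a s t i) l) ≤ 1}
  let S5 : Set (HeightOneSpectrum (𝓞 F)) := {v | v.valuation F (q.factorial : F) ≠ 1}
  have hq' : (q.factorial : F) ≠ 0 := Nat.cast_ne_zero.mpr q.factorial_ne_zero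
  refine ⟨S1 ∪ S2 ∪ S3 ∪ S4 ∪ S5, ?_, ?_⟩
  · refine ((((Set.finite_iUnion fun i => Set.finite_iUnion fun j => Set.finite_iUnion fun l =>
      finite_not_le _).union (Set.finite_iUnion fun i => finite_not_le _)).union
      (finite_ne_one (Units.mk0 _ ht0))).union (Set.finite_iUnion fun s =>
      Set.finite_iUnion fun t => Set.finite_iUnion fun i => Set.finite_iUnion fun l =>
      finite_not_le _)).union (finite_ne_one (Units.mk0 _ hq'))
  · intro v hv E _ _ _ w hw
    simp only [S1, S2, S3, S4, S5, Set.mem_union, Set.mem_iUnion, Set.mem_ofPred_eq, not_or,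
      not_exists, not_not] at hv
    obtain ⟨⟨⟨⟨h1, h2⟩, h3⟩, h4⟩, h5⟩ := hv
    have h : Nice b (v.valuation F) :=
      { mul := h1
        one := h2
        one' := ⟨t0, h3⟩
        sand := fun s t => ⟨a s t, h4 s t, ha s t⟩ }
    exact h.spl hq0 hq h5 E w hw

end Vale.Agent.P011.W
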