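import Vale.Agent.P011.W.Eich2
import Vale.Agent.P011.W.NearNrd
import Vale.Agent.P011.W.RedC
import Vale.Agent.P011.Arith.SUnit

/-!
Eichler's norm theorem in prime power degree.
-/

open NumberField IsDedekindDomain Polynomial Module

namespace Vale.Agent.P011.W

open Vale.Agent.P011.Arith (Z0 Pl plAbv plAbv_lt plAbv_inr approx)

/-- A real polynomial close to `X ^ d + c` has no real root. -/
theorem real_no_root {d : ℕ} (hd : Even d) (hd0 : d ≠ 0) {c : ℝ} (hc : 0 < c) (β : ℕ → ℝ)
    (h0 : β 0 = c) (hβ : ∀ i, i ≠ 0 → |β i| < min 1 c / (2 * d)) (r : ℝ) :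
    r ^ d + ∑ i ∈ Finset.range d, β i * r ^ i ≠ 0 := by
  intro h
  have hd1 : 0 < d := Nat.pos_of_ne_zero hd0
  have hdR : (0 : ℝ) < d := by exact_mod_cast hd1
  have hrd : 0 ≤ r ^ d := hd.pow_nonneg r
  obtain ⟨m, hm⟩ : ∃ m, m = min 1 c := ⟨_, rfl⟩
  have hm0 : 0 < m := by rw [hm]; exact lt_min one_pos hc
  have hm1 : m ≤ 1 := by rw [hm]; exact min_le_left _ _
  have hmc : m ≤ c := by rw [hm]; exact min_le_right _ _
  rw [← hm] at hβ
  have h1 : ∀ i ∈ Finset.range d, i ≠ 0 → -(m / (2 * d) * (1 + r ^ d)) ≤ β i * r ^ i := by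
    intro i hi hi0
    have h2 : |r ^ i| ≤ 1 + r ^ d := by
      rw [abs_pow]
      have h3 : r ^ d = |r| ^ d := by rw [hd.pow_abs]
      rw [h3]
      rcases le_total |r| 1 with h4 | h4
      · have h5 : |r| ^ i ≤ 1 := pow_le_one₀ (abs_nonneg r) h4
        have h6 : 0 ≤ |r| ^ d := pow_nonneg (abs_nonneg r) d
        linarith
      · have h5 : |r| ^ i ≤ |r| ^ d := pow_le_pow_right₀ h4 (Finset.mem_range.mp hi).le
        linarith
    have h3 : |β i * r ^ i| ≤ m / (2 * d) * (1 + r ^ d) := by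
      rw [abs_mul]
      exact mul_le_mul (hβ i hi0).le h2 (abs_nonneg _) (by positivity)
    exact (abs_le.mp h3).1
  obtain ⟨k, hk⟩ : ∃ k, d = k + 1 := ⟨d - 1, by omega⟩
  have h2 : ∑ i ∈ Finset.range d, β i * r ^ i = c + ∑ i ∈ Finset.range k, β (i + 1) * r ^ (i + 1) := by
    rw [hk, Finset.sum_range_succ', h0, pow_zero, mul_one, add_comm]
  have h3 : -(k * (m / (2 * d) * (1 + r ^ d))) ≤
      ∑ i ∈ Finset.range k, β (i + 1) * r ^ (i + 1) := by
    have h4 := Finset.card_nsmul_le_sum (Finset.range k) (fun i => β (i + 1) * r ^ (i + 1))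
      (-(m / (2 * d) * (1 + r ^ d))) (fun i hi => h1 (i + 1) (by
        rw [Finset.mem_range] at hi ⊢; omega) (Nat.succ_ne_zero i))
    rw [Finset.card_range, nsmul_eq_mul] at h4
    linarith
  have h4 : (k : ℝ) * (m / (2 * d) * (1 + r ^ d)) ≤ m / 2 * (1 + r ^ d) := by
    have h5 : (k : ℝ) ≤ d := by rw [hk]; push_cast; linarith
    calc (k : ℝ) * (m / (2 * d) * (1 + r ^ d)) ≤ d * (m / (2 * d) * (1 + r ^ d)) :=
          mul_le_mul_of_nonneg_right h5 (by positivity)
      _ = m / 2 * (1 + r ^ d) := by field_simp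
  rw [h2] at h
  nlinarith

variable {F D : Type} [Field F] [NumberField F] [DivisionRing D] [Algebra F D]
    [FiniteDimensional F D] [Algebra.IsCentral F D]

/-- The target polynomial at a bad place. -/
theorem exists_target {d : ℕ} (hd : d ≠ 0) (hD : finrank F D = d ^ 2)
    (v : HeightOneSpectrum (𝓞 F)) (y : F) (hy : y ≠ 0) :
    ∃ (Q : F[X]) (g : F), g ≠ 0 ∧ v.valuation F ((-1) ^ d * y - Q.coeff 0) < v.valuation F g ∧
      ∀ f : F[X], f.Monic → f.natDegree = d →
      (∀ i, i < d → v.valuation F (f.coeff i - Q.coeff i) < v.valuation F g) →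
      ∀ (L : Type) [Field L] [NumberField L] [Algebra F L] (w : HeightOneSpectrum (𝓞 L)),
        w.asIdeal.comap (algebraMap (𝓞 F) (𝓞 L)) = v.asIdeal → ∀ ξ : L, aeval ξ f = 0 →
        Spl D d (pl (F := F) L w) := by
  have hd0 : v.valuation F (d : F) ≠ 0 :=
    (Valuation.ne_zero_iff _).mpr (Nat.cast_ne_zero.mpr hd)
  have hvy : v.valuation F y ≠ 0 := (Valuation.ne_zero_iff _).mpr hy
  obtain ⟨x, hx, hN⟩ := exists_near (deg_pos hD) hD v (Units.mk0 y hy) (v.valuation F (d : F) ^ 2)
    (pow_ne_zero 2 hd0)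
  rw [Units.val_mk0] at hN
  obtain ⟨g, hg0, hg⟩ := loc (Nat.pos_of_ne_zero hd) hD v x hx
  obtain ⟨ρ, hρ⟩ : ∃ ρ : F, ρ = (-1) ^ d * (minpoly F x).coeff 0 / y := ⟨_, rfl⟩
  rw [← hρ] at hN
  have hρ1 : v.valuation F ρ = 1 := by
    have h1 := (v.valuation F).map_one_add_of_lt (x := ρ - 1) (lt_of_lt_of_le hN
      (pow_le_one' (e_val_nat_le _ d) 2))
    rwa [add_sub_cancel] at h1
  have hρ0 : ρ ≠ 0 := by
    rintro rfl
    rw [map_zero] at hρ1
    exact zero_ne_one hρ1
  have hμ : v.valuation F (ρ⁻¹ - 1) < v.valuation F (d : F) ^ 2 := by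
    have e1 : ρ⁻¹ - 1 = -((ρ - 1) / ρ) := by field_simp; ring
    rw [e1, Valuation.map_neg, map_div₀, hρ1, div_one]
    exact hN
  have hvg : v.valuation F g ≠ 0 := (Valuation.ne_zero_iff _).mpr hg0
  obtain ⟨c, hc1, hc2⟩ := e_newton_pow (v.valuation F) hd0 hμ
    (γ := v.valuation F g / v.valuation F y) (div_ne_zero hvg hvy)
  have hint : IsIntegral F x := IsIntegral.of_finite F x
  refine ⟨(minpoly F x).scaleRoots c, g, hg0, ?_, ?_⟩
  · have e1 : (-1) ^ d * y - ((minpoly F x).scaleRoots c).coeff 0 =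
        -((-1) ^ d * y * ρ * (c ^ d - ρ⁻¹)) := by
      rw [coeff_scaleRoots, hx, Nat.sub_zero]
      have h1 : (minpoly F x).coeff 0 = (-1) ^ d * (y * ρ) := by
        rw [hρ]
        have h2 : ((-1 : F) ^ d) * (-1) ^ d = 1 := by
          rw [← mul_pow]; norm_num
        field_simp
        linear_combination (-(minpoly F x).coeff 0) * h2
      rw [h1]
      field_simp
      ring
    rw [e1, Valuation.map_neg, map_mul, map_mul, map_mul, map_pow, Valuation.map_neg, map_one,
      one_pow, one_mul, hρ1, mul_one, mul_comm]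
    exact (lt_div_iff₀ (zero_lt_iff.mpr hvy)).mp hc2
  · intro f hf hfd hclose L _ _ _ w hw ξ hξ
    refine hg c hc1 f hf hfd ?_ L w hw ξ hξ
    intro i
    rcases lt_trichotomy i d with hi | hi | hi
    · exact hclose i hi
    · have h1 : f.coeff i = 1 := by rw [hi, ← hfd]; exact hf.coeff_natDegree
      have h2 : ((minpoly F x).scaleRoots c).coeff i = 1 := by
        rw [coeff_scaleRoots, hx, hi, Nat.sub_self, pow_zero, mul_one]
        have h3 := (minpoly.monic hint).coeff_natDegree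
        rwa [hx] at h3
      rw [h1, h2, sub_self, map_zero]
      exact zero_lt_iff.mpr hvg
    · rw [coeff_eq_zero_of_natDegree_lt (by rw [hfd]; exact hi), coeff_eq_zero_of_natDegree_lt
        (by rw [natDegree_scaleRoots, hx]; exact hi), sub_self, map_zero]
      exact zero_lt_iff.mpr hvg

/-- C4 Eichler's norm theorem in prime power degree -/
theorem eichler {p e : ℕ} (hp : p.Prime) (hD : finrank F D = (p ^ e) ^ 2) (y : F) (hy : y ≠ 0)
    (hpos : p = 2 → ∀ φ : F →+* ℝ, Spl D (p ^ e) φ ∨ 0 < φ y) :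
    ∃ t : D, HasNrd F (p ^ e) t y := by
  classical
  rcases Nat.eq_zero_or_pos e with rfl | he
  · refine ⟨algebraMap F D y, ?_⟩
    have h := HasNrd.algMap (D := D) (d := p ^ 0) y
    rwa [pow_zero, pow_one, ← pow_zero p] at h
  obtain ⟨d, hd⟩ : ∃ d, d = p ^ e := ⟨_, rfl⟩
  rw [← hd] at hD hpos ⊢
  have hd0 : d ≠ 0 := by rw [hd]; exact pow_ne_zero e hp.ne_zero
  obtain ⟨S, hS, hSspl⟩ := spl_almost (deg_pos hD) hD
  choose Q g hg0 hQ hloc using fun v : HeightOneSpectrum (𝓞 F) => exists_target hd0 hD v y hy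
  let T : Set (Pl F) := Sum.inl '' S ∪ Set.range Sum.inr
  have hT : T.Finite := (hS.image _).union (Set.finite_range _)
  let δ : Pl F → ℝ := fun q => match q with
    | .inl v => plAbv (.inl v) (g v)
    | .inr φ => if 0 < φ y then min 1 (φ y) / (2 * d) else 1
  have hδ : ∀ q, 0 < δ q := by
    rintro (v | φ)
    · exact (plAbv (.inl v)).pos (hg0 v)
    · change 0 < (if 0 < φ y then min 1 (φ y) / (2 * d) else 1)
      split_ifs with h
      · have hdR : (0 : ℝ) < d := by exact_mod_cast Nat.pos_of_ne_zero hd0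
        have := lt_min one_pos h
        positivity
      · exact one_pos
  have happ : ∀ i : ℕ, ∃ b : F, ∀ q ∈ T, plAbv q (b - (match q with
      | .inl v => (Q v).coeff i
      | .inr _ => 0)) < δ q := fun i => approx T hT (fun q => match q with
      | .inl v => (Q v).coeff i
      | .inr _ => 0) δ hδ
  choose b hb using happ
  let β : ℕ → F := fun i => if i = 0 then (-1) ^ d * y else b i
  have hβ0 : β 0 = (-1) ^ d * y := if_pos rfl
  have hβi : ∀ i, i ≠ 0 → β i = b i := fun i hi => if_neg hi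
  let r : F[X] := ∑ i ∈ Finset.range d, C (β i) * X ^ i
  have hrdeg : r.degree < d := by
    rw [← mem_degreeLT]
    refine Submodule.sum_mem _ fun i hi => ?_
    rw [mem_degreeLT]
    refine lt_of_le_of_lt (degree_C_mul_X_pow_le i _) ?_
    exact_mod_cast Finset.mem_range.mp hi
  have hrcoeff : ∀ i, i < d → r.coeff i = β i := by
    intro i hi
    simp only [r, finsetSum_coeff, coeff_C_mul, coeff_X_pow]
    rw [Finset.sum_eq_single i]
    · simp
    · intro j _ hj
      rw [if_neg (Ne.symm hj), mul_zero]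
    · intro h
      exact absurd (Finset.mem_range.mpr hi) h
  let f : F[X] := X ^ d + r
  have hfm : f.Monic := monic_X_pow_add hrdeg
  have hfd : f.natDegree = d := by
    change (X ^ d + r).natDegree = d
    rw [natDegree_add_eq_left_of_degree_lt (by rw [degree_X_pow]; exact hrdeg), natDegree_X_pow]
  have hfc : ∀ i, i < d → f.coeff i = β i := by
    intro i hi
    change (X ^ d + r).coeff i = _
    rw [coeff_add, coeff_X_pow, if_neg hi.ne, zero_add, hrcoeff i hi]
  have hf0 : f.coeff 0 = (-1) ^ d * y := by rw [hfc 0 (Nat.pos_of_ne_zero hd0), hβ0]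
  have hneg : ((-1 : F) ^ d) * (-1) ^ d = 1 := by rw [← mul_pow]; norm_num
  have hA : ∀ (L : Type) [Field L] [NumberField L] [Algebra F L] (w : HeightOneSpectrum (𝓞 L))
      (ξ : L), aeval ξ f = 0 → Spl D (p ^ e) (pl (F := F) L w) := by
    intro L _ _ _ w ξ hξ
    rw [← hd]
    obtain ⟨v, hv⟩ := Arith.exists_below (F := F) w
    by_cases hvS : v ∉ S
    · exact hSspl v hvS L w hv
    · rw [not_not] at hvS
      refine hloc v f hfm hfd ?_ L w hv ξ hξ
      intro i hi
      rw [hfc i hi]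
      rcases Nat.eq_zero_or_pos i with rfl | hi0
      · rw [hβ0]
        exact hQ v
      · rw [hβi i hi0.ne']
        exact (plAbv_lt v _ _).mp (hb i (.inl v) (Or.inl ⟨v, hvS, rfl⟩))
  have hB : p = 2 → ∀ (φ : F →+* ℝ) (r : ℝ), (f.map φ).eval r = 0 → Spl D (p ^ e) φ := by
    intro hp2 φ s hs
    rw [← hd]
    rcases hpos hp2 φ with h | h
    · exact h
    · exfalso
      have hde : Even d := by
        rw [hd, hp2]
        exact (even_two.pow_of_ne_zero (by omega : e ≠ 0))
      refine real_no_root hde hd0 h (fun i => φ (β i)) ?_ ?_ s ?_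
      · rw [hβ0, hde.neg_one_pow, one_mul]
      · intro i hi
        have h1 := hb i (.inr φ) (Or.inr ⟨φ, rfl⟩)
        rw [plAbv_inr] at h1
        change |φ (b i - 0)| < (if 0 < φ y then min 1 (φ y) / (2 * d) else 1) at h1
        rw [if_pos h, sub_zero] at h1
        change |φ (β i)| < _
        rw [hβi i hi]
        exact h1
      · rw [← hs]
        change _ = ((X ^ d + ∑ i ∈ Finset.range d, C (β i) * X ^ i).map φ).eval s
        rw [Polynomial.map_add, Polynomial.map_pow, map_X, eval_add, eval_pow, eval_X,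
          Polynomial.map_sum, eval_finsetSum]
        congr 1
        refine Finset.sum_congr rfl fun i _ => ?_
        rw [Polynomial.map_mul, map_C, Polynomial.map_pow, map_X, eval_mul, eval_C, eval_pow,
          eval_X]
  obtain ⟨t, ht⟩ := exists_of_poly hp (e := e) (by rw [← hd]; exact hD) f (by rw [hfd, hd]) hfm
    hA hB
  refine ⟨t, ?_⟩
  rw [← hd, hf0, ← mul_assoc, hneg, one_mul] at ht
  exact ht

end Vale.Agent.P011.W
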