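import Vale.Agent.P011.W.MaxF
import Vale.Agent.P011.RP.Dense

/-!
Signs of norms at real places, and elements with prescribed signs.
-/

open Module Polynomial NumberField

namespace Vale.Agent.P011.W

/-- Norms from an extension without real places above a real place are positive there. -/
theorem norm_pos {Z L : Type} [Field Z] [CharZero Z] [Field L] [Algebra Z L]
    [FiniteDimensional Z L] (φ : Z →+* ℝ)
    (hno : ∀ ψ : L →+* ℝ, ψ.comp (algebraMap Z L) ≠ φ) {x : L} (hx : x ≠ 0) :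
    0 < φ (Algebra.norm Z x) := by
  classical
  let _ : Algebra Z ℂ := ((algebraMap ℝ ℂ).comp φ).toAlgebra
  have halg : ∀ z : Z, algebraMap Z ℂ z = ((φ z : ℝ) : ℂ) := fun z => rfl
  obtain ⟨g, hg⟩ := Field.exists_primitive_element Z L
  -- the conjugate of an embedding
  let cj : (L →ₐ[Z] ℂ) → (L →ₐ[Z] ℂ) := fun τ =>
    { (starRingEnd ℂ).comp (τ : L →+* ℂ) with
      commutes' := fun z => by
        change (starRingEnd ℂ) (τ (algebraMap Z L z)) = _
        rw [τ.commutes, halg, Complex.conj_ofReal] }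
  have hcj : ∀ τ y, cj τ y = (starRingEnd ℂ) (τ y) := fun τ y => rfl
  have hcjcj : ∀ τ, cj (cj τ) = τ := fun τ => AlgHom.ext fun y => by
    rw [hcj, hcj, Complex.conj_conj]
  have him : ∀ τ : L →ₐ[Z] ℂ, (τ g).im ≠ 0 := by
    intro τ h0
    have hreal : ∀ y : L, (τ y).im = 0 := by
      intro y
      have hy : y ∈ IntermediateField.adjoin Z {g} := by rw [hg]; trivial
      have h1 : cj τ = τ := by
        have h2 : (cj τ) g = τ g := by
          rw [hcj]
          exact Complex.conj_eq_iff_im.mpr h0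
        have h3 : ∀ y ∈ IntermediateField.adjoin Z {g}, (cj τ) y = τ y := by
          intro y hy
          induction hy using IntermediateField.adjoin_induction with
          | mem x hx => rw [Set.mem_singleton_iff] at hx; rw [hx, h2]
          | algebraMap x => rw [AlgHom.commutes, AlgHom.commutes]
          | add x y _ _ hx hy => rw [map_add, map_add, hx, hy]
          | inv x _ hx => rw [map_inv₀, map_inv₀, hx]
          | mul x y _ _ hx hy => rw [map_mul, map_mul, hx, hy]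
        exact AlgHom.ext fun y => h3 y (by rw [hg]; trivial)
      have h4 := congrArg (fun f : L →ₐ[Z] ℂ => f y) h1
      exact Complex.conj_eq_iff_im.mp h4
    let ψ : L →+* ℝ :=
      { toFun := fun y => (τ y).re
        map_one' := by rw [map_one, Complex.one_re]
        map_mul' := fun x y => by rw [map_mul, Complex.mul_re, hreal x, zero_mul, sub_zero]
        map_zero' := by rw [map_zero, Complex.zero_re]
        map_add' := fun x y => by rw [map_add, Complex.add_re] }
    apply hno ψ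
    ext z
    change (τ (algebraMap Z L z)).re = φ z
    rw [τ.commutes, halg, Complex.ofReal_re]
  have hprod := Algebra.norm_eq_prod_embeddings Z ℂ x
  rw [← Finset.prod_filter_mul_prod_filter_not Finset.univ (fun τ : L →ₐ[Z] ℂ => 0 < (τ g).im)]
    at hprod
  have h2 : ∏ τ ∈ Finset.univ.filter (fun τ : L →ₐ[Z] ℂ => ¬ 0 < (τ g).im), τ x =
      ∏ τ ∈ Finset.univ.filter (fun τ : L →ₐ[Z] ℂ => 0 < (τ g).im), (starRingEnd ℂ) (τ x) := by
    refine Finset.prod_nbij' cj cj ?_ ?_ (fun τ _ => hcjcj τ) (fun τ _ => hcjcj τ) ?_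
    · intro τ hτ
      rw [Finset.mem_filter] at hτ ⊢
      refine ⟨Finset.mem_univ _, ?_⟩
      rw [hcj, Complex.conj_im]
      have := lt_of_le_of_ne (not_lt.mp hτ.2) (him τ)
      linarith
    · intro τ hτ
      rw [Finset.mem_filter] at hτ ⊢
      refine ⟨Finset.mem_univ _, ?_⟩
      rw [hcj, Complex.conj_im]
      linarith [hτ.2]
    · intro τ _
      rw [hcj, Complex.conj_conj]
  rw [h2, ← map_prod, Complex.mul_conj, halg] at hprod
  have h3 : φ (Algebra.norm Z x) = Complex.normSq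
      (∏ τ ∈ Finset.univ.filter (fun τ : L →ₐ[Z] ℂ => 0 < (τ g).im), τ x) := by
    exact_mod_cast hprod
  rw [h3, Complex.normSq_pos]
  refine Finset.prod_ne_zero_iff.mpr fun τ _ => ?_
  rwa [Ne, map_eq_zero]

/-- Elements with prescribed signs. -/
theorem exists_signs' {E : Type} [Field E] [NumberField E] (r : (E →+* ℝ) → ℝ)
    (hr : ∀ ψ, r ψ ≠ 0) : ∃ x : E, x ≠ 0 ∧ ∀ ψ : E →+* ℝ, 0 < r ψ * ψ x := by
  obtain ⟨x, hx⟩ := RP.real_dense (fun ψ : E →+* ℝ => r ψ / |r ψ|)
    (show (0 : ℝ) < 1 / 2 by norm_num)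
  have h1 : ∀ ψ : E →+* ℝ, 0 < r ψ * ψ x := by
    intro ψ
    have h2 := hx ψ
    rw [abs_lt] at h2
    rcases lt_or_gt_of_ne (hr ψ) with h3 | h3
    · rw [abs_of_neg h3, div_neg, div_self h3.ne] at h2
      exact mul_pos_of_neg_of_neg h3 (by linarith)
    · rw [abs_of_pos h3, div_self h3.ne'] at h2
      exact mul_pos h3 (by linarith)
  by_cases hx0 : x = 0
  · refine ⟨1, one_ne_zero, fun ψ => ?_⟩
    have := h1 ψ
    rw [hx0, map_zero, mul_zero] at this
    exact absurd this (lt_irrefl _)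
  · exact ⟨x, hx0, h1⟩

/-- A multiple by an element of the base field with prescribed signs. -/
theorem exists_sign_base {E Z : Type} [Field E] [NumberField E] [Field Z] [NumberField Z]
    [Algebra E Z] (σ : Z ≃ₐ[E] Z)
    (htr : ∀ φ ψ : Z →+* ℝ, φ.comp (algebraMap E Z) = ψ.comp (algebraMap E Z) →
      ψ = φ ∨ ψ = φ.comp (σ : Z →+* Z)) (P : (Z →+* ℝ) → Prop)
    {y : Z} (hy : y ≠ 0)
    (hpos : ∀ φ, ¬ P φ → 0 < φ (y / σ y)) :
    ∃ c : E, c ≠ 0 ∧ ∀ φ : Z →+* ℝ, P φ ∨ 0 < φ (algebraMap E Z c * y) := by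
  classical
  have hσy : σ y ≠ 0 := by rw [Ne, EmbeddingLike.map_eq_zero_iff]; exact hy
  obtain ⟨c, hc0, hc⟩ := exists_signs' (E := E) (fun ψ => if ∃ φ : Z →+* ℝ,
    φ.comp (algebraMap E Z) = ψ ∧ ¬ P φ ∧ φ y < 0 then -1 else 1) (fun ψ => by
      split_ifs <;> norm_num)
  refine ⟨c, hc0, fun φ => ?_⟩
  by_cases hP : P φ
  · exact Or.inl hP
  right
  have h1 := hc (φ.comp (algebraMap E Z))
  have hφy : φ y ≠ 0 := by rwa [Ne, map_eq_zero]
  rw [map_mul]
  rcases lt_or_gt_of_ne hφy with h2 | h2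
  · rw [if_pos ⟨φ, rfl, hP, h2⟩] at h1
    rw [RingHom.comp_apply] at h1
    exact mul_pos_of_neg_of_neg (by linarith) h2
  · have h3 : ¬ ∃ ψ : Z →+* ℝ, ψ.comp (algebraMap E Z) = φ.comp (algebraMap E Z) ∧ ¬ P ψ ∧
        ψ y < 0 := by
      rintro ⟨ψ, h4, h5, h6⟩
      rcases htr φ ψ h4.symm with rfl | rfl
      · linarith
      · have h7 := hpos φ hP
        rw [map_div₀] at h7
        have h8 : φ (σ y) < 0 := h6
        have h9 := div_neg_of_pos_of_neg h2 h8
        linarith
    rw [if_neg h3, one_mul, RingHom.comp_apply] at h1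
    exact mul_pos h1 h2

/-- The two real places above a real place in a quadratic extension. -/
theorem real_trans {E Z : Type} [Field E] [NumberField E] [Field Z] [NumberField Z]
    [Algebra E Z] (hZ : finrank E Z = 2) (σ : Z ≃ₐ[E] Z) (hσ : σ ≠ 1)
    (φ ψ : Z →+* ℝ) (h : φ.comp (algebraMap E Z) = ψ.comp (algebraMap E Z)) :
    ψ = φ ∨ ψ = φ.comp (σ : Z →+* Z) := by
  classical
  have hfin : FiniteDimensional E Z := Module.finite_of_finrank_pos (by rw [hZ]; norm_num)
  let _ : Algebra E ℝ := (φ.comp (algebraMap E Z)).toAlgebra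
  let f1 : Z →ₐ[E] ℝ := { φ with commutes' := fun c => rfl }
  let f2 : Z →ₐ[E] ℝ := { ψ with commutes' := fun c => (RingHom.congr_fun h c).symm }
  let f3 : Z →ₐ[E] ℝ := f1.comp (σ : Z →ₐ[E] Z)
  by_contra hcon
  push Not at hcon
  have h1 : f2 ≠ f1 := fun h2 => hcon.1 (RingHom.ext fun z => congrArg (fun f : Z →ₐ[E] ℝ => f z) h2)
  have h2 : f2 ≠ f3 := fun h2 => hcon.2 (RingHom.ext fun z => congrArg (fun f : Z →ₐ[E] ℝ => f z) h2)
  have h3 : f1 ≠ f3 := by
    intro h4
    apply hσ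
    ext z
    have h5 := congrArg (fun f : Z →ₐ[E] ℝ => f z) h4
    exact (f1.injective h5).symm
  have hcard : ({f1, f2, f3} : Finset (Z →ₐ[E] ℝ)).card = 3 := by
    rw [Finset.card_insert_of_notMem, Finset.card_insert_of_notMem, Finset.card_singleton]
    · rwa [Finset.mem_singleton]
    · rw [Finset.mem_insert, Finset.mem_singleton, not_or]
      exact ⟨h1.symm, h3⟩
  have hle := card_algHom_le_finrank E Z ℝ
  rw [Nat.card_eq_fintype_card] at hle
  have hle2 := Finset.card_le_univ ({f1, f2, f3} : Finset (Z →ₐ[E] ℝ))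
  omega

/-- The signs in the inductive step for the reduced Whitehead group. -/
theorem exists_sign_of {p e : ℕ} (hp2 : p = 2) {E Z : Type} [Field E] [NumberField E]
    [Field Z] [NumberField Z] [Algebra E Z] (hZ : finrank E Z = p) (σ : Z ≃ₐ[E] Z)
    (hσ : σ ≠ 1)
    {C : Type} [DivisionRing C] [Algebra Z C] [FiniteDimensional Z C] [Algebra.IsCentral Z C]
    (hC : finrank Z C = (p ^ e) ^ 2)
    {L : Type} [Field L] [Algebra Z L] [FiniteDimensional Z L] (hL : finrank Z L = p ^ e)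
    (j : L →ₐ[Z] C) {x : L} (hx : x ≠ 0) {y : Z} (hy : y ≠ 0)
    (hxy : y / σ y = Algebra.norm Z x) :
    ∃ c : E, c ≠ 0 ∧ ∀ φ : Z →+* ℝ, Spl C (p ^ e) φ ∨ 0 < φ (algebraMap E Z c * y) := by
  subst hp2
  refine exists_sign_base σ (real_trans hZ σ hσ) (fun φ => Spl C (2 ^ e) φ) hy fun φ hφ => ?_
  rw [hxy]
  refine norm_pos φ (fun ψ hψ => hφ ?_) hx
  rw [← hψ]
  exact (spl_of_maxfield hC hL j).comp ψ

end Vale.Agent.P011.W
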