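import Vale.Agent.P011.W.Part

/-!
Base change of a division algebra of prime power degree to an extension of degree prime to it.
-/

open Module TensorProduct Matrix

namespace Vale.Agent.P011.W

open Vale.Agent.P011S (mdU mdU_diagonal trf trf_one_tmul)

/-- Matrices of size one. -/
def oneEquiv (E Δ : Type) [Field E] [DivisionRing Δ] [Algebra E Δ] :
    Matrix (Fin 1) (Fin 1) Δ ≃ₐ[E] Δ where
  toFun A := A 0 0
  invFun x := Matrix.of fun _ _ => x
  left_inv A := by
    ext i j
    rw [Subsingleton.elim i 0, Subsingleton.elim j 0]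
    rfl
  right_inv x := rfl
  map_mul' A B := by rw [Matrix.mul_apply, Fin.sum_univ_one]
  map_add' A B := rfl
  commutes' c := by rw [Matrix.algebraMap_matrix_apply, if_pos rfl]

section

variable {F D : Type} [Field F] [CharZero F] [DivisionRing D] [Algebra F D]
  [FiniteDimensional F D] [Algebra.IsCentral F D]

/-- The base change to an extension of degree prime to the index is a division algebra. -/
theorem exists_coprime' {p e : ℕ} (hp : p.Prime) (hD : finrank F D = (p ^ e) ^ 2)
    (E : Type) [Field E] [Algebra F E] [FiniteDimensional F E] (hE : Nat.Coprime (finrank F E) p) :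
    ∃ (D' : Type) (_ : DivisionRing D') (_ : Algebra E D') (_ : FiniteDimensional E D')
      (_ : Algebra.IsCentral E D') (_ : E ⊗[F] D ≃ₐ[E] D'), finrank E D' = (p ^ e) ^ 2 := by
  obtain ⟨n, q, hn, Δ, i1, i2, i3, i4, ψ, hnq, hq⟩ := exists_part' hD E
  have hcE : CharZero E := charZero_of_injective_algebraMap (algebraMap F E).injective
  have hq0 : 0 < q := deg_pos hq
  have hn1 : n = 1 := by
    obtain ⟨L, j1, j2, j3, j, u, hL, _⟩ := exists_maxfield (F := E) (D := Δ) hq 1
    obtain ⟨f2⟩ := spl_iff.mp (spl_of_maxfield hq hL j)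
    let _ : Algebra F L := ((algebraMap E L).comp (algebraMap F E)).toAlgebra
    have : IsScalarTower F E L := IsScalarTower.of_algebraMap_eq fun x => rfl
    have : FiniteDimensional F L := Module.Finite.trans E L
    have h1 := spl_of_part ψ hnq f2
    have h2 := dvd_of_spl hD L (spl_iff.mpr h1)
    rw [← finrank_mul_finrank F E L, hL] at h2
    have h3 : p ^ e ∣ q := (Nat.Coprime.pow_left e (Nat.coprime_comm.mp hE)).dvd_of_dvd_mul_left h2
    rw [← hnq] at h3
    have h4 := Nat.le_of_dvd hq0 h3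
    have h5 : 0 < n := Nat.pos_of_ne_zero (NeZero.ne n)
    nlinarith
  subst hn1
  rw [one_mul] at hnq
  subst hnq
  exact ⟨Δ, i1, i2, i3, i4, ψ.trans (oneEquiv E Δ), hq⟩

/-- A9 extensions of degree prime to `p` -/
theorem exists_coprime {p e : ℕ} (hp : p.Prime) (hD : finrank F D = (p ^ e) ^ 2)
    (E : Type) [Field E] [Algebra F E] [FiniteDimensional F E] (hE : Nat.Coprime (finrank F E) p) :
    ∃ (D' : Type) (_ : DivisionRing D') (_ : Algebra E D') (_ : FiniteDimensional E D')
      (_ : Algebra.IsCentral E D') (ι : D →+* D'), finrank E D' = (p ^ e) ^ 2 ∧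
      (∀ x : F, ι (algebraMap F D x) = algebraMap E D' (algebraMap F E x)) ∧
      (∀ (x : D) (y : F), HasNrd F (p ^ e) x y → HasNrd E (p ^ e) (ι x) (algebraMap F E y)) ∧
      ∀ (A : Type) [CommGroup A] (F0 : D → A)
        (_ : ∀ a b : D, a ≠ 0 → b ≠ 0 → F0 (a * b) = F0 a * F0 b) (_ : F0 (-1) = 1),
        ∃ F1 : D' → A, (∀ a b : D', a ≠ 0 → b ≠ 0 → F1 (a * b) = F1 a * F1 b) ∧ F1 (-1) = 1 ∧
          ∀ u : D, u ≠ 0 → F1 (ι u) = F0 u ^ finrank F E := by
  classical
  obtain ⟨D', i1, i2, i3, i4, ψ, h1⟩ := exists_coprime' hp hD E hE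
  let ι : D →+* D' := (ψ : E ⊗[F] D →+* D').comp
    ((Algebra.TensorProduct.includeRight : D →ₐ[F] E ⊗[F] D) : D →+* E ⊗[F] D)
  have hι : ∀ x : D, ι x = ψ (1 ⊗ₜ x) := fun x => rfl
  have hιF : ∀ x : F, ι (algebraMap F D x) = algebraMap E D' (algebraMap F E x) := by
    intro x
    have h2 : (1 : E) ⊗ₜ[F] (algebraMap F D x) = (algebraMap F E x) ⊗ₜ[F] (1 : D) := by
      rw [Algebra.algebraMap_eq_smul_one, Algebra.algebraMap_eq_smul_one, TensorProduct.tmul_smul,
        TensorProduct.smul_tmul']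
    rw [hι, ← ψ.commutes, Algebra.TensorProduct.algebraMap_apply, h2]
    rfl
  refine ⟨D', i1, i2, i3, i4, ι, h1, hιF, ?_, ?_⟩
  · intro x y hxy Ω _ _ f
    let _ : Algebra F Ω := ((algebraMap E Ω).comp (algebraMap F E)).toAlgebra
    let f' : D →ₐ[F] Matrix (Fin (p ^ e)) (Fin (p ^ e)) Ω :=
      { (f : D' →+* Matrix (Fin (p ^ e)) (Fin (p ^ e)) Ω).comp ι with
        commutes' := fun c => by
          change f (ι (algebraMap F D c)) = _
          rw [hιF, f.commutes]
          rfl }
    exact hxy Ω f'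
  · intro A _ F0 hmul hneg
    let b := finBasis F E
    let θ : (D')ˣ →* A := (mdU F0 hmul hneg (finrank F E)).comp
      (Units.map (((trf b : E ⊗[F] D →ₐ[F] _) : E ⊗[F] D →* _).comp
        (ψ.symm : D' →* E ⊗[F] D)))
    let F1 : D' → A := fun x => if h : x = 0 then 1 else θ (Units.mk0 x h)
    have hF1 : ∀ (x : D') (h : x ≠ 0), F1 x = θ (Units.mk0 x h) := fun x h => dif_neg h
    have hF1ι : ∀ u : D, u ≠ 0 → F1 (ι u) = F0 u ^ finrank F E := by
      intro u hu
      have hu' : ι u ≠ 0 := fun h => hu (ι.injective (h.trans (map_zero ι).symm))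
      rw [hF1 _ hu']
      change mdU F0 hmul hneg (finrank F E) _ = _
      rw [mdU_diagonal F0 hmul hneg _ (fun _ => u) (fun _ => hu), Finset.prod_const,
        Finset.card_univ, Fintype.card_fin]
      change trf b (ψ.symm (ψ (1 ⊗ₜ u))) = _
      rw [ψ.symm_apply_apply, trf_one_tmul]
    refine ⟨F1, ?_, ?_, hF1ι⟩
    · intro x y hx hy
      rw [hF1 _ hx, hF1 _ hy, hF1 _ (mul_ne_zero hx hy), ← map_mul]
      congr 1
      exact Units.ext rfl
    · have h2 : (-1 : D') = ι (-1) := by rw [map_neg, map_one]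
      rw [h2, hF1ι _ (neg_ne_zero.mpr one_ne_zero), hneg, one_pow]

end

end Vale.Agent.P011.W
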