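import Mathlib
import Vale.Agent.P011.Bdl.B2

/-!
Cyclic subextensions after an extension of degree prime to `p`.
-/

open Module Polynomial IntermediateField

namespace Vale.Agent.P011.W

open Vale.Agent.P011S (exists_sylow_field)

/-- In a Galois extension of prime power degree every proper intermediate field contains a cyclic
extension of prime degree. -/
theorem exists_galois_sub {E N : Type} [Field E] [Field N] [Algebra E N] [FiniteDimensional E N]
    [IsGalois E N] {p a : ℕ} (hp : p.Prime) (ha : finrank E N = p ^ a)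
    (L : IntermediateField E N) (hL : finrank E L ≠ 1) :
    ∃ Z : IntermediateField E N, Z ≤ L ∧ IsGalois E Z ∧ finrank E Z = p := by
  have : Fact p.Prime := ⟨hp⟩
  have hG : Nat.card (N ≃ₐ[E] N) = p ^ a := by rw [IsGalois.card_aut_eq_finrank, ha]
  have h1 := finrank_mul_finrank E L N
  rw [ha] at h1
  obtain ⟨h, hh, hh2⟩ := (Nat.dvd_prime_pow hp).mp (Dvd.intro_left _ h1)
  have hha : h < a := by
    rcases lt_or_eq_of_le hh with h2 | h2
    · exact h2
    · exfalso
      apply hL
      subst h2
      rw [hh2] at h1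
      exact Nat.eq_of_mul_eq_mul_right (pow_pos hp.pos h) (by rw [h1, one_mul])
  have hHc : Nat.card L.fixingSubgroup = p ^ h := by
    rw [← hh2]
    exact IsGalois.card_fixingSubgroup_eq_finrank L
  obtain ⟨b, rfl⟩ : ∃ b, a = b + 1 := ⟨a - 1, by omega⟩
  obtain ⟨K, hK, hHK⟩ := Sylow.exists_subgroup_card_pow_prime_le (G := N ≃ₐ[E] N) p (n := h)
    (m := b) (by rw [hG]; exact pow_dvd_pow p (Nat.le_succ b)) L.fixingSubgroup hHc (by omega)
  have hidx : K.index = p := by
    have h2 := K.card_mul_index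
    rw [hK, hG, pow_succ] at h2
    exact Nat.eq_of_mul_eq_mul_left (pow_pos hp.pos b) h2
  have hKn : K.Normal := by
    apply Subgroup.normal_of_index_eq_minFac_card
    rw [hG, hidx, hp.pow_minFac (Nat.succ_ne_zero b)]
  refine ⟨IntermediateField.fixedField K, ?_, inferInstance, ?_⟩
  · rw [← IsGalois.fixedField_fixingSubgroup L]
    exact IntermediateField.fixedField_antitone hHK
  · have h3 := finrank_mul_finrank E (IntermediateField.fixedField K) N
    rw [IntermediateField.finrank_fixedField_eq_card, hK, ha, pow_succ, mul_comm] at h3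
    exact Nat.eq_of_mul_eq_mul_left (pow_pos hp.pos b) h3

/-- A cyclic subextension inside a Galois extension. -/
theorem cyclic_aux {F L N : Type} [Field F] [CharZero F] [Field L] [Algebra F L]
    [FiniteDimensional F L] [Field N] [Algebra F N] [Algebra L N] [IsScalarTower F L N]
    [FiniteDimensional F N] [IsGalois F N] {p e : ℕ} (hp : p.Prime)
    (hL : finrank F L = p ^ (e + 1)) :
    ∃ (E : IntermediateField F N) (L' Z : IntermediateField E N),
      Nat.Coprime (finrank F E) p ∧ finrank E L' = p ^ (e + 1) ∧ (∀ l : L, algebraMap L N l ∈ L') ∧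
      Z ≤ L' ∧ IsGalois E Z ∧ finrank E Z = p ∧
      ∀ (R : Type) [Ring R] [Algebra E R] (g : L →+* R)
        (_ : ∀ x : F, g (algebraMap F L x) = algebraMap E R (algebraMap F E x)),
        ∃ j : L' →ₐ[E] R, ∀ (l : L) (h : algebraMap L N l ∈ L'),
          j ⟨algebraMap L N l, h⟩ = g l := by
  have : Fact p.Prime := ⟨hp⟩
  obtain ⟨E, hcop, a, ha⟩ := exists_sylow_field (k := F) (N := N) p
  have hgalE : IsGalois E N := inferInstance
  let pb := Field.powerBasisOfFiniteOfSeparable F L
  obtain ⟨α, hα⟩ : ∃ α, α = pb.gen := ⟨_, rfl⟩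
  have hαi : IsIntegral F α := IsIntegral.of_finite F α
  have hdeg : (minpoly F α).natDegree = p ^ (e + 1) := by
    rw [← hL, hα, pb.natDegree_minpoly, pb.finrank]
  have hα' : minpoly F (algebraMap L N α) = minpoly F α :=
    minpoly.algebraMap_eq (algebraMap L N).injective α
  obtain ⟨β, hβ⟩ : ∃ β, β = algebraMap L N α := ⟨_, rfl⟩
  rw [← hβ] at hα'
  have hint : IsIntegral E β := IsIntegral.of_finite E _
  have hdvd : minpoly E β ∣ (minpoly F α).map (algebraMap F E) := by
    rw [← hα']
    exact minpoly.dvd_map_of_isScalarTower F E _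
  have hle : (minpoly E β).natDegree ≤ p ^ (e + 1) := by
    have h1 := natDegree_le_of_dvd hdvd (by
      rw [Ne, Polynomial.map_eq_zero]
      exact minpoly.ne_zero hαi)
    rwa [natDegree_map, hdeg] at h1
  have hfr : finrank E E⟮β⟯ = (minpoly E β).natDegree := IntermediateField.adjoin.finrank hint
  have hfr2 : finrank E E⟮β⟯ = p ^ (e + 1) := by
    have htow : IsScalarTower F E⟮β⟯ N := IsScalarTower.of_algebraMap_eq fun x => rfl
    have hx : minpoly F (AdjoinSimple.gen E β) = minpoly F α := by
      rw [← hα']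
      have h2 := minpoly.algebraMap_eq (A := F)
        (algebraMap E⟮β⟯ N).injective (AdjoinSimple.gen E β)
      rw [← h2, AdjoinSimple.algebraMap_gen]
    have hfin : Module.Finite F E⟮β⟯ := Module.Finite.trans E E⟮β⟯
    have h1 := minpoly.degree_dvd (K := F) (L := E⟮β⟯)
      (IsIntegral.of_finite F (AdjoinSimple.gen E β))
    rw [hx, hdeg, ← finrank_mul_finrank F E E⟮β⟯] at h1
    have h2 : p ^ (e + 1) ∣ finrank E E⟮β⟯ :=
      (Nat.Coprime.pow_left _ (Nat.coprime_comm.mp hcop)).dvd_of_dvd_mul_left h1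
    refine le_antisymm (hfr ▸ hle) (Nat.le_of_dvd ?_ h2)
    exact finrank_pos
  have hmin : minpoly E β = (minpoly F α).map (algebraMap F E) := by
    refine (Polynomial.eq_of_monic_of_dvd_of_natDegree_le (minpoly.monic hint)
      ((minpoly.monic hαi).map _) hdvd ?_).symm
    rw [natDegree_map, hdeg, ← hfr2, hfr]
  have hpoly : ∀ l : L, ∃ f : F[X], l = aeval α f := by
    intro l
    rw [hα]
    exact pb.exists_eq_aeval' l
  have hmap : ∀ f : F[X], algebraMap L N (aeval α f) = aeval β (f.map (algebraMap F E)) := by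
    intro f
    rw [hβ, ← aeval_algebraMap_apply, aeval_map_algebraMap]
  have hmem : ∀ l : L, algebraMap L N l ∈ E⟮β⟯ := by
    intro l
    obtain ⟨f, rfl⟩ := hpoly l
    rw [hmap]
    exact IntermediateField.algebra_adjoin_le_adjoin E {β}
      (Polynomial.aeval_mem_adjoin_singleton E β)
  obtain ⟨Z, hZ1, hZ2, hZ3⟩ := exists_galois_sub hp ha E⟮β⟯ (by
    rw [hfr2]
    exact (Nat.one_lt_pow (Nat.succ_ne_zero e) hp.one_lt).ne')
  refine ⟨E, E⟮β⟯, Z, hcop, hfr2, hmem, hZ1, hZ2, hZ3, ?_⟩
  intro R _ _ g hg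
  have h1 : (algebraMap E R).comp (algebraMap F E) = g.comp (algebraMap F L) :=
    RingHom.ext fun x => (hg x).symm
  have hβ1 : aeval (g α) (minpoly E β) = 0 := by
    rw [hmin, aeval_def, eval₂_map, h1, ← hom_eval₂, ← aeval_def, minpoly.aeval, map_zero]
  let pb' := IntermediateField.adjoin.powerBasis hint
  have hgen : pb'.gen = AdjoinSimple.gen E β := IntermediateField.adjoin.powerBasis_gen hint
  have hβ' : aeval (g α) (minpoly E pb'.gen) = 0 := by
    rw [hgen, IntermediateField.minpoly_gen]
    exact hβ1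
  refine ⟨pb'.lift (g α) hβ', fun l h => ?_⟩
  obtain ⟨f, rfl⟩ := hpoly l
  have h2 : (⟨algebraMap L N (aeval α f), h⟩ : E⟮β⟯) =
      aeval pb'.gen (f.map (algebraMap F E)) := by
    apply (algebraMap E⟮β⟯ N).injective
    change algebraMap L N (aeval α f) = _
    rw [hmap, hgen, ← aeval_algebraMap_apply, AdjoinSimple.algebraMap_gen]
  rw [h2, ← aeval_algHom_apply, PowerBasis.lift_gen, aeval_def, eval₂_map, h1, ← hom_eval₂,
    ← aeval_def]

/-- D1 a cyclic subextension after an extension of degree prime to `p` -/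
theorem exists_cyclic {F L : Type} [Field F] [CharZero F] [Field L] [Algebra F L]
    [FiniteDimensional F L] {p e : ℕ} (hp : p.Prime) (hL : finrank F L = p ^ (e + 1)) :
    ∃ (N : Type) (_ : Field N) (_ : Algebra F N) (_ : Algebra L N) (_ : IsScalarTower F L N)
      (_ : FiniteDimensional F N) (E : IntermediateField F N) (L' Z : IntermediateField E N),
      Nat.Coprime (finrank F E) p ∧ finrank E L' = p ^ (e + 1) ∧ (∀ l : L, algebraMap L N l ∈ L') ∧
      Z ≤ L' ∧ IsGalois E Z ∧ finrank E Z = p ∧
      ∀ (R : Type) [Ring R] [Algebra E R] (g : L →+* R)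
        (_ : ∀ x : F, g (algebraMap F L x) = algebraMap E R (algebraMap F E x)),
        ∃ j : L' →ₐ[E] R, ∀ (l : L) (h : algebraMap L N l ∈ L'),
          j ⟨algebraMap L N l, h⟩ = g l := by
  let Ω := AlgebraicClosure L
  have hgal : IsGalois F (normalClosure F L Ω) := ⟨⟩
  exact ⟨normalClosure F L Ω, inferInstance, inferInstance, inferInstance, inferInstance,
    inferInstance, cyclic_aux hp hL⟩

end Vale.Agent.P011.W
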