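import Vale.Agent.P011.W.Sk1
import Vale.Agent.P011.W.Copr
import Vale.Agent.P011.W.Cyc

/-!
The reduced Whitehead group in prime power degree.
-/

open Module Polynomial NumberField

namespace Vale.Agent.P011.W

open Vale.Agent.P011S (exists_split sk1_scalar)
open Vale.Agent.P011.T2 (numberField_of_finite)

theorem sk1_aux {p : ℕ} (hp : p.Prime) (A : Type) [CommGroup A] (e : ℕ) : ∀ (F D : Type)
    [Field F] [NumberField F] [DivisionRing D] [Algebra F D] [FiniteDimensional F D]
    [Algebra.IsCentral F D] (_ : finrank F D = (p ^ e) ^ 2) (F0 : D → A)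
    (_ : ∀ a b : D, a ≠ 0 → b ≠ 0 → F0 (a * b) = F0 a * F0 b) (_ : F0 (-1) = 1) (u : D)
    (_ : HasNrd F (p ^ e) u 1), ∃ k, Nat.Coprime k p ∧ F0 u ^ k = 1 := by
  induction e with
  | zero =>
    intro F D _ _ _ _ _ _ hD F0 hmul hneg u hu
    refine ⟨1, Nat.coprime_one_left p, ?_⟩
    rw [pow_zero] at hD hu
    obtain ⟨f⟩ := exists_split (K := F) (D := D) hD (AlgebraicClosure F)
    have h1 : u = 1 := by
      apply sk1_scalar F0 hmul hneg (E := F) (Δ := D) (Ω := AlgebraicClosure F)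
        (by rw [hD, one_pow]) f
      rw [hu, map_one]
    have h2 : F0 1 * F0 1 = F0 1 := by rw [← hmul 1 1 one_ne_zero one_ne_zero, mul_one]
    rw [h1, pow_one]
    exact mul_eq_left.mp h2
  | succ e ih =>
    intro F D _ _ _ _ _ _ hD F0 hmul hneg u hu
    obtain ⟨L, _, _, _, j0, u0, hL, rfl⟩ := exists_maxfield hD u
    obtain ⟨N, _, _, _, _, _, E, L', Z, hcop, hL', hmem, hZL, hZg, hZ, hlift⟩ :=
      exists_cyclic (F := F) (L := L) hp hL
    obtain ⟨D', _, _, _, _, ι, hD', hιF, hιn, htr⟩ := exists_coprime hp hD E hcop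
    have : NumberField E := numberField_of_finite (K := F)
    have : NumberField Z := numberField_of_finite (K := E)
    obtain ⟨j, hj⟩ := hlift D' (ι.comp (j0 : L →+* D)) (fun x => by
      rw [RingHom.comp_apply]
      change ι (j0 (algebraMap F L x)) = _
      rw [j0.commutes, hιF])
    obtain ⟨F1, h1, h2, h3⟩ := htr A F0 hmul hneg
    let _ : Algebra Z L' := (IntermediateField.inclusion hZL).toRingHom.toAlgebra
    have : IsScalarTower E Z L' := IsScalarTower.of_algebraMap_eq fun x =>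
      ((IntermediateField.inclusion hZL).commutes x).symm
    have hju : j ⟨algebraMap L N u0, hmem u0⟩ = ι (j0 u0) := hj u0 (hmem u0)
    have hnr : Algebra.norm E (⟨algebraMap L N u0, hmem u0⟩ : L') = 1 := by
      have h4 := hasNrd_norm hD' hL' j ⟨algebraMap L N u0, hmem u0⟩
      rw [hju] at h4
      have h5 := hιn _ _ hu
      rw [map_one] at h5
      exact HasNrd.unique hD' h4 h5
    obtain ⟨k, hk, hk1⟩ := sk1_step hp hD' hL' j hZ ⟨algebraMap L N u0, hmem u0⟩ hnr
      (fun C _ _ _ _ hC F0 h4 h5 u h6 => ih Z C hC F0 h4 h5 u h6) F1 h1 h2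
    refine ⟨finrank F E * k, Nat.Coprime.mul_left hcop hk, ?_⟩
    have hu0 : j0 u0 ≠ 0 := hu.ne_zero hD one_ne_zero
    rw [pow_mul, ← h3 _ hu0, ← hju, hk1]

/-- D2 the reduced Whitehead group in prime power degree -/
theorem sk1_pp {F D : Type} [Field F] [NumberField F] [DivisionRing D] [Algebra F D]
    [FiniteDimensional F D] [Algebra.IsCentral F D] {p e : ℕ} (hp : p.Prime)
    (hD : finrank F D = (p ^ e) ^ 2) {A : Type} [CommGroup A]
    (F0 : D → A) (hmul : ∀ a b : D, a ≠ 0 → b ≠ 0 → F0 (a * b) = F0 a * F0 b)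
    (hneg : F0 (-1) = 1) {u : D} (hu : HasNrd F (p ^ e) u 1) :
    ∃ k, Nat.Coprime k p ∧ F0 u ^ k = 1 :=
  sk1_aux hp A e F D hD F0 hmul hneg u hu

end Vale.Agent.P011.W
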