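import Vale.Agent.P011.W.Eich
import Vale.Agent.P011.W.Sk2
import Vale.Agent.P011.W.Sign
import Vale.Agent.P011.Even.R2

/-!
Symmetric elements with prescribed reduced norm.
-/

open NumberField IsDedekindDomain Polynomial Module Matrix

namespace Vale.Agent.P011.W

open Vale.Agent.P011.Even Vale.Agent.P011.Arith

/-- Reduced norms are positive at the real places where the algebra is not split. -/
theorem nrd_pos_of {F D : Type} [Field F] [CharZero F] [DivisionRing D] [Algebra F D]
    [FiniteDimensional F D] [Algebra.IsCentral F D] {q : ℕ} (hD : finrank F D = q ^ 2)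
    (φ : F →+* ℝ) (hφ : ¬ Spl D q φ) {x : D} (hx : x ≠ 0) {y : F} (h : HasNrd F q x y) :
    0 < φ y := by
  obtain ⟨L, _, _, _, j, u, hL, rfl⟩ := exists_maxfield hD x
  have h1 : y = Algebra.norm F u := h.unique hD (hasNrd_norm hD hL j u)
  have hu : u ≠ 0 := by
    rintro rfl
    exact hx (map_zero j)
  rw [h1]
  refine norm_pos φ (fun ψ hψ => hφ ?_) hu
  rw [← hψ]
  exact (spl_of_maxfield hD hL j).comp ψ

/-- An element whose norm has the prescribed signs at the real places below sufficiently many real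
places. -/
theorem exists_norm_sign {k E : Type} [Field k] [NumberField k] [Field E] [NumberField E]
    [Algebra k E] (P : (k →+* ℝ) → Prop)
    (hP : ∀ φ, P φ → ∃ ψ : E →+* ℝ, ψ.comp (algebraMap k E) = φ) (a : kˣ) :
    ∃ s : Eˣ, ∀ φ : k →+* ℝ, P φ → 0 < φ (Algebra.norm k (s : E)) * φ a := by
  classical
  choose ψ0 hψ0 using hP
  obtain ⟨x, hx0, hx⟩ := exists_signs' (E := E) (fun ψ => if h : P (ψ.comp (algebraMap k E)) then
    (if ψ = ψ0 _ h then (ψ.comp (algebraMap k E)) a else 1) else 1) (fun ψ => by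
      split_ifs
      · exact (_root_.map_ne_zero _).mpr a.ne_zero
      · exact one_ne_zero
      · exact one_ne_zero)
  refine ⟨Units.mk0 x hx0, fun φ hφ => ?_⟩
  have h1 := sign_norm (E := E) φ (Units.mk0 x hx0)
  have hx' : ∀ ψ : E →+* ℝ, ψ x ≠ 0 := fun ψ => (_root_.map_ne_zero ψ).mpr hx0
  have key : ∀ ψ : E →+* ℝ, ψ.comp (algebraMap k E) = φ →
      (ψ = ψ0 φ hφ → 0 < φ a * ψ x) ∧ (ψ ≠ ψ0 φ hφ → 0 < ψ x) := by
    rintro ψ rfl
    have h2 := hx ψ
    rw [dif_pos hφ] at h2
    constructor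
    · intro h3
      rwa [if_pos h3] at h2
    · intro h3
      rwa [if_neg h3, one_mul] at h2
  have h2 : {ψ : E →+* ℝ | ψ.comp (algebraMap k E) = φ ∧ ψ ((Units.mk0 x hx0 : Eˣ) : E) < 0} =
      if φ a < 0 then {ψ0 φ hφ} else ∅ := by
    ext ψ
    rw [Units.val_mk0]
    constructor
    · rintro ⟨h3, h4⟩
      have h5 := key ψ h3
      by_cases h6 : ψ = ψ0 φ hφ
      · have h7 := h5.1 h6
        have h8 : φ a < 0 := by
          by_contra h9
          rw [not_lt] at h9
          have := mul_nonpos_of_nonneg_of_nonpos h9 h4.le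
          linarith
        rw [if_pos h8]
        exact h6
      · have := h5.2 h6
        linarith
    · intro h3
      split_ifs at h3 with h4
      · have h5 : ψ = ψ0 φ hφ := h3
        have h6 : ψ.comp (algebraMap k E) = φ := by rw [h5]; exact hψ0 φ hφ
        have h7 := (key ψ h6).1 h5
        refine ⟨h6, ?_⟩
        by_contra h8
        rw [not_lt] at h8
        have := mul_nonpos_of_nonpos_of_nonneg h4.le h8
        linarith
      · exact absurd h3 (Set.notMem_empty _)
  rw [h2] at h1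
  have ha : φ a ≠ 0 := (_root_.map_ne_zero φ).mpr a.ne_zero
  have hN : φ (Algebra.norm k ((Units.mk0 x hx0 : Eˣ) : E)) ≠ 0 :=
    (_root_.map_ne_zero φ).mpr (Algebra.norm_ne_zero_iff.mpr (Units.mk0 x hx0).ne_zero)
  by_cases h4 : φ a < 0
  · rw [if_pos h4, Set.ncard_singleton] at h1
    have h5 : ¬ 0 < φ (Algebra.norm k ((Units.mk0 x hx0 : Eˣ) : E)) := by
      rw [h1]
      decide
    exact mul_pos_of_neg_of_neg (lt_of_le_of_ne (not_lt.mp h5) hN) h4
  · rw [if_neg h4, Set.ncard_empty] at h1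
    exact mul_pos (h1.mpr (by decide)) (lt_of_le_of_ne (not_lt.mp h4) (Ne.symm ha))

section herm

variable {k K D : Type} [Field k] [NumberField k] [Field K] [NumberField K] [StarRing K]
    [DivisionRing D] [StarRing D] [Algebra k K] [Algebra k D] [Algebra K D] [IsScalarTower k K D]
    {d : kˣ} {s : K} {n : ℕ}

/-- A symmetric maximal subfield which is totally split at given primes and real places. -/
theorem exists_torus (hS : Setting k K D d s) (hn : 0 < n) (hdeg : finrank K D = n ^ 2)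
    {V : Set (HeightOneSpectrum (𝓞 k))} (hV : V.Finite)
    (hVns : ∀ v ∈ V, d ∉ LS (v.valuation k)) (hne : V.Nonempty ∨ ∃ φ : k →+* ℝ, φ d < 0) :
    ∃ (E : Type) (_ : Field E) (_ : NumberField E) (_ : Algebra k E) (j : E →ₐ[k] D),
      finrank k E = n ∧ (∀ x, star (j x) = j x) ∧ (∀ v ∈ V, TotSplit E v) ∧
      (∀ φ : k →+* ℝ, φ d < 0 → ∃ ψ : E →+* ℝ, ψ.comp (algebraMap k E) = φ) ∧
      ¬ IsSquare (algebraMap k E (d : k)) ∧
      ∀ x : E, HasNrd K n (j x) (algebraMap k K (Algebra.norm k x)) := by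
  have := hS.fin
  have := hS.cen
  have hfk := hS.fin_k
  obtain ⟨f⟩ := Vale.Agent.P011S.exists_split (K := K) (D := D) hdeg (AlgebraicClosure K)
  have h00 : (1 : D) ≠ 0 := one_ne_zero
  obtain ⟨β, hli, hsplit, hreal⟩ := exists_beta hS hn hdeg (c0 := (1 : D)) (c2 := (1 : D))
    (star_one D) (star_one D) h00 h00 hV hVns hne
  set z := (1 : D)⁻¹ * β * 1 * star β with hzdef
  have hzz : z = β * star β := by rw [hzdef, inv_one, one_mul, mul_one]
  have hz : star z = 1 * z * 1⁻¹ := by
    rw [inv_one, one_mul, mul_one, hzz, star_mul, star_star]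
  obtain ⟨E, _, _, _, j, g, hjg, hgen⟩ := exists_gen (Module.finBasis k D) z
  obtain ⟨hmn, hmK⟩ := minpoly_map hS hn hdeg f h00 hz hli
  have hjinj : Function.Injective j := j.toRingHom.injective
  have hjp : ∀ p : k[X], j (aeval g p) = aeval z p := by
    intro p
    rw [← Polynomial.aeval_algHom_apply, hjg]
  have hgmin : minpoly k g = minpoly k z := by rw [← hjg, minpoly.algHom_eq j hjinj g]
  have hfinE : FiniteDimensional k E := Module.Finite.of_injective j.toLinearMap hjinj
  have hE : finrank k E = n := by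
    have h1 : IntermediateField.adjoin k {g} = ⊤ := by
      rw [eq_top_iff]
      intro l _
      obtain ⟨p, rfl⟩ := hgen l
      exact IntermediateField.algebra_adjoin_le_adjoin k {g} (by
        rw [Algebra.adjoin_singleton_eq_range_aeval]
        exact ⟨p, rfl⟩)
    have h2 : finrank k (IntermediateField.adjoin k {g}) = (minpoly k g).natDegree :=
      IntermediateField.adjoin.finrank (Algebra.IsIntegral.isIntegral g)
    rw [h1, IntermediateField.finrank_top', hgmin, hmn] at h2
    exact h2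
  have hstarj : ∀ x : E, star (j x) = j x := by
    intro x
    obtain ⟨p, rfl⟩ := hgen x
    rw [hjp]
    have := star_aeval' hS h00 hz p
    rwa [inv_one, one_mul, mul_one] at this
  -- the central element
  set S := algebraMap K D s with hSdef
  have hSc : ∀ x : D, S * x = x * S := fun x => Algebra.commutes s x
  have hSs : star S = -S := star_S hS
  have hSS : S * S = algebraMap k D d := by
    rw [hSdef, ← map_mul, ← pow_two, hS.sq, ← IsScalarTower.algebraMap_apply]
  have hS0 : S ≠ 0 := (_root_.map_ne_zero (algebraMap K D)).mpr hS.s_ne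
  have hD2 : (2 : D) ≠ 0 := by
    have : CharZero D := charZero_of_injective_algebraMap (algebraMap K D).injective
    exact two_ne_zero
  have hSne : S ≠ -S := by
    intro h
    apply hS0
    have h1 : (2 : D) * S = 0 := by rw [two_mul]; nth_rewrite 1 [h]; exact neg_add_cancel S
    exact (mul_eq_zero.mp h1).resolve_left hD2
  have hdE : ¬ IsSquare (algebraMap k E (d : k)) := by
    rintro ⟨r, hr⟩
    have h1 : (j r - S) * (j r + S) = 0 := by
      have h2 : j r * j r = S * S := by
        rw [← map_mul, ← hr, AlgHom.commutes, hSS]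
      rw [sub_mul, mul_add, mul_add, h2, hSc (j r)]
      abel
    have h3 : ∀ x : D, (x = S ∨ x = -S) → star x ≠ x := by
      rintro x (rfl | rfl)
      · rw [hSs]
        exact fun h => hSne h.symm
      · rw [star_neg, hSs, neg_neg]
        exact hSne
    rcases mul_eq_zero.mp h1 with h | h
    · exact h3 _ (Or.inl (sub_eq_zero.mp h)) (hstarj r)
    · exact h3 _ (Or.inr (eq_neg_of_add_eq_zero_left h)) (hstarj r)
  have hmonic : (minpoly k z).Monic := minpoly.monic (Algebra.IsIntegral.isIntegral z)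
  refine ⟨E, inferInstance, inferInstance, inferInstance, j, hE, hstarj, ?_, ?_, hdE, ?_⟩
  · intro v hv
    exact hsplit v hv E g hE (by rw [hgmin]; exact hmn) (by rw [hgmin]; exact minpoly.aeval k z)
  · intro φ hφ
    obtain ⟨ρ, -, hρ⟩ := hreal φ hφ _ hmonic hmn (minpoly.aeval k z)
    obtain ⟨ψ, hψ, -⟩ := exists_psi_root hgen (φ := φ) (ρ := ρ ⟨0, hn⟩) (by
      rw [hgmin, ← Polynomial.eval_map, hρ, eval_prod]
      apply Finset.prod_eq_zero (Finset.mem_univ (⟨0, hn⟩ : Fin n))
      rw [eval_sub, eval_X, eval_C, sub_self])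
    exact ⟨ψ, hψ⟩
  · intro x
    obtain ⟨p, rfl⟩ := hgen x
    rw [hjp]
    intro Ω _ _ h
    exact det_compare hn hdeg f h _ (det_sub hS hn hdeg f h00 hz hli hE hgmin p)

omit [NumberField k] [NumberField K] [Algebra k K] [Algebra k D] [IsScalarTower k K D] in
/-- The reduced norm of the image under the involution. -/
theorem HasNrd.star (hss : ∀ c : K, Star.star (algebraMap K D c) = algebraMap K D (Star.star c))
    {x : D} {ν : K} (h : HasNrd K n x ν) : HasNrd K n (Star.star x) (Star.star ν) := by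
  intro Ω _ _ f
  let g0 : D →+* Matrix (Fin n) (Fin n) Ω :=
    { toFun := fun y => (f (Star.star y)).transpose
      map_one' := by rw [star_one, map_one, Matrix.transpose_one]
      map_mul' := fun y z => by rw [star_mul, map_mul, Matrix.transpose_mul]
      map_zero' := by rw [star_zero, map_zero, Matrix.transpose_zero]
      map_add' := fun y z => by rw [star_add, map_add, Matrix.transpose_add] }
  have h1 := (hasNrd_iff.mp h) Ω ((algebraMap K Ω).comp (starRingEnd K)) g0 (fun c => by
    change (f (Star.star (algebraMap K D c))).transpose = _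
    rw [hss, AlgHom.commutes]
    change (Matrix.scalar (Fin n) (algebraMap K Ω (Star.star c))).transpose = _
    simp [starRingEnd_apply])
  rw [← Matrix.det_transpose]
  exact h1

/-- Correction of an element of the quadratic extension by an element of norm one, so that it
becomes positive at given real places. -/
theorem exists_corr (hS : Setting k K D d s) {P : (K →+* ℝ) → Prop} {l : K} (hl : l ≠ 0)
    (hP : ∀ ψ, P ψ → 0 < ψ (l * Star.star l)) :
    ∃ l' : K, l' ≠ 0 ∧ l' * Star.star l' = l * Star.star l ∧ ∀ ψ, P ψ → 0 < ψ l' := by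
  have hs0 : s ≠ 0 := hS.s_ne
  obtain ⟨x, hx0, hx⟩ := exists_signs' (E := K) (fun ψ => if 0 < ψ s then 1 else ψ l) (fun ψ => by
    split_ifs
    · exact one_ne_zero
    · exact (_root_.map_ne_zero ψ).mpr hl)
  have hsx : Star.star x ≠ 0 := star_ne_zero.mpr hx0
  refine ⟨l * (x / Star.star x), mul_ne_zero hl (div_ne_zero hx0 hsx), ?_, fun ψ hψ => ?_⟩
  · rw [star_mul', star_div₀, star_star]
    field_simp
  · have h1 := hP ψ hψ
    rw [map_mul] at h1
    have h2 := hx ψ
    have h3 := hx (ψ.comp (starRingEnd K))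
    have h4 : (ψ.comp (starRingEnd K)) s = - ψ s := by
      rw [RingHom.comp_apply, starRingEnd_apply, hS.star_s, map_neg]
    have h5 : (ψ.comp (starRingEnd K)) l = ψ (Star.star l) := rfl
    have h6 : (ψ.comp (starRingEnd K)) x = ψ (Star.star x) := rfl
    rw [h4, h5, h6] at h3
    have hψs : ψ s ≠ 0 := (_root_.map_ne_zero ψ).mpr hs0
    have h7 : 0 < ψ l * (ψ x * ψ (Star.star x)) := by
      rcases lt_or_gt_of_ne hψs with h8 | h8
      · rw [if_neg (not_lt.mpr h8.le)] at h2
        rw [if_pos (by linarith), one_mul] at h3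
        rw [← mul_assoc]
        exact mul_pos h2 h3
      · rw [if_pos h8, one_mul] at h2
        rw [if_neg (by linarith)] at h3
        have h9 : 0 < (ψ l * ψ (Star.star l)) * (ψ (Star.star l) * ψ (Star.star x)) * ψ x :=
          mul_pos (mul_pos h1 h3) h2
        have h10 : 0 < ψ (Star.star l) ^ 2 := by
          have : ψ (Star.star l) ≠ 0 := (_root_.map_ne_zero ψ).mpr (star_ne_zero.mpr hl)
          positivity
        have h11 : 0 < ψ (Star.star l) ^ 2 * (ψ l * (ψ x * ψ (Star.star x))) := by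
          calc 0 < _ := h9
            _ = _ := by ring
        exact (mul_pos_iff_of_pos_left h10).mp h11
    have h8 : ψ (l * (x / Star.star x)) = ψ l * (ψ x * ψ (Star.star x)) / ψ (Star.star x) ^ 2 := by
      have : ψ (Star.star x) ≠ 0 := (_root_.map_ne_zero ψ).mpr hsx
      rw [map_mul, map_div₀]
      field_simp
    rw [h8]
    have : ψ (Star.star x) ≠ 0 := (_root_.map_ne_zero ψ).mpr hsx
    positivity

/-- A reduced norm in the fixed field is the reduced norm of a symmetric element. -/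
theorem exists_sym (hS : Setting k K D d s) {p e : ℕ} (hp : p.Prime)
    (hdeg : finrank K D = (p ^ e) ^ 2) {c : kˣ} {z : D}
    (hz : HasNrd K (p ^ e) z (algebraMap k K c)) :
    ∃ y : D, Star.star y = y ∧ HasNrd K (p ^ e) y (algebraMap k K c) := by
  have := hS.fin
  have := hS.cen
  have hn : 0 < p ^ e := pow_pos hp.pos e
  have hc0 : algebraMap k K c ≠ 0 := (_root_.map_ne_zero _).mpr c.ne_zero
  have hz0 : z ≠ 0 := hz.ne_zero hdeg hc0
  obtain ⟨V, hV⟩ := exists_ctrl hS.ns c
  have hne : V.Nonempty ∨ ∃ φ : k →+* ℝ, φ d < 0 := by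
    obtain ⟨p, hp, -, hpV⟩ := hV.jet
    rcases p with v | φ
    · exact Or.inl ⟨v, hpV v rfl⟩
    · exact Or.inr ⟨φ, notMem_LSR.mp hp⟩
  obtain ⟨E, _, _, _, j, hE, hstarj, hsplit, hreal, hdE, hnrd⟩ :=
    exists_torus hS hn hdeg hV.fin hV.nonsplit hne
  obtain ⟨r, hr⟩ := exists_norm_sign (E := E) (fun φ : k →+* ℝ => φ d < 0) hreal c
  obtain ⟨μ, ⟨X, Y, hXY⟩, -⟩ := pnc (E := E) hdE hV hsplit hreal r hr
  have hfixk : ∀ a : k, Star.star (algebraMap k K a) = algebraMap k K a := fun a =>
    (hS.fix _).mpr ⟨a, rfl⟩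
  have hμN : Algebra.norm k (μ : E) ≠ 0 := by
    have : FiniteDimensional k E := Module.finite_of_finrank_pos (by rw [hE]; exact hn)
    exact Algebra.norm_ne_zero_iff.mpr μ.ne_zero
  have hμ0 : j (μ : E) ≠ 0 := (_root_.map_ne_zero j).mpr μ.ne_zero
  set l : K := algebraMap k K X + algebraMap k K Y * s with hl
  have hlN : l * Star.star l = algebraMap k K (Algebra.norm k (μ : E)) * algebraMap k K c := by
    rw [hl, star_add, star_mul', hfixk, hfixk, hS.star_s, ← map_mul]
    have h1 : Algebra.norm k (μ : E) * (c : k) = X ^ 2 - d * Y ^ 2 := hXY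
    rw [h1, map_sub, map_mul, map_pow, map_pow, ← hS.sq]
    ring
  have hN0 : algebraMap k K (Algebra.norm k (μ : E)) * algebraMap k K c ≠ 0 :=
    mul_ne_zero ((_root_.map_ne_zero _).mpr hμN) hc0
  have hl0 : l ≠ 0 := by
    intro h0
    rw [h0, zero_mul] at hlN
    exact hN0 hlN.symm
  obtain ⟨l', hl'0, hl'N, hl'pos⟩ := exists_corr hS (P := fun ψ => ¬ Spl D (p ^ e) ψ) hl0
    (fun ψ hψ => by
      rw [hlN]
      exact nrd_pos_of hdeg ψ hψ (mul_ne_zero hμ0 hz0) ((hnrd μ).mul hz))
  obtain ⟨t, ht⟩ := eichler hp hdeg l' hl'0 (fun _ ψ => by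
    by_cases h : Spl D (p ^ e) ψ
    · exact Or.inl h
    · exact Or.inr (hl'pos ψ h))
  refine ⟨t * (j μ)⁻¹ * Star.star t, ?_, ?_⟩
  · rw [star_mul, star_mul, star_star, star_inv₀, hstarj, mul_assoc]
  · have h1 := (ht.mul ((hnrd μ).inv hμ0)).mul (ht.star hS.star_alg)
    have h2 : l' * (algebraMap k K (Algebra.norm k (μ : E)))⁻¹ * Star.star l' =
        algebraMap k K c := by
      have h3 : algebraMap k K (Algebra.norm k (μ : E)) ≠ 0 := (_root_.map_ne_zero _).mpr hμN
      calc l' * (algebraMap k K (Algebra.norm k (μ : E)))⁻¹ * Star.star l' =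
          (l' * Star.star l') * (algebraMap k K (Algebra.norm k (μ : E)))⁻¹ := by ring
        _ = _ := by rw [hl'N, hlN]; field_simp
    rwa [h2] at h1

end herm

section suk

variable {K D F : Type} [Field K] [NumberField K] [StarRing K] [DivisionRing D] [StarRing D]
  [Algebra K D] [StarModule K D] [FiniteDimensional K D] [Algebra.IsCentral K D]

open Vale.Agent.P011S in
/-- The reduced unitary Whitehead group in prime power degree. -/
theorem suk_pp {p e : ℕ} (hp : p.Prime) (hK : ∃ k : K, star k ≠ k)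
    (hdeg : finrank K D = (p ^ e) ^ 2) {A : Type} [CommGroup A] (F0 : D → A)
    (hmul : ∀ a b : D, a ≠ 0 → b ≠ 0 → F0 (a * b) = F0 a * F0 b)
    (hsym : ∀ s : D, s ≠ 0 → star s = s → F0 s = 1) {Z : D} (hZ : Z ≠ 0) {y : K}
    (hy : HasNrd K (p ^ e) Z y) (hys : star y = y) : ∃ m, Nat.Coprime m p ∧ F0 Z ^ m = 1 := by
  obtain ⟨k0, hk0⟩ := hK
  have hθ0 : k0 - star k0 ≠ 0 := sub_ne_zero.mpr (Ne.symm hk0)
  have hθ : star (k0 - star k0) = -(k0 - star k0) := by rw [star_sub, star_star, neg_sub]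
  let _ := algFK (K := K) (D := D)
  have _ : IsScalarTower (FK K) K D := IsScalarTower.of_algebraMap_eq fun _ => rfl
  have hS : Setting (FK K) K D (sqU hθ0 hθ) (k0 - star k0) := setting hθ0 hθ
  have hn : 0 < p ^ e := pow_pos hp.pos e
  have hneg : F0 (-1) = 1 := hsym (-1) (neg_ne_zero.mpr one_ne_zero) (by
    rw [star_neg, star_one])
  obtain ⟨c, hc⟩ := (hS.fix y).mp hys
  have hy0 : y ≠ 0 := by
    rintro rfl
    obtain ⟨g⟩ := exists_split (K := K) (D := D) hdeg (AlgebraicClosure K)
    have h1 : (g Z).det = 0 := by rw [hy _ g, map_zero]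
    have h2 : (g Z).det * (g Z⁻¹).det = 1 := by
      rw [← Matrix.det_mul, ← map_mul, mul_inv_cancel₀ hZ, map_one, Matrix.det_one]
    rw [h1, zero_mul] at h2
    exact zero_ne_one h2
  have hc0 : c ≠ 0 := by
    rintro rfl
    exact hy0 (by rw [← hc, map_zero])
  obtain ⟨s, hs, hsn⟩ := exists_sym hS hp hdeg (c := Units.mk0 c hc0) (z := Z) (by
    rw [Units.val_mk0, hc]; exact hy)
  rw [Units.val_mk0, hc] at hsn
  have hs0 : s ≠ 0 := hsn.ne_zero hdeg hy0
  have hu : HasNrd K (p ^ e) (Z * s⁻¹) 1 := by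
    have := hy.mul (hsn.inv hs0)
    rwa [mul_inv_cancel₀ hy0] at this
  obtain ⟨m, hm, hm1⟩ := sk1_pp hp hdeg F0 hmul hneg hu
  refine ⟨m, hm, ?_⟩
  have h1 : F0 Z = F0 (Z * s⁻¹) := by
    have h2 : Z = Z * s⁻¹ * s := by rw [mul_assoc, inv_mul_cancel₀ hs0, mul_one]
    conv_lhs => rw [h2]
    rw [hmul _ _ (mul_ne_zero hZ (inv_ne_zero hs0)) hs0, hsym s hs0 hs, mul_one]
  rw [h1, hm1]

open Vale.Agent.P011S in
/-- The same, with the hypothesis in terms of a splitting. -/
theorem suk_pp' {p e : ℕ} (hp : p.Prime) (hK : ∃ k : K, star k ≠ k)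
    (hdeg : finrank K D = (p ^ e) ^ 2) {A : Type} [CommGroup A] (F0 : D → A)
    (hmul : ∀ a b : D, a ≠ 0 → b ≠ 0 → F0 (a * b) = F0 a * F0 b)
    (hsym : ∀ s : D, s ≠ 0 → star s = s → F0 s = 1) [Field F] [Algebra K F]
    (f : D →ₐ[K] Matrix (Fin (p ^ e)) (Fin (p ^ e)) F) {Z : D} (hZ : Z ≠ 0)
    (h : (f (star Z)).det = (f Z).det) : ∃ m, Nat.Coprime m p ∧ F0 Z ^ m = 1 := by
  have hn : 0 < p ^ e := pow_pos hp.pos e
  obtain ⟨y, hy⟩ := exists_nrd hn hdeg f Z
  have hyN : HasNrd K (p ^ e) Z y := fun Ω _ _ g => det_compare hn hdeg f g Z hy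
  refine suk_pp hp hK hdeg F0 hmul hsym hZ hyN ?_
  have h1 := (hyN.star star_algD) F f
  rw [h, hy] at h1
  exact (algebraMap K F).injective h1.symm

end suk

end Vale.Agent.P011.W
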