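import Vale.Agent.P011.W.Suk
import Vale.Agent.P011.W.HermEl

/-!
The reduced unitary Whitehead group is trivial.
-/

set_option linter.unusedSectionVars false
set_option linter.unusedSimpArgs false

open Matrix Module TensorProduct NumberField

namespace Vale.Agent.P011.W

open Vale.Agent.P011S

variable {K D F : Type} [Field K] [CharZero K] [FiniteDimensional ℚ K] [StarRing K]
  [DivisionRing D] [CharZero D] [StarRing D] [FiniteDimensional ℚ D] [Algebra K D]
  [FiniteDimensional K D] [StarModule K D] [Algebra.IsCentral K D] [Field F] [Algebra K F]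
  {A : Type} [CommGroup A] (F0 : D → A)
  (hmul : ∀ a b : D, a ≠ 0 → b ≠ 0 → F0 (a * b) = F0 a * F0 b)
  (hsym : ∀ s : D, s ≠ 0 → star s = s → F0 s = 1)

include hmul hsym

/-- **The reduced unitary Whitehead group is trivial in every degree.** -/
theorem suk_all {d : ℕ} (hD : finrank K D = d ^ 2)
    (hne : ∃ k : K, star k ≠ k) (f : D →ₐ[K] Matrix (Fin d) (Fin d) F) {Z : D} (hZ : Z ≠ 0)
    (h : (f (star Z)).det = (f Z).det) : F0 Z = 1 := by
  refine suk_of F0 hmul hsym hD hne f hZ h ?_
  intro E Δ Ω _ _ _ _ _ _ _ _ _ _ _ _ _ _ j _ hΔ hneE f2 F1 hmul1 hsym1 Z hZ0 hZ1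
  have hnf : NumberField E :=
    { to_charZero := inferInstance, to_finiteDimensional := inferInstance }
  obtain ⟨m, hm, hm1⟩ := suk_pp' Nat.prime_two hneE hΔ F1 hmul1 hsym1 f2 hZ0 hZ1
  exact ⟨m, Nat.coprime_two_right.mp hm, hm1⟩

end Vale.Agent.P011.W
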