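import Vale.Agent.P011.W.Main
import Vale.Agent.P011.W.SukAll

/-!
The special unitary group of an anisotropic hermitian form of rank at least four over a division
algebra of arbitrary degree: every noncentral normal subgroup is the whole group.
-/

open Module Matrix
open scoped commutatorElement

namespace Vale.Agent.P011.W

open Vale.Agent.P011S

section

variable {K D F : Type} [Field K] [DivisionRing D] [StarRing D] [Algebra K D] [Field F]
  [Algebra K F] {p : ℕ} (f : D →ₐ[K] Matrix (Fin p) (Fin p) F) {m : ℕ}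
  (H : Matrix (Fin m) (Fin m) D)

theorem comm_normal : (⁅UH H, UH H⁆.subgroupOf (SU f H)).Normal := by
  refine ⟨fun n hn g => ?_⟩
  rw [Subgroup.mem_subgroupOf] at hn ⊢
  have h1 : ⁅(g : (Matrix (Fin m) (Fin m) D)ˣ), (n : (Matrix (Fin m) (Fin m) D)ˣ)⁆ ∈
      ⁅UH H, UH H⁆ := Subgroup.commutator_mem_commutator g.2.1 n.2.1
  have h2 : ((g * n * g⁻¹ : SU f H) : (Matrix (Fin m) (Fin m) D)ˣ) =
      ⁅(g : (Matrix (Fin m) (Fin m) D)ˣ), (n : (Matrix (Fin m) (Fin m) D)ˣ)⁆ * n := by
    rw [commutatorElement_def]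
    change (g : (Matrix (Fin m) (Fin m) D)ˣ) * n * (g : (Matrix (Fin m) (Fin m) D)ˣ)⁻¹ = _
    group
  rw [h2]
  exact mul_mem h1 hn

theorem comm_le : ⁅UH H, UH H⁆ ≤ SU f H := by
  rw [Subgroup.commutator_le]
  intro a ha b hb
  refine Subgroup.mem_inf.mpr ⟨?_, ?_⟩
  · rw [commutatorElement_def]
    exact mul_mem (mul_mem (mul_mem ha hb) (inv_mem ha)) (inv_mem hb)
  · rw [MonoidHom.mem_ker, commutatorElement_def, map_mul, map_mul, map_mul]
    set φ := (redNorm f (Fin m)).comp (Units.coeHom (Matrix (Fin m) (Fin m) D)) with hφ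
    have h1 : φ a * φ a⁻¹ = 1 := by rw [← map_mul, mul_inv_cancel, map_one]
    have h2 : φ b * φ b⁻¹ = 1 := by rw [← map_mul, mul_inv_cancel, map_one]
    calc φ a * φ b * φ a⁻¹ * φ b⁻¹ = (φ a * φ a⁻¹) * (φ b * φ b⁻¹) := by ring
      _ = 1 := by rw [h1, h2, one_mul]

/-- If the commutator subgroup of the unitary group is quasisimple, and every noncentral normal
subgroup of the special unitary group is the whole group, then the special unitary group is the
commutator subgroup of the unitary group. -/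
theorem su_eq_comm (hq : IsQuasisimple ⁅UH H, UH H⁆)
    (hN : ∀ (N : Subgroup (SU f H)) [N.Normal], N ≤ Subgroup.center (SU f H) ∨ N = ⊤) :
    SU f H = ⁅UH H, UH H⁆ := by
  have hle : ⁅UH H, UH H⁆ ≤ SU f H := comm_le f H
  have := comm_normal f H
  rcases hN (⁅UH H, UH H⁆.subgroupOf (SU f H)) with h | h
  · exfalso
    obtain ⟨_, _, a, b, hab⟩ := hq
    induction a using QuotientGroup.induction_on with | _ a
    induction b using QuotientGroup.induction_on with | _ b
    apply hab
    have hc : a * b = b * a := by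
      have h1 : (⟨(a : (Matrix (Fin m) (Fin m) D)ˣ), hle a.2⟩ : SU f H) ∈
          ⁅UH H, UH H⁆.subgroupOf (SU f H) := a.2
      have h2 := Subgroup.mem_center_iff.mp (h h1)
        ⟨(b : (Matrix (Fin m) (Fin m) D)ˣ), hle b.2⟩
      have h3 := congrArg (SU f H).subtype h2
      exact Subtype.ext h3.symm
    exact congrArg (QuotientGroup.mk (s := Subgroup.center _)) hc
  · exact le_antisymm (Subgroup.subgroupOf_eq_top.mp h) hle

end

variable {K D : Type} [Field K] [NumberField K] [StarRing K] [DivisionRing D] [StarRing D]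
  [Algebra K D] [StarModule K D] [FiniteDimensional K D] [Algebra.IsCentral K D]

theorem kills_all (hK : ∃ k : K, star k ≠ k) {n : ℕ}
    (hdeg : finrank K D = n ^ 2)
    {F : Type} [Field F] [Algebra K F] (f : D →ₐ[K] Matrix (Fin n) (Fin n) F) : Kills f := by
  intro A _ F0 hmul hsym Z hZ h
  have hchar : CharZero D := charZero_of_injective_algebraMap (algebraMap K D).injective
  have hfin : FiniteDimensional ℚ D := FiniteDimensional.trans ℚ K D
  exact suk_all (K := K) F0 hmul hsym hdeg hK f hZ h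

/-- Normal subgroups, division algebras of arbitrary degree. -/
theorem normal_all (hK : ∃ k : K, star k ≠ k) {n : ℕ} (hn : 0 < n)
    (hdeg : finrank K D = n ^ 2)
    {F : Type} [Field F] [Algebra K F] (f : D →ₐ[K] Matrix (Fin n) (Fin n) F)
    {m : ℕ} (hm : 4 ≤ m) (H : Matrix (Fin m) (Fin m) D)
    (hH : IsAnisotropicForm H) (N : Subgroup (SU f H)) [N.Normal] :
    N ≤ Subgroup.center (SU f H) ∨ N = ⊤ :=
  normal_of_kills hK hn hdeg f (kills_all hK hdeg f) hm H hH N

/-- The special unitary group is perfect and simple modulo its centre, it is the commutator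
subgroup of the unitary group, and it has no proper subgroup of finite index. -/
theorem quasi_all (hK : ∃ k : K, star k ≠ k) {n : ℕ} (hn : 0 < n)
    (hdeg : finrank K D = n ^ 2)
    {F : Type} [Field F] [Algebra K F] (f : D →ₐ[K] Matrix (Fin n) (Fin n) F)
    {m : ℕ} (hm : 4 ≤ m) (H : Matrix (Fin m) (Fin m) D)
    (hH : IsAnisotropicForm H) :
    (∀ S : Subgroup (SU f H), S.index ≠ 0 → S = ⊤) ∧ IsQuasisimple (SU f H) ∧
      SU f H = ⁅UH H, UH H⁆ := by
  obtain ⟨_, _, h3, _, h5, _⟩ := RP.clauses_every hK hn hdeg f hm H hH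
  have he : SU f H = ⁅UH H, UH H⁆ := su_eq_comm f H h5
    fun N _ => normal_all hK hn hdeg f hm H hH N
  refine ⟨fun S hS => ?_, by rw [he]; exact h5, he⟩
  obtain ⟨hS1, _, hS2, _⟩ := h3 S hS
  exact top_of_kills hK f (kills_all hK hdeg f) H S hS2

end Vale.Agent.P011.W
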