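import Vale.Agent.P011.W.MaxF
import Vale.Agent.P011.Bdl.B2

/-!
Calculus of reduced norms.
-/

open Module Polynomial Matrix

namespace Vale.Agent.P011.W

open Vale.Agent.P011S (exists_split)

section

variable {F D : Type} [Field F] [DivisionRing D] [Algebra F D] {d : ℕ}

theorem hasNrd_iff {t : D} {y : F} : HasNrd F d t y ↔ ∀ (Ω : Type) [Field Ω] (φ : F →+* Ω)
    (f : D →+* Matrix (Fin d) (Fin d) Ω),
    (∀ c, f (algebraMap F D c) = Matrix.scalar (Fin d) (φ c)) → (f t).det = φ y := by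
  constructor
  · intro h Ω _ φ f hf
    let _ : Algebra F Ω := φ.toAlgebra
    have h1 : ∀ c : F, f (algebraMap F D c) = algebraMap F (Matrix (Fin d) (Fin d) Ω) c :=
      fun c => hf c
    exact h Ω { f with commutes' := h1 }
  · intro h Ω _ _ f
    exact h Ω (algebraMap F Ω) (f : D →+* Matrix (Fin d) (Fin d) Ω) fun c => f.commutes c

theorem HasNrd.mul {t t' : D} {y y' : F} (h : HasNrd F d t y) (h' : HasNrd F d t' y') :
    HasNrd F d (t * t') (y * y') := by
  intro Ω _ _ f
  rw [map_mul, Matrix.det_mul, h, h', map_mul]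

theorem HasNrd.inv {t : D} {y : F} (ht : t ≠ 0) (h : HasNrd F d t y) :
    HasNrd F d t⁻¹ y⁻¹ := by
  intro Ω _ _ f
  have h1 : (f t).det * (f t⁻¹).det = 1 := by
    rw [← Matrix.det_mul, ← map_mul, mul_inv_cancel₀ ht, map_one, Matrix.det_one]
  rw [h] at h1
  rw [map_inv₀ (algebraMap F Ω)]
  exact eq_inv_of_mul_eq_one_right h1

variable [FiniteDimensional F D] [Algebra.IsCentral F D]

theorem HasNrd.unique (hD : finrank F D = d ^ 2) {t : D} {y y' : F} (h : HasNrd F d t y)
    (h' : HasNrd F d t y') : y = y' := by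
  obtain ⟨g⟩ := exists_split (K := F) (D := D) hD (AlgebraicClosure F)
  exact (algebraMap F (AlgebraicClosure F)).injective ((h _ g).symm.trans (h' _ g))

theorem HasNrd.ne_zero (hD : finrank F D = d ^ 2) {t : D} {y : F} (h : HasNrd F d t y)
    (hy : y ≠ 0) : t ≠ 0 := by
  rintro rfl
  obtain ⟨g⟩ := exists_split (K := F) (D := D) hD (AlgebraicClosure F)
  have h1 := h _ g
  have : Nonempty (Fin d) := ⟨⟨0, deg_pos hD⟩⟩
  rw [map_zero, Matrix.det_zero] at h1
  exact hy ((algebraMap F (AlgebraicClosure F)).injective (by rw [← h1, map_zero]))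

end

end Vale.Agent.P011.W
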