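import Vale.Agent.P011.W.Red2
import Vale.Agent.P011.W.Sk2

/-!
Elements of reduced norm one: the part at an odd prime, in every degree.
-/

set_option linter.unusedSectionVars false
set_option linter.unusedSimpArgs false

open Matrix Module TensorProduct NumberField

namespace Vale.Agent.P011.W

open Vale.Agent.P011S
open Vale.Agent.P011.T2 (numberField_of_finite)

/-- The determinant in one splitting is the reduced norm. -/
theorem hasNrd_of_det {F D Ω : Type} [Field F] [CharZero F] [DivisionRing D] [Algebra F D]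
    [FiniteDimensional F D] [Algebra.IsCentral F D] {d : ℕ} (hD : finrank F D = d ^ 2) [Field Ω]
    [Algebra F Ω] (f : D →ₐ[F] Matrix (Fin d) (Fin d) Ω) {t : D} {y : F}
    (h : (f t).det = algebraMap F Ω y) : HasNrd F d t y := by
  obtain ⟨L, _, _, _, j, u, hL, rfl⟩ := exists_maxfield hD t
  have h1 := hasNrd_norm hD hL j u
  have h2 := h1 Ω f
  rw [h] at h2
  rwa [(algebraMap F Ω).injective h2]

variable {K D F : Type} [Field K] [NumberField K] [DivisionRing D] [Algebra K D]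
  [FiniteDimensional K D] [Algebra.IsCentral K D] [Field F] [Algebra K F]
  {A : Type} [CommGroup A] (F0 : D → A)
  (hmul : ∀ a b : D, a ≠ 0 → b ≠ 0 → F0 (a * b) = F0 a * F0 b) (hneg : F0 (-1) = 1)

include hmul hneg

theorem sk1_part_gen {p d : ℕ} (hp : p.Prime) (hp2 : p ≠ 2)
    (hD : finrank K D = d ^ 2) (f : D →ₐ[K] Matrix (Fin d) (Fin d) F) {u : D}
    (hu : (f u).det = 1) : ∃ e, Nat.Coprime e p ∧ F0 u ^ e = 1 := by
  classical
  have : Fact p.Prime := ⟨hp⟩
  have hd : 0 < d := deg_pos hD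
  have hu0 : u ≠ 0 := by
    rintro rfl
    have : Nonempty (Fin d) := ⟨⟨0, hd⟩⟩
    rw [map_zero, Matrix.det_zero] at hu
    exact zero_ne_one hu
  obtain ⟨N, _, _, _, _, ⟨g⟩⟩ := exists_galois_split' (K := K) (D := D) hD
  obtain ⟨E, hcop, a, ha⟩ := exists_sylow_field (k := K) (N := N) p
  obtain ⟨n, hn, Δ, i1, i2, i3, i4, ψ, j, hnq, hΔ⟩ := exists_data_pow hp ha g hD
  have hnfE : NumberField E := numberField_of_finite (K := K)
  have hcE : CharZero E := charZero_of_injective_algebraMap (algebraMap K E).injective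
  have hcΔ : CharZero Δ := charZero_of_injective_algebraMap (algebraMap E Δ).injective
  -- a common extension
  let F' := AlgebraicClosure F
  let lift : E →ₐ[K] F' := IsAlgClosed.lift
  let algE : Algebra E F' := lift.toRingHom.toAlgebra
  have htow : IsScalarTower K E F' := IsScalarTower.of_algebraMap_eq fun x => (lift.commutes x).symm
  have hcF : CharZero F' := charZero_of_injective_algebraMap (algebraMap K F').injective
  let f' : D →ₐ[K] Matrix (Fin d) (Fin d) F' :=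
    ((Algebra.ofId F F').restrictScalars K).mapMatrix.comp f
  have hf' : (f' u).det = 1 := by
    have h1 : f' u = (f u).map (algebraMap F F') := rfl
    have h2 := RingHom.map_det (algebraMap F F') (f u)
    rw [hu, map_one] at h2
    rw [h1]
    exact h2.symm
  let G : Matrix (Fin n) (Fin n) Δ →ₐ[E] Matrix (Fin d) (Fin d) F' :=
    (bcf f').comp (ψ.symm : Matrix (Fin n) (Fin n) Δ →ₐ[E] E ⊗[K] D)
  obtain ⟨f2, hf2⟩ := exists_corner G hnq
  let b := finBasis K E
  let θ : (Matrix (Fin n) (Fin n) Δ)ˣ →* A := (mdU F0 hmul hneg (finrank K E)).comp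
    (Units.map (((trf b : E ⊗[K] D →ₐ[K] _) : E ⊗[K] D →* _).comp
      (ψ.symm : Matrix (Fin n) (Fin n) Δ →* E ⊗[K] D)))
  let χ : (Matrix (Fin n) (Fin n) Δ)ˣ →* A × F'ˣ :=
    θ.prod (Units.map (Matrix.detMonoidHom.comp (G : _ →* Matrix (Fin d) (Fin d) F')))
  have h2Δ : (2 : Δ) ≠ 0 := two_ne_zero
  let U : (Matrix (Fin n) (Fin n) Δ)ˣ := Units.map
    ((ψ : E ⊗[K] D →* _).comp (Algebra.TensorProduct.includeRight : D →ₐ[K] E ⊗[K] D))
    (Units.mk0 u hu0)
  obtain ⟨δ, hδ⟩ := exists_dgU χ (chi_tvU h2Δ χ) 0 U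
  have hδ1 : θ U = θ (dgU 0 δ) := congrArg Prod.fst hδ
  have hδ2 : (G (U : Matrix (Fin n) (Fin n) Δ)).det =
      (G (dgU 0 δ : (Matrix (Fin n) (Fin n) Δ)ˣ)).det :=
    congrArg Units.val (congrArg Prod.snd hδ)
  have hU : ψ.symm (U : Matrix (Fin n) (Fin n) Δ) = 1 ⊗ₜ u := ψ.symm_apply_apply _
  have hθU : θ U = F0 u ^ finrank K E := by
    change mdU F0 hmul hneg (finrank K E) _ = _
    rw [mdU_diagonal F0 hmul hneg _ (fun _ => u) (fun _ => hu0), Finset.prod_const,
      Finset.card_univ, Fintype.card_fin]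
    change trf b (ψ.symm (U : Matrix (Fin n) (Fin n) Δ)) = _
    rw [hU, trf_one_tmul]
  have hδ3 : (f2 (δ : Δ)).det = 1 := by
    rw [← hf2, ← hδ2]
    change (bcf f' (ψ.symm (U : Matrix (Fin n) (Fin n) Δ))).det = 1
    rw [hU, bcf_one_tmul, hf']
  let F1 : Δ → A := fun x => if h : x = 0 then 1 else θ (dgU 0 (Units.mk0 x h)) ^ 2
  have hF1 : ∀ (x : Δ) (h : x ≠ 0), F1 x = θ (dgU 0 (Units.mk0 x h)) ^ 2 :=
    fun x h => dif_neg h
  have hδ4 : HasNrd E (p ^ j) (δ : Δ) 1 := hasNrd_of_det hΔ f2 (by rw [hδ3, map_one])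
  obtain ⟨k, hk, h1⟩ : ∃ k, Nat.Coprime k p ∧ F1 (δ : Δ) ^ k = 1 := by
    refine sk1_pp hp hΔ F1 ?_ ?_ hδ4
    · intro x y hx hy
      rw [hF1 _ hx, hF1 _ hy, hF1 _ (mul_ne_zero hx hy), ← mul_pow, ← map_mul, ← dgU_mul]
      congr 3
      exact Units.ext rfl
    · have hm : (-1 : Δ) ≠ 0 := neg_ne_zero.mpr one_ne_zero
      rw [hF1 _ hm, ← map_pow, pow_two, ← dgU_mul]
      have h4 : Units.mk0 (-1 : Δ) hm * Units.mk0 (-1 : Δ) hm = 1 := by
        apply Units.ext
        simp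
      rw [h4]
      have h3 : (dgU 0 1 : (Matrix (Fin n) (Fin n) Δ)ˣ) = 1 := by
        have h4 := dgU_mul (0 : Fin n) (1 : Δˣ) 1
        rw [mul_one] at h4
        exact mul_eq_left.mp h4.symm
      rw [h3, map_one]
  refine ⟨finrank K E * 2 * k, Nat.Coprime.mul_left (Nat.Coprime.mul_left hcop
    ((Nat.coprime_primes Nat.prime_two hp).mpr (Ne.symm hp2))) hk, ?_⟩
  rw [pow_mul, pow_mul, ← hθU, hδ1]
  rw [hF1 _ δ.ne_zero] at h1
  convert h1 using 5
  exact Units.ext rfl

end Vale.Agent.P011.W
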