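import Vale.Agent.P011.W.Defs
import Vale.Agent.P011.T2.MaxSub

/-!
Maximal subfields of division algebras, splitting and reduced norms.
-/

open NumberField IsDedekindDomain Polynomial Module

namespace Vale.Agent.P011.W

section alg

variable {F D : Type} [Field F] [DivisionRing D] [Algebra F D] [FiniteDimensional F D] {d : ℕ}

theorem deg_pos (hD : finrank F D = d ^ 2) : 0 < d := by
  have h : 0 < finrank F D := Module.finrank_pos
  rw [hD] at h
  exact Nat.pos_of_ne_zero fun h0 => by
    rw [h0] at h
    simp at h

/-- The dimension over a maximal subfield acting on the right. -/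
theorem exists_right_basis (hD : finrank F D = d ^ 2) {L : Type} [Field L] [Algebra F L]
    (hL : finrank F L = d) (j : L →ₐ[F] D) :
    ∃ (_ : Module L D), (∀ (l : L) (x : D), l • x = x * j l) ∧ Nonempty (Basis (Fin d) L D) := by
  have hd := deg_pos hD
  let inst : Module L D :=
    { smul := fun l x => x * j l
      one_smul := fun x => by change x * j 1 = x; rw [map_one, mul_one]
      mul_smul := fun a b x => by
        change x * j (a * b) = x * j b * j a
        rw [mul_comm a b, map_mul, mul_assoc]
      smul_zero := fun a => zero_mul _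
      smul_add := fun a x y => add_mul _ _ _
      add_smul := fun a b x => by change x * j (a + b) = x * j a + x * j b; rw [map_add, mul_add]
      zero_smul := fun x => by change x * j 0 = 0; rw [map_zero, mul_zero] }
  have hsmul : ∀ (l : L) (x : D), l • x = x * j l := fun _ _ => rfl
  have htower : IsScalarTower F L D := ⟨fun c l x => by
    rw [hsmul, hsmul, map_smul, mul_smul_comm]⟩
  have hfin : Module.Finite L D := Module.Finite.of_restrictScalars_finite F L D
  have h1 : finrank L D = d := by
    have h1 : finrank F L * finrank L D = finrank F D := Module.finrank_mul_finrank F L D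
    rw [hL, hD, sq] at h1
    exact Nat.eq_of_mul_eq_mul_left hd h1
  exact ⟨inst, hsmul, ⟨Module.finBasisOfFinrankEq L D h1⟩⟩

/-- A2 a maximal subfield splits -/
theorem spl_of_maxfield (hD : finrank F D = d ^ 2) {L : Type} [Field L] [Algebra F L]
    (hL : finrank F L = d) (j : L →ₐ[F] D) : Spl D d (algebraMap F L) := by
  obtain ⟨_, hsmul, ⟨b⟩⟩ := exists_right_basis hD hL j
  -- left multiplications
  let lm : D →+* Module.End L D :=
    { toFun := fun x =>
        { toFun := fun y => x * y
          map_add' := fun y z => mul_add x y z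
          map_smul' := fun l y => by
            rw [RingHom.id_apply, hsmul, hsmul, mul_assoc] }
      map_one' := by ext y; exact one_mul y
      map_mul' := fun x y => by ext z; exact mul_assoc x y z
      map_zero' := by ext y; exact zero_mul y
      map_add' := fun x y => by ext z; exact add_mul x y z }
  refine ⟨((LinearMap.toMatrixAlgEquiv b : Module.End L D ≃ₐ[L] Matrix (Fin d) (Fin d) L) :
    Module.End L D →+* Matrix (Fin d) (Fin d) L).comp lm, fun c => ?_⟩
  have h1 : lm (algebraMap F D c) = algebraMap L (Module.End L D) (algebraMap F L c) := by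
    ext y
    change algebraMap F D c * y = algebraMap F L c • y
    rw [hsmul, AlgHom.commutes, Algebra.commutes]
  rw [RingHom.comp_apply, h1]
  exact (LinearMap.toMatrixAlgEquiv b).commutes _

/-- A3 a splitting field of the right degree is a maximal subfield -/
theorem embed_of_spl (hD : finrank F D = d ^ 2) {L : Type} [Field L] [Algebra F L]
    (hL : finrank F L = d) (h : Spl D d (algebraMap F L)) : Nonempty (L →ₐ[F] D) := by
  have hd := deg_pos hD
  obtain ⟨f⟩ := spl_iff.mp h
  have hfinL : FiniteDimensional F L := Module.finite_of_finrank_pos (by rw [hL]; exact hd)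
  let v : Fin d → L := fun _ => 1
  have hv : v ≠ 0 := fun h => by
    have := congrFun h ⟨0, hd⟩
    exact one_ne_zero this
  let φ : D →ₗ[F] (Fin d → L) :=
    { toFun := fun x => (f x).mulVec v
      map_add' := fun x y => by rw [map_add, Matrix.add_mulVec]
      map_smul' := fun c x => by rw [map_smul, RingHom.id_apply, Matrix.smul_mulVec] }
  have hφ : ∀ x, φ x = (f x).mulVec v := fun _ => rfl
  have hinj : Function.Injective φ := by
    rw [injective_iff_map_eq_zero]
    intro x hx
    by_contra h0
    apply hv
    have h1 : (f x⁻¹).mulVec ((f x).mulVec v) = v := by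
      rw [Matrix.mulVec_mulVec, ← map_mul, inv_mul_cancel₀ h0, map_one, Matrix.one_mulVec]
    rw [← h1, ← hφ, hx, Matrix.mulVec_zero]
  have hdim : finrank F D = finrank F (Fin d → L) := by
    rw [hD, Module.finrank_pi_fintype, Finset.sum_const, Finset.card_univ, Fintype.card_fin, hL,
      smul_eq_mul, sq]
  have hsurj : Function.Surjective φ :=
    (LinearMap.injective_iff_surjective_of_finrank_eq_finrank hdim).mp hinj
  choose g hg using fun l : L => hsurj (l • v)
  have hg' : ∀ l, (f (g l)).mulVec v = l • v := hg
  refine ⟨AlgHom.mk' ⟨⟨⟨g, ?_⟩, ?_⟩, ?_, ?_⟩ ?_⟩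
  · apply hinj
    rw [hg, one_smul, hφ, map_one, Matrix.one_mulVec]
  · intro a b
    apply hinj
    rw [hg, hφ, map_mul, ← Matrix.mulVec_mulVec, hg', Matrix.mulVec_smul, hg', smul_smul,
      mul_comm b a]
  · apply hinj
    change φ (g 0) = φ 0
    rw [hg, zero_smul, map_zero]
  · intro a b
    apply hinj
    change φ (g (a + b)) = φ (g a + g b)
    rw [hg, map_add, hg, hg, add_smul]
  · intro c l
    apply hinj
    change φ (g (c • l)) = φ (c • g l)
    rw [hg, map_smul, hg, smul_assoc]

/-- The norm of an element of a maximal subfield. -/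
theorem norm_maxfield (hD : finrank F D = d ^ 2) {L : Type} [Field L] [Algebra F L]
    (hL : finrank F L = d) (j : L →ₐ[F] D) (x : L) :
    Algebra.norm F (j x) = Algebra.norm F x ^ d := by
  have hd := deg_pos hD
  have hfinL : FiniteDimensional F L := Module.finite_of_finrank_pos (by rw [hL]; exact hd)
  let _ : Module L D := Module.compHom D (j : L →+* D)
  have hsmul : ∀ (l : L) (x : D), l • x = j l * x := fun _ _ => rfl
  have htower : IsScalarTower F L D := ⟨fun k l x => by
    rw [hsmul, hsmul, map_smul, smul_mul_assoc]⟩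
  have hfin : Module.Finite L D := Module.Finite.of_restrictScalars_finite F L D
  have h1 : finrank L D = d := by
    have h1 : finrank F L * finrank L D = finrank F D := Module.finrank_mul_finrank F L D
    rw [hL, hD, sq] at h1
    exact Nat.eq_of_mul_eq_mul_left hd h1
  let b : Basis (Fin d) L D := Module.finBasisOfFinrankEq L D h1
  let e : D ≃ₗ[F] (Fin d → L) := b.equivFun.restrictScalars F
  have h2 : Algebra.norm F x ^ d = LinearMap.det (LinearMap.pi fun i : Fin d =>
      (LinearMap.mulLeft F x).comp (LinearMap.proj i) : (Fin d → L) →ₗ[F] (Fin d → L)) := by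
    rw [LinearMap.det_pi, Finset.prod_const, Finset.card_univ, Fintype.card_fin]
    rfl
  rw [h2, Algebra.norm_apply, ← LinearMap.det_conj (Algebra.lmul F D (j x)) e]
  congr 1
  refine LinearMap.ext fun y => ?_
  change b.equivFun (j x * b.equivFun.symm y) = fun i => x * y i
  rw [← hsmul, map_smul, LinearEquiv.apply_symm_apply]
  rfl

variable [CharZero F] [Algebra.IsCentral F D]

/-- A4 the reduced norm on a maximal subfield -/
theorem hasNrd_norm (hD : finrank F D = d ^ 2) {L : Type} [Field L] [Algebra F L]
    (hL : finrank F L = d) (j : L →ₐ[F] D) (x : L) : HasNrd F d (j x) (Algebra.norm F x) := by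
  intro Ω _ _ f
  have hd := deg_pos hD
  have hfinL : FiniteDimensional F L := Module.finite_of_finrank_pos (by rw [hL]; exact hd)
  have hcz : CharZero Ω := charZero_of_injective_algebraMap (algebraMap F Ω).injective
  let b : Basis (Fin d) F L := Module.finBasisOfFinrankEq F L hL
  obtain ⟨P, hP⟩ : ∃ P, P = (f (j x)).charpoly := ⟨_, rfl⟩
  obtain ⟨Q, hQ⟩ : ∃ Q, Q = (Algebra.leftMulMatrix b x).charpoly.map (algebraMap F Ω) := ⟨_, rfl⟩
  have hPm : P.Monic := by rw [hP]; exact Matrix.charpoly_monic _
  have hQm : Q.Monic := by rw [hQ]; exact (Matrix.charpoly_monic _).map _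
  have hev : ∀ c : F, (P ^ d).eval (algebraMap F Ω c) = (Q ^ d).eval (algebraMap F Ω c) := by
    intro c
    have h1 : P.eval (algebraMap F Ω c) = (f (j (algebraMap F L c - x))).det := by
      rw [hP, Matrix.eval_charpoly, map_sub, map_sub, AlgHom.commutes, AlgHom.commutes]
      rfl
    have h2 : Q.eval (algebraMap F Ω c) =
        algebraMap F Ω (Algebra.norm F (algebraMap F L c - x)) := by
      rw [hQ, eval_map_apply, Matrix.eval_charpoly, Algebra.norm_eq_matrix_det b, map_sub,
        AlgHom.commutes]
      rfl
    rw [eval_pow, eval_pow, h1, h2, ← Vale.Agent.P011S.SF.norm_eq_det_pow hd hD f,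
      norm_maxfield hD hL, map_pow]
  have hPQ : P ^ d = Q ^ d := by
    refine Polynomial.eq_of_infinite_eval_eq _ _ ?_
    refine (Set.infinite_range_of_injective (f := fun n : ℕ => algebraMap F Ω (n : F)) ?_).mono ?_
    · intro m n hmn
      exact Nat.cast_injective (R := F) ((algebraMap F Ω).injective hmn)
    · rintro _ ⟨n, rfl⟩
      exact hev n
  have h1 : P ∣ Q := (UniqueFactorizationMonoid.pow_dvd_pow_iff_dvd hd.ne').mp hPQ.dvd
  have h2 : Q ∣ P := (UniqueFactorizationMonoid.pow_dvd_pow_iff_dvd hd.ne').mp hPQ.symm.dvd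
  have h3 : P = Q := eq_of_monic_of_associated hPm hQm (associated_of_dvd_dvd h1 h2)
  rw [Matrix.det_eq_sign_charpoly_coeff, ← hP, h3, hQ, coeff_map,
    Algebra.norm_eq_matrix_det b, Matrix.det_eq_sign_charpoly_coeff (Algebra.leftMulMatrix b x)]
  simp only [map_mul, map_pow, map_neg, map_one]

omit [FiniteDimensional F D] [CharZero F] [Algebra.IsCentral F D] in
theorem adjoin_comm {s : Set D} (h : ∀ a ∈ s, ∀ b ∈ s, a * b = b * a) :
    ∀ a ∈ Algebra.adjoin F s, ∀ b ∈ Algebra.adjoin F s, a * b = b * a := by
  intro a ha b hb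
  have _ : IsMulCommutative (Algebra.adjoin F s) := Algebra.isMulCommutative_adjoin F h
  exact congrArg Subtype.val (IsMulCommutative.is_comm.comm (⟨a, ha⟩ : Algebra.adjoin F s) ⟨b, hb⟩)

omit [CharZero F] in
open scoped IsMulCommutative in
/-- A1 every element lies in a maximal subfield -/
theorem exists_maxfield (hD : finrank F D = d ^ 2) (x : D) :
    ∃ (L : Type) (_ : Field L) (_ : Algebra F L) (_ : FiniteDimensional F L) (j : L →ₐ[F] D)
      (u : L), finrank F L = d ∧ j u = x := by
  let S : Set ℕ := {m | ∃ E : Subalgebra F D, x ∈ E ∧ (∀ a ∈ E, ∀ b ∈ E, a * b = b * a) ∧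
    finrank F E = m}
  have hne : S.Nonempty := ⟨_, Algebra.adjoin F {x}, Algebra.self_mem_adjoin_singleton F x,
    adjoin_comm (by rintro a rfl b rfl; rfl), rfl⟩
  have hbdd : BddAbove S := by
    refine ⟨finrank F D, ?_⟩
    rintro m ⟨E, -, -, rfl⟩
    exact Submodule.finrank_le (Subalgebra.toSubmodule E)
  obtain ⟨E, hxE, hE, hm⟩ := Nat.sSup_mem hne hbdd
  have hself : Subalgebra.centralizer F (E : Set D) = E := by
    apply le_antisymm
    · intro y hy
      rw [Subalgebra.mem_centralizer_iff] at hy
      have h1 : ∀ a ∈ insert y (E : Set D), ∀ b ∈ insert y (E : Set D), a * b = b * a := by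
        rintro a (rfl | ha) b (rfl | hb)
        · rfl
        · exact (hy b hb).symm
        · exact hy a ha
        · exact hE a ha b hb
      have h2 : E ≤ Algebra.adjoin F (insert y (E : Set D)) := fun a ha =>
        Algebra.subset_adjoin (Set.mem_insert_of_mem y ha)
      have h3 : finrank F (Algebra.adjoin F (insert y (E : Set D))) ≤ finrank F E := by
        rw [hm]
        exact le_csSup hbdd ⟨_, h2 hxE, adjoin_comm h1, rfl⟩
      have h4 : E = Algebra.adjoin F (insert y (E : Set D)) :=
        Subalgebra.eq_of_le_of_finrank_le h2 h3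
      rw [h4]
      exact Algebra.subset_adjoin (Set.mem_insert y _)
    · intro y hy
      rw [Subalgebra.mem_centralizer_iff]
      exact fun a ha => hE a ha y hy
  have _ : IsMulCommutative E := IsMulCommutative.of_setLike_mul_comm hE
  have hdeg : finrank F E = d := by
    have h1 := Vale.Agent.P011.T2.finrank_centralizer (K := F) E
    rw [hself, hD, ← sq] at h1
    exact Nat.pow_left_injective two_ne_zero h1
  exact ⟨E, fieldOfFiniteDimensional F E, inferInstance, inferInstance, E.val, ⟨x, hxE⟩, hdeg, rfl⟩

end alg

section root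

open IntermediateField

theorem exists_algHom {F L M : Type} [Field F] [Field L] [Algebra F L] [FiniteDimensional F L]
    [Field M] [Algebra F M] (u : L) (hu : (minpoly F u).natDegree = finrank F L) (α : M)
    (hα : aeval α (minpoly F u) = 0) : Nonempty (L →ₐ[F] M) := by
  have hint : IsIntegral F u := IsIntegral.of_finite F u
  have h1 : F⟮u⟯ = ⊤ := (Field.primitive_element_iff_minpoly_natDegree_eq F u).mpr hu
  have h2 : aeval α (minpoly F (adjoin.powerBasis hint).gen) = 0 := by
    rw [adjoin.powerBasis_gen, minpoly_gen]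
    exact hα
  exact ⟨((adjoin.powerBasis hint).lift α h2).comp
    ((equivOfEq h1).symm.toAlgHom.comp (topEquiv (F := F) (E := L)).symm.toAlgHom)⟩

variable {F D : Type} [Field F] [DivisionRing D] [Algebra F D] [FiniteDimensional F D] {d : ℕ}
  [Algebra.IsCentral F D]

/-- A11 a root of the minimal polynomial of a generator of a maximal subfield -/
theorem spl_of_root (hD : finrank F D = d ^ 2) (x : D) (hx : (minpoly F x).natDegree = d)
    {M : Type} [Field M] [Algebra F M] (α : M) (hα : aeval α (minpoly F x) = 0) :
    Spl D d (algebraMap F M) := by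
  obtain ⟨L, _, _, _, j, u, hL, hu⟩ := exists_maxfield hD x
  have hmin : minpoly F u = minpoly F x := by
    rw [← hu, minpoly.algHom_eq j j.injective]
  obtain ⟨ψ⟩ := exists_algHom u (by rw [hmin, hx, hL]) α (by rw [hmin]; exact hα)
  have h := (spl_of_maxfield hD hL j).comp (ψ : L →+* M)
  have h1 : (ψ : L →+* M).comp (algebraMap F L) = algebraMap F M := ψ.comp_algebraMap
  rwa [h1] at h

end root

end Vale.Agent.P011.W
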