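import Vale.Agent.P011.W.Defs
import Vale.Agent.P011.Even.Completion

/-!
Completions of an extension, and Hensel's lemma.
-/

open NumberField IsDedekindDomain Polynomial Module

namespace Vale.Agent.P011.W

open Vale.Agent.P011.Arith Vale.Agent.P011.Even

section map

variable {F E : Type} [Field F] [NumberField F] [Field E] [NumberField E] [Algebra F E]

/-- B1 the completions of an extension -/
theorem completion_map {w : HeightOneSpectrum (𝓞 E)} {v : HeightOneSpectrum (𝓞 F)}
    (h : w.asIdeal.comap (algebraMap (𝓞 F) (𝓞 E)) = v.asIdeal) :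
    ∃ g : v.adicCompletion F →+* w.adicCompletion E,
      ∀ x : F, g (algebraMap F _ x) = algebraMap E _ (algebraMap F E x) := by
  let _ : PseudoMetricSpace F :=
    PseudoMetricSpace.induced (algebraMap F (v.adicCompletion F)) inferInstance
  have hdist : ∀ x y : F, dist x y = dist (algebraMap F (v.adicCompletion F) x)
    (algebraMap F (v.adicCompletion F) y) := fun _ _ => rfl
  have ui : IsUniformInducing (algebraMap F (v.adicCompletion F)) := ⟨rfl⟩
  have dr : DenseRange (algebraMap F (v.adicCompletion F)) :=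
    HeightOneSpectrum.denseRange_algebraMap F v
  obtain ⟨e, he, hv⟩ := val_above h
  have hf : UniformContinuous ((algebraMap E (w.adicCompletion E)).comp (algebraMap F E)) := by
    rw [Metric.uniformContinuous_iff]
    intro ε hε
    let _ := nnf w
    obtain ⟨z, hz0, hz⟩ := NormedField.exists_norm_lt (w.adicCompletion E) hε
    have hz0' : z ≠ 0 := norm_pos_iff.mp hz0
    have hγ : (Valued.v z : Z0) ≠ 0 := (Valuation.ne_zero_iff _).mpr hz0'
    have hγ' : min (Valued.v z : Z0) 1 ≠ 0 := by
      rcases min_choice (Valued.v z : Z0) 1 with h1 | h1 <;> rw [h1]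
      · exact hγ
      · exact one_ne_zero
    obtain ⟨δ, hδ, hδ'⟩ := exists_radius v _ hγ'
    refine ⟨δ, hδ, fun {x y} hxy => ?_⟩
    rw [hdist, dist_eq_norm, ← map_sub] at hxy
    have h1 := hδ' _ hxy
    rw [dist_eq_norm, ← map_sub]
    refine lt_trans ?_ hz
    rw [norm_lt_iff, RingHom.comp_apply, valued_alg, hv]
    have h2 : v.valuation F (x - y) ≤ 1 := (h1.trans_le (min_le_right _ _)).le
    exact (pow_le_of_le_one zero_le h2 he).trans_lt (h1.trans_le (min_le_left _ _))
  refine ⟨IsDenseInducing.extendRingHom ui dr hf, fun x => ?_⟩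
  exact (ui.isDenseInducing dr).extend_eq hf.continuous x

end map

section hensel

variable {F : Type} [Field F] [NumberField F] (v : HeightOneSpectrum (𝓞 F))

/-- C1 Hensel's lemma in the completion -/
theorem hensel (P : (v.adicCompletion F)[X]) (hP : ∀ i, Valued.v (P.coeff i) ≤ 1)
    (x : v.adicCompletion F) (hx : Valued.v x ≤ 1)
    (h : Valued.v (P.eval x) < Valued.v (P.derivative.eval x) ^ 2) :
    ∃ y, P.eval y = 0 := by
  have hU := isUltra v
  -- the integral model
  have hO : ∀ z : v.adicCompletion F, z ∈ v.adicCompletionIntegers F ↔ ‖z‖ ≤ 1 := fun z => by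
    rw [norm_le_one_iff]; rfl
  set O : Subring (v.adicCompletion F) := (v.adicCompletionIntegers F).toSubring with hOd
  have hPO : (↑P.coeffs : Set (v.adicCompletion F)) ⊆ O := by
    intro c hc
    obtain ⟨i, _, rfl⟩ := Polynomial.mem_coeffs_iff.mp hc
    exact hP i
  set Q : O[X] := P.toSubring O hPO with hQ
  have hQP : Q.map O.subtype = P := by
    refine Polynomial.ext fun i => ?_
    rw [coeff_map]
    exact coeff_toSubring' P O hPO
  have hev : ∀ z : O, P.eval (z : v.adicCompletion F) = ((Q.eval z : O) : v.adicCompletion F) := by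
    intro z
    rw [← hQP]
    exact eval_map_apply (f := O.subtype) z
  have hev' : ∀ z : O, P.derivative.eval (z : v.adicCompletion F) =
      ((Q.derivative.eval z : O) : v.adicCompletion F) := by
    intro z
    rw [← hQP, derivative_map]
    exact eval_map_apply (f := O.subtype) z
  have hle : ∀ z : O, ‖(z : v.adicCompletion F)‖ ≤ 1 := fun z => (hO _).mp z.2
  -- norms
  obtain ⟨c, hc⟩ : ∃ c : ℝ, c = ‖P.derivative.eval x‖ := ⟨_, rfl⟩
  have hh : ‖P.eval x‖ < c ^ 2 := by
    rw [hc, ← norm_pow, norm_lt_iff, map_pow]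
    exact h
  have hc0 : 0 < c := by
    rcases (norm_nonneg (P.derivative.eval x)).lt_or_eq with h1 | h1
    · rw [hc]; exact h1
    · rw [hc, ← h1] at hh
      have := norm_nonneg (P.eval x)
      norm_num at hh
      linarith
  have hx1 : ‖x‖ ≤ 1 := (norm_le_one_iff v x).mpr hx
  have hc1 : c ≤ 1 := by
    have := hle (Q.derivative.eval ⟨x, hx⟩)
    rw [← hev'] at this
    rw [hc]
    exact this
  obtain ⟨r, hr⟩ : ∃ r : ℝ, r = ‖P.eval x‖ / c := ⟨_, rfl⟩
  have hr0 : 0 ≤ r := by rw [hr]; positivity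
  have hrc : r < c := by
    rw [hr, div_lt_iff₀ hc0, ← pow_two]
    exact hh
  -- the minimum
  have hcpt : IsCompact (Metric.closedBall x r) := isCompact_closedBall _ _
  obtain ⟨y, hy, hmin⟩ := hcpt.exists_isMinOn ⟨x, Metric.mem_closedBall_self hr0⟩
    (f := fun z => ‖P.eval z‖) (by fun_prop)
  have hball : ∀ z ∈ Metric.closedBall x r, ‖z‖ ≤ 1 := by
    intro z hz
    rw [Metric.mem_closedBall, dist_eq_norm] at hz
    have : z = (z - x) + x := by ring
    rw [this]
    exact (IsUltrametricDist.norm_add_le_max _ _).trans (max_le (by linarith) hx1)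
  refine ⟨y, ?_⟩
  by_contra hy0
  have hypos : 0 < ‖P.eval y‖ := norm_pos_iff.mpr hy0
  have hyx : ‖P.eval y‖ ≤ ‖P.eval x‖ := hmin (Metric.mem_closedBall_self hr0)
  have hy1 := hball y hy
  have hyd : ‖y - x‖ ≤ r := by rwa [Metric.mem_closedBall, dist_eq_norm] at hy
  -- the derivative at `y`
  have hder : ‖P.derivative.eval y‖ = c := by
    obtain ⟨z, hz⟩ := evalSubFactor Q.derivative ⟨y, (hO y).mpr hy1⟩ ⟨x, hx⟩
    have h1 : P.derivative.eval y - P.derivative.eval x = z * (y - x) := by
      have := congrArg (fun t : O => (t : v.adicCompletion F)) hz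
      have e1 := hev' ⟨y, (hO y).mpr hy1⟩
      have e2 := hev' ⟨x, hx⟩
      simp only at e1 e2
      rw [e1, e2]
      simpa using this
    have h2 : ‖P.derivative.eval y - P.derivative.eval x‖ < c := by
      rw [h1, norm_mul]
      calc ‖(z : v.adicCompletion F)‖ * ‖y - x‖ ≤ 1 * r :=
            mul_le_mul (hle z) hyd (norm_nonneg _) zero_le_one
        _ = r := one_mul r
        _ < c := hrc
    rw [hc] at h2 ⊢
    have h3 := IsUltrametricDist.norm_add_eq_max_of_norm_ne_norm h2.ne
    rw [sub_add_cancel, max_eq_right h2.le] at h3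
    exact h3
  have hder0 : P.derivative.eval y ≠ 0 := by
    rw [← norm_pos_iff, hder]; exact hc0
  -- the Newton step
  obtain ⟨s, hs⟩ : ∃ s, s = -(P.eval y / P.derivative.eval y) := ⟨_, rfl⟩
  have hsn : ‖s‖ = ‖P.eval y‖ / c := by rw [hs, norm_neg, norm_div, hder]
  have hsr : ‖s‖ ≤ r := by
    rw [hsn, hr]
    exact div_le_div_of_nonneg_right hyx hc0.le
  have hs1 : ‖s‖ ≤ 1 := by linarith
  obtain ⟨k, hk⟩ := binomExpansion Q ⟨y, (hO y).mpr hy1⟩ ⟨s, (hO s).mpr hs1⟩
  have h1 : P.eval (y + s) = P.eval y + P.derivative.eval y * s + k * s ^ 2 := by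
    have := congrArg (fun t : O => (t : v.adicCompletion F)) hk
    have e1 := hev' ⟨y, (hO y).mpr hy1⟩
    have e2 := hev ⟨y, (hO y).mpr hy1⟩
    have e3 := hev (⟨y, (hO y).mpr hy1⟩ + ⟨s, (hO s).mpr hs1⟩)
    simp only at e1 e2
    rw [e1, e2]
    rw [← e3] at this
    simpa using this
  have h2 : P.eval (y + s) = k * s ^ 2 := by
    rw [h1, hs]
    field_simp
    ring
  have h3 : ‖P.eval (y + s)‖ < ‖P.eval y‖ := by
    rw [h2, norm_mul, norm_pow]
    have h4 : ‖(k : v.adicCompletion F)‖ * ‖s‖ ^ 2 ≤ 1 * ‖s‖ ^ 2 :=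
      mul_le_mul_of_nonneg_right (hle k) (by positivity)
    have h5 : ‖s‖ ^ 2 < ‖P.eval y‖ := by
      rw [hsn, div_pow, div_lt_iff₀ (by positivity), pow_two]
      exact mul_lt_mul_of_pos_left (hyx.trans_lt hh) hypos
    linarith
  have h4 : y + s ∈ Metric.closedBall x r := by
    rw [Metric.mem_closedBall, dist_eq_norm]
    have : y + s - x = (y - x) + s := by ring
    rw [this]
    exact (IsUltrametricDist.norm_add_le_max _ _).trans (max_le hyd hsr)
  have h5 := hmin h4
  exact absurd h3 (not_lt.mpr h5)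

end hensel

end Vale.Agent.P011.W
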