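import Vale.Agent.P011.W.MaxF
import Vale.Agent.P011.Bdl.B2

/-!
The division part of a base change of a central division algebra.
-/

open Module TensorProduct Matrix

namespace Vale.Agent.P011.W

open Vale.Agent.P011S (bcf bcf_one_tmul exists_wed exists_split exists_corner corner_dim corner_dvd
  cW)

section

variable {F D : Type} [Field F] [CharZero F] [DivisionRing D] [Algebra F D]
  [FiniteDimensional F D] [Algebra.IsCentral F D] {d : ℕ}

/-- The division part of a base change, with the isomorphism. -/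
theorem exists_part' (hD : finrank F D = d ^ 2) (E : Type) [Field E] [Algebra F E] :
    ∃ (n q : ℕ) (_ : NeZero n) (Δ : Type) (_ : DivisionRing Δ) (_ : Algebra E Δ)
      (_ : FiniteDimensional E Δ) (_ : Algebra.IsCentral E Δ)
      (_ : E ⊗[F] D ≃ₐ[E] Matrix (Fin n) (Fin n) Δ), n * q = d ∧ finrank E Δ = q ^ 2 := by
  obtain ⟨n, hn, Δ, i1, i2, i3, i4, ψ, h1⟩ := exists_wed (E := E) hD
  have hcE : CharZero E := charZero_of_injective_algebraMap (algebraMap F E).injective
  have hcN : CharZero (AlgebraicClosure E) :=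
    charZero_of_injective_algebraMap (algebraMap E (AlgebraicClosure E)).injective
  obtain ⟨g⟩ := exists_split (K := F) (D := D) hD (AlgebraicClosure E)
  let G : Matrix (Fin n) (Fin n) Δ →ₐ[E] Matrix (Fin d) (Fin d) (AlgebraicClosure E) :=
    (bcf g).comp (ψ.symm : Matrix (Fin n) (Fin n) Δ →ₐ[E] E ⊗[F] D)
  have h2 := corner_dim G
  obtain ⟨q, hq⟩ : ∃ q, q = finrank (AlgebraicClosure E) (cW G) := ⟨_, rfl⟩
  rw [← hq] at h2
  have hnpos : 0 < n := Nat.pos_of_ne_zero (NeZero.ne n)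
  have h3 : finrank E Δ = q ^ 2 := by
    rw [← h2, mul_pow] at h1
    exact Nat.eq_of_mul_eq_mul_left (pow_pos hnpos 2) h1
  exact ⟨n, q, hn, Δ, i1, i2, i3, i4, ψ, h2, h3⟩

omit [CharZero F] [FiniteDimensional F D] [Algebra.IsCentral F D] in
/-- The splitting of the matrix algebra from a splitting of the division part. -/
theorem spl_of_part {E : Type} [Field E] [Algebra F E] {n q : ℕ} {Δ : Type} [DivisionRing Δ]
    [Algebra E Δ] (ψ : E ⊗[F] D ≃ₐ[E] Matrix (Fin n) (Fin n) Δ) (hnq : n * q = d)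
    {R : Type} [Field R] [Algebra E R] [Algebra F R] [IsScalarTower F E R]
    (f2 : Δ →ₐ[E] Matrix (Fin q) (Fin q) R) : Nonempty (D →ₐ[F] Matrix (Fin d) (Fin d) R) := by
  subst hnq
  let g1 : D →ₐ[F] E ⊗[F] D := Algebra.TensorProduct.includeRight
  let g2 : E ⊗[F] D →ₐ[E] Matrix (Fin n × Fin q) (Fin n × Fin q) R :=
    ((Matrix.compAlgEquiv (Fin n) (Fin q) R E).toAlgHom.comp
      (f2.mapMatrix : Matrix (Fin n) (Fin n) Δ →ₐ[E] _)).comp ψ.toAlgHom
  let g3 : Matrix (Fin n × Fin q) (Fin n × Fin q) R →ₐ[E]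
      Matrix (Fin (n * q)) (Fin (n * q)) R :=
    (Matrix.reindexAlgEquiv E R finProdFinEquiv).toAlgHom
  exact ⟨((g3.comp g2).restrictScalars F).comp g1⟩

/-- A7 the division part of a base change -/
theorem exists_part (hD : finrank F D = d ^ 2) (E : Type) [Field E] [Algebra F E] :
    ∃ (n q : ℕ) (Δ : Type) (_ : DivisionRing Δ) (_ : Algebra E Δ) (_ : FiniteDimensional E Δ)
      (_ : Algebra.IsCentral E Δ), n * q = d ∧ 0 < n ∧ finrank E Δ = q ^ 2 ∧
      ∀ (R : Type) [Field R] (φ : E →+* R), Spl D d (φ.comp (algebraMap F E)) ↔ Spl Δ q φ := by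
  obtain ⟨n, q, hn, Δ, i1, i2, i3, i4, ψ, h1, h2⟩ := exists_part' hD E
  have hcE : CharZero E := charZero_of_injective_algebraMap (algebraMap F E).injective
  refine ⟨n, q, Δ, i1, i2, i3, i4, h1, Nat.pos_of_ne_zero (NeZero.ne n), h2, ?_⟩
  intro R _ φ
  let _ : Algebra E R := φ.toAlgebra
  let _ : Algebra F R := (φ.comp (algebraMap F E)).toAlgebra
  have : IsScalarTower F E R := IsScalarTower.of_algebraMap_eq fun x => rfl
  have hcR : CharZero R := charZero_of_injective_algebraMap φ.injective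
  have e1 : Spl D d (φ.comp (algebraMap F E)) ↔ Nonempty (D →ₐ[F] Matrix (Fin d) (Fin d) R) :=
    spl_iff (F := F) (R := R)
  have e2 : Spl Δ q φ ↔ Nonempty (Δ →ₐ[E] Matrix (Fin q) (Fin q) R) :=
    spl_iff (F := E) (R := R)
  rw [e1, e2]
  constructor
  · rintro ⟨g⟩
    let G : Matrix (Fin n) (Fin n) Δ →ₐ[E] Matrix (Fin d) (Fin d) R :=
      (bcf g).comp (ψ.symm : Matrix (Fin n) (Fin n) Δ →ₐ[E] E ⊗[F] D)
    obtain ⟨f2, _⟩ := exists_corner G h1
    exact ⟨f2⟩
  · rintro ⟨f2⟩
    exact spl_of_part ψ h1 f2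

omit [Algebra.IsCentral F D] in
/-- A8 the degree divides the degree of a finite splitting field -/
theorem dvd_of_spl (hD : finrank F D = d ^ 2) (M : Type) [Field M] [Algebra F M]
    [FiniteDimensional F M] (h : Spl D d (algebraMap F M)) : d ∣ finrank F M := by
  have hcM : CharZero M := charZero_of_injective_algebraMap (algebraMap F M).injective
  obtain ⟨f⟩ := spl_iff.mp h
  exact corner_dvd hD (deg_pos hD) f

end

end Vale.Agent.P011.W
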