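import Vale.Agent.P011.W.LocNorm
import Vale.Agent.P011.W.Compl
import Vale.Agent.P011.W.MaxF
import Vale.Agent.P011.W.Part

/-!
The theorem of Albert, Brauer, Hasse and Noether in prime power degree.
-/

open NumberField IsDedekindDomain Polynomial Module

namespace Vale.Agent.P011.W

open Vale.Agent.P011.Arith (exists_below)

section galois

/-- A primitive root of unity of prime order lies in the fixed field of a `p`-group. -/
theorem zeta_mem {K N : Type} [Field K] [CharZero K] [Field N] [Algebra K N] [FiniteDimensional K N]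
    {p n : ℕ} (hp : p.Prime) (hN : finrank K N = p ^ n) {ζ : N} (hζ : IsPrimitiveRoot ζ p) :
    ∃ z : K, algebraMap K N z = ζ ∧ IsPrimitiveRoot z p := by
  have hint : IsIntegral K ζ := Algebra.IsIntegral.isIntegral ζ
  have h1 : (minpoly K ζ).natDegree ∣ p ^ n := hN ▸ minpoly.degree_dvd hint
  have h2 : minpoly K ζ ∣ cyclotomic p K := by
    apply minpoly.dvd
    rw [aeval_def, eval₂_eq_eval_map, map_cyclotomic]
    exact (hζ.isRoot_cyclotomic hp.pos)
  have h3 : (minpoly K ζ).natDegree ≤ p - 1 := by
    have h4 := natDegree_le_of_dvd h2 (cyclotomic_ne_zero p K)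
    rwa [natDegree_cyclotomic, Nat.totient_prime hp] at h4
  obtain ⟨j, _, hj⟩ := (Nat.dvd_prime_pow hp).mp h1
  have h4 : j = 0 := by
    by_contra hj0
    have h5 : p ≤ p ^ j := Nat.le_self_pow hj0 p
    have := hp.one_lt
    omega
  rw [h4, pow_zero] at hj
  obtain ⟨z, hz⟩ := (minpoly.natDegree_eq_one_iff).mp hj
  exact ⟨z, hz, by
    rw [← hz] at hζ
    exact hζ.of_map_of_injective (algebraMap K N).injective⟩

/-- A step of degree `p` in a Galois extension of degree a power of `p`. -/
theorem exists_step {M N : Type} [Field M] [CharZero M] [Field N] [Algebra M N]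
    [FiniteDimensional M N] [IsGalois M N]
    {p n : ℕ} (hp : p.Prime) (hN : finrank M N = p ^ (n + 1)) {ζ : M} (hζ : IsPrimitiveRoot ζ p) :
    ∃ L : IntermediateField M N, finrank M L = p ∧ finrank L N = p ^ n ∧
      ∃ (a : M) (θ : L), θ ^ p = algebraMap M L a ∧ ∀ c : M, c ^ p ≠ a := by
  have hfact : Fact p.Prime := ⟨hp⟩
  have hcard : Nat.card (N ≃ₐ[M] N) = p ^ (n + 1) := by rw [IsGalois.card_aut_eq_finrank, hN]
  obtain ⟨H, hH⟩ := Sylow.exists_subgroup_card_pow_prime (G := N ≃ₐ[M] N) p (n := n)
    (by rw [hcard]; exact pow_dvd_pow p (Nat.le_succ n))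
  have hidx : H.index = p := by
    have h1 := H.card_mul_index
    rw [hH, hcard, pow_succ] at h1
    exact Nat.eq_of_mul_eq_mul_left (pow_pos hp.pos n) h1
  have hnorm : H.Normal := Subgroup.normal_of_index_eq_minFac_card (by
    rw [hidx, hcard, Nat.Prime.pow_minFac hp (Nat.succ_ne_zero n)])
  set L := IntermediateField.fixedField H with hL
  have h1 : finrank L N = p ^ n := by rw [IntermediateField.finrank_fixedField_eq_card, hH]
  have h2 : finrank M L = p := by
    have h3 := finrank_mul_finrank M L N
    rw [h1, hN, pow_succ, mul_comm] at h3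
    exact Nat.eq_of_mul_eq_mul_left (pow_pos hp.pos n) h3
  have hgal : IsGalois M L := inferInstance
  have hcard2 : Nat.card (L ≃ₐ[M] L) = p := by rw [IsGalois.card_aut_eq_finrank, h2]
  have hcyc : IsCyclic (L ≃ₐ[M] L) := isCyclic_of_prime_card hcard2
  have hprim : (primitiveRoots (finrank M L) M).Nonempty :=
    ⟨ζ, by rw [h2, mem_primitiveRoots hp.pos]; exact hζ⟩
  obtain ⟨θ, ⟨a, ha⟩, hθ⟩ := exists_root_adjoin_eq_top_of_isCyclic M L hprim
  rw [h2] at ha
  refine ⟨L, h2, h1, a, θ, ha.symm, fun c hc => ?_⟩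
  -- otherwise `θ` would be in the base field
  have hbot : θ ∈ (⊥ : IntermediateField M L) := by
    rw [IntermediateField.mem_bot]
    by_cases hc0 : c = 0
    · subst hc0
      rw [zero_pow hp.ne_zero] at hc
      rw [← hc, map_zero] at ha
      exact ⟨0, by rw [map_zero]; exact ((pow_eq_zero_iff hp.ne_zero).mp ha.symm).symm⟩
    have : NeZero p := ⟨hp.ne_zero⟩
    have hcL : algebraMap M L c ≠ 0 := (_root_.map_ne_zero _).mpr hc0
    have h3 : (θ / algebraMap M L c) ^ p = 1 := by
      rw [div_pow, ← ha, ← hc, map_pow, div_self (pow_ne_zero _ hcL)]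
    obtain ⟨i, _, hi⟩ := (hζ.map_of_injective (algebraMap M L).injective).eq_pow_of_pow_eq_one h3
    refine ⟨ζ ^ i * c, ?_⟩
    rw [map_mul, map_pow, hi, div_mul_cancel₀ _ hcL]
  have htop : (⊤ : IntermediateField M L) = ⊥ := by
    rw [← hθ, IntermediateField.adjoin_simple_eq_bot_iff]
    exact hbot
  have h3 : finrank M L = 1 := by
    have h4 := IntermediateField.finrank_eq_one_iff (F := M) (E := L) (K := ⊤)
    rw [IntermediateField.finrank_top'] at h4
    exact h4.mpr htop
  rw [h2] at h3
  exact hp.one_lt.ne' h3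

/-- A finite Galois extension containing a given extension and a primitive root of unity. -/
theorem exists_galois {K L : Type} [Field K] [CharZero K] [Field L] [Algebra K L]
    [FiniteDimensional K L] {p : ℕ} (hp : p.Prime) :
    ∃ (N : Type) (_ : Field N) (_ : Algebra K N) (_ : FiniteDimensional K N) (_ : IsGalois K N)
      (ζ : N) (_ : L →ₐ[K] N), IsPrimitiveRoot ζ p := by
  let pb := Field.powerBasisOfFiniteOfSeparable K L
  set f : K[X] := minpoly K pb.gen * cyclotomic p K with hf
  have hf0 : f ≠ 0 := mul_ne_zero (minpoly.ne_zero (Algebra.IsIntegral.isIntegral _))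
    (cyclotomic_ne_zero p K)
  have hsplit := SplittingField.splits f
  have hmap : (f.map (algebraMap K f.SplittingField)) ≠ 0 :=
    (Polynomial.map_ne_zero_iff (algebraMap K f.SplittingField).injective).mpr hf0
  have hs1 : ((minpoly K pb.gen).map (algebraMap K f.SplittingField)).Splits :=
    hsplit.of_dvd hmap (Polynomial.map_dvd _ (dvd_mul_right _ _))
  have hs2 : ((cyclotomic p K).map (algebraMap K f.SplittingField)).Splits :=
    hsplit.of_dvd hmap (Polynomial.map_dvd _ (dvd_mul_left _ _))
  obtain ⟨y, hy⟩ := hs1.exists_eval_eq_zero (by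
    rw [degree_map]
    exact (minpoly.degree_pos (Algebra.IsIntegral.isIntegral _)).ne')
  obtain ⟨ζ, hζ⟩ := hs2.exists_eval_eq_zero (by
    rw [degree_map]
    exact (degree_cyclotomic_pos p K hp.pos).ne')
  have hchar : CharZero f.SplittingField :=
    charZero_of_injective_algebraMap (algebraMap K f.SplittingField).injective
  have hnorm : Normal K f.SplittingField := Normal.of_isSplittingField f
  refine ⟨f.SplittingField, inferInstance, inferInstance, inferInstance,
    { to_isSeparable := inferInstance, to_normal := hnorm }, ζ,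
    pb.lift y (by rw [aeval_def, eval₂_eq_eval_map]; exact hy), ?_⟩
  have : NeZero (p : f.SplittingField) := ⟨Nat.cast_ne_zero.mpr hp.ne_zero⟩
  rw [map_cyclotomic] at hζ
  exact isRoot_cyclotomic_iff.mp hζ

end galois

section abhn

variable {F D : Type} [Field F] [NumberField F] [DivisionRing D] [Algebra F D]
    [FiniteDimensional F D] [Algebra.IsCentral F D] {p d : ℕ}

theorem kummer_step (hp : p.Prime) (hD : finrank F D = d ^ 2)
    (M : Type) [Field M] [NumberField M] [Algebra F M] {ζ : M} (hζ : IsPrimitiveRoot ζ p)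
    (hfin : ∀ w : HeightOneSpectrum (𝓞 M), Spl D d (pl (F := F) M w))
    (hreal : p = 2 → ∀ ψ : M →+* ℝ, Spl D d (ψ.comp (algebraMap F M)))
    {a : M} (ha : ∀ c : M, c ^ p ≠ a) (L : Type) [Field L] [Algebra M L] (hL : finrank M L = p)
    {θ : L} (hθ : θ ^ p = algebraMap M L a)
    (h : Spl D d ((algebraMap M L).comp (algebraMap F M))) : Spl D d (algebraMap F M) := by
  obtain ⟨n, q, Δ, _, _, _, _, hnq, hn, hΔ, hiff⟩ := exists_part hD M
  have hL' : Spl Δ q (algebraMap M L) := (hiff L (algebraMap M L)).mp h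
  have hfd : FiniteDimensional M L := Module.finite_of_finrank_pos (by rw [hL]; exact hp.pos)
  have hq : q ∣ p := hL ▸ dvd_of_spl hΔ L hL'
  rcases (Nat.dvd_prime hp).mp hq with rfl | rfl
  · have h1 : Spl Δ 1 (algebraMap M M) := spl_of_maxfield hΔ (finrank_self M) (Algebra.ofId M Δ)
    have h2 := (hiff M (algebraMap M M)).mpr h1
    rwa [Algebra.algebraMap_self, RingHom.id_comp] at h2
  · exfalso
    obtain ⟨t, x, b, hb, ht, hx, hxt⟩ := exists_symbol hp hΔ hζ ha hL hθ hL'
    have ha0 : a ≠ 0 := by
      rintro rfl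
      exact ha 0 (zero_pow hp.ne_zero)
    obtain ⟨g, hg⟩ := hasse_symbol hp hζ (Units.mk0 a ha0) (Units.mk0 b hb)
      (fun v hv => by
        obtain ⟨g, _, hg⟩ := norm_of_symbol hp ht hx hxt (φ₀ := algebraMap M (v.adicCompletion M))
          hv ((hiff _ _).mp (hfin v))
        exact ⟨g, hg⟩)
      (fun hp2 φ hφ => by
        obtain ⟨g, _, hg⟩ := norm_of_symbol hp ht hx hxt (φ₀ := φ)
          hφ ((hiff _ _).mp (hreal hp2 φ))
        exact ⟨g, hg⟩)
    exact symbol_ne_norm hp hζ ha0 hb ht hx hxt g hg

theorem step_down (hp : p.Prime) (hD : finrank F D = d ^ 2) (n : ℕ) :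
    ∀ (M : Type) [Field M] [NumberField M] [Algebra F M] {ζ : M} (_ : IsPrimitiveRoot ζ p)
      (_ : ∀ w : HeightOneSpectrum (𝓞 M), Spl D d (pl (F := F) M w))
      (_ : p = 2 → ∀ ψ : M →+* ℝ, Spl D d (ψ.comp (algebraMap F M)))
      (N : Type) [Field N] [Algebra M N] [FiniteDimensional M N] [IsGalois M N]
      (_ : finrank M N = p ^ n)
      (_ : Spl D d ((algebraMap M N).comp (algebraMap F M))), Spl D d (algebraMap F M) := by
  induction n with
  | zero =>
    intro M _ _ _ ζ _ _ _ N _ _ _ _ hN h
    rw [pow_zero] at hN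
    have hbij : Function.Bijective (algebraMap M N) := by
      refine ⟨(algebraMap M N).injective, fun y => ?_⟩
      obtain ⟨c, hc⟩ := (finrank_eq_one_iff_of_nonzero' (1 : N) one_ne_zero).mp hN y
      exact ⟨c, by rw [Algebra.algebraMap_eq_smul_one, hc]⟩
    let e := RingEquiv.ofBijective (algebraMap M N) hbij
    have h1 := h.comp (e.symm : N →+* M)
    have h2 : (e.symm : N →+* M).comp ((algebraMap M N).comp (algebraMap F M)) =
        algebraMap F M := by
      ext x
      exact e.symm_apply_apply (algebraMap F M x)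
    rwa [h2] at h1
  | succ n ih =>
    intro M _ _ _ ζ hζ hfin hreal N _ _ _ _ hN h
    obtain ⟨L, hL, hLN, a, θ, hθ, ha⟩ := exists_step hp hN hζ
    have hfdL : FiniteDimensional M L := inferInstance
    have hchL : CharZero L := charZero_of_injective_algebraMap (algebraMap M L).injective
    have hfdQ : FiniteDimensional ℚ L := Module.Finite.trans M L
    have hnfL : NumberField L := { to_charZero := hchL, to_finiteDimensional := hfdQ }
    let _ : Algebra F L := ((algebraMap M L).comp (algebraMap F M)).toAlgebra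
    have halg : algebraMap F L = (algebraMap M L).comp (algebraMap F M) := rfl
    have hgal : IsGalois L N := inferInstance
    have h1 : Spl D d (algebraMap F L) := by
      refine ih L (ζ := algebraMap M L ζ) (hζ.map_of_injective (algebraMap M L).injective)
        ?_ ?_ N hLN ?_
      · intro w
        obtain ⟨v, hv⟩ := exists_below (F := M) w
        obtain ⟨g, hg⟩ := completion_map hv
        have h2 := (hfin v).comp g
        have h3 : g.comp (pl (F := F) M v) = pl (F := F) L w :=
          RingHom.ext fun x => hg (algebraMap F M x)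
        rwa [h3] at h2
      · intro hp2 ψ
        exact hreal hp2 (ψ.comp (algebraMap M L))
      · have h3 : (algebraMap L N).comp (algebraMap F L) =
            (algebraMap M N).comp (algebraMap F M) := by
          ext x
          exact (IsScalarTower.algebraMap_apply M L N _).symm
        rwa [h3]
    exact kummer_step hp hD M hζ hfin hreal ha L hL hθ h1

/-- B5 Albert, Brauer, Hasse, Noether in prime power degree -/
theorem abhn {e : ℕ} (hp : p.Prime)
    (hD : finrank F D = (p ^ e) ^ 2) (E : Type) [Field E] [NumberField E] [Algebra F E]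
    (hfin : ∀ w : HeightOneSpectrum (𝓞 E), Spl D (p ^ e) (pl (F := F) E w))
    (hreal : p = 2 → ∀ ψ : E →+* ℝ, Spl D (p ^ e) (ψ.comp (algebraMap F E))) :
    Spl D (p ^ e) (algebraMap F E) := by
  obtain ⟨n, q, Δ, _, _, _, _, hnq, hn, hΔ, hiff⟩ := exists_part hD E
  obtain ⟨k, _, rfl⟩ := (Nat.dvd_prime_pow hp).mp (show q ∣ p ^ e from ⟨n, by rw [← hnq, mul_comm]⟩)
  -- a Galois splitting field
  obtain ⟨L, _, _, _, j, _, hL, _⟩ := exists_maxfield hΔ (1 : Δ)
  have hsL := spl_of_maxfield hΔ hL j
  obtain ⟨N, _, _, _, _, ζ, g, hζ⟩ := exists_galois (K := E) (L := L) hp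
  have hsN : Spl Δ (p ^ k) (algebraMap E N) := by
    have h1 := hsL.comp (g : L →+* N)
    have h2 : (g : L →+* N).comp (algebraMap E L) = algebraMap E N := by
      ext x
      exact g.commutes x
    rwa [h2] at h1
  -- the fixed field of a Sylow subgroup
  have hfact : Fact p.Prime := ⟨hp⟩
  obtain ⟨P⟩ : Nonempty (Sylow p (N ≃ₐ[E] N)) := inferInstance
  set M := IntermediateField.fixedField (P : Subgroup (N ≃ₐ[E] N)) with hM
  obtain ⟨m, hm⟩ := (IsPGroup.iff_card.mp P.isPGroup')
  have h1 : finrank M N = p ^ m := by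
    rw [IntermediateField.finrank_fixedField_eq_card]; exact hm
  have h2 : Nat.Coprime (finrank E M) p := by
    have h3 := finrank_mul_finrank E M N
    have h4 := (P : Subgroup (N ≃ₐ[E] N)).card_mul_index
    rw [hm, IsGalois.card_aut_eq_finrank, ← h3, h1, mul_comm] at h4
    have h5 : (P : Subgroup (N ≃ₐ[E] N)).index = finrank E M :=
      Nat.eq_of_mul_eq_mul_right (pow_pos hp.pos m) h4
    rw [← h5]
    exact (Nat.coprime_comm.mp ((Nat.Prime.coprime_iff_not_dvd hp).mpr P.not_dvd_index))
  have hfdM : FiniteDimensional E M := inferInstance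
  have hchM : CharZero M := charZero_of_injective_algebraMap (algebraMap E M).injective
  have hfdQ : FiniteDimensional ℚ M := Module.Finite.trans E M
  have hnfM : NumberField M := { to_charZero := hchM, to_finiteDimensional := hfdQ }
  obtain ⟨z, _, hz⟩ := zeta_mem hp h1 hζ
  have hsM : Spl Δ (p ^ k) (algebraMap E M) := by
    refine step_down hp hΔ m M hz ?_ ?_ N h1 ?_
    · intro w
      obtain ⟨v, hv⟩ := exists_below (F := E) w
      obtain ⟨g, hg⟩ := completion_map hv
      have h2 := ((hiff _ _).mp (hfin v)).comp g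
      have h3 : g.comp (algebraMap E (v.adicCompletion E)) = pl (F := E) M w :=
        RingHom.ext fun x => hg x
      rwa [h3] at h2
    · intro hp2 ψ
      exact (hiff _ _).mp (hreal hp2 (ψ.comp (algebraMap E M)))
    · have h3 : (algebraMap M N).comp (algebraMap E M) = algebraMap E N := by
        ext x
        exact (IsScalarTower.algebraMap_apply E M N _).symm
      rwa [h3]
  have hdvd := dvd_of_spl hΔ M hsM
  have hk : p ^ k = 1 := by
    have h3 : Nat.Coprime (p ^ k) (finrank E M) := Nat.Coprime.pow_left k h2.symm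
    exact Nat.eq_one_of_dvd_coprimes h3 dvd_rfl hdvd
  have h3 : Spl Δ (p ^ k) (algebraMap E E) := by
    refine spl_of_maxfield hΔ ?_ (Algebra.ofId E Δ)
    rw [hk]
    exact finrank_self E
  have h4 := (hiff E (algebraMap E E)).mpr h3
  rwa [Algebra.algebraMap_self, RingHom.id_comp] at h4

end abhn

end Vale.Agent.P011.W
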