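import Vale.Agent.P011.W.MaxF

/-!
The centralizer of a subfield of a division algebra.
-/

open NumberField IsDedekindDomain Polynomial Module

namespace Vale.Agent.P011.W

variable {F D : Type} [Field F] [DivisionRing D] [Algebra F D] [FiniteDimensional F D]
  [Algebra.IsCentral F D]

/-- A6 the centralizer of a subfield -/
theorem exists_centralizer {m n : ℕ} (hD : finrank F D = (n * m) ^ 2) {Z : Type} [Field Z]
    [Algebra F Z] (hZ : finrank F Z = n) (hn : 0 < n) (j : Z →ₐ[F] D) :
    ∃ (C : Type) (_ : DivisionRing C) (_ : Algebra Z C) (_ : FiniteDimensional Z C)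
      (_ : Algebra.IsCentral Z C) (ι : C →+* D), finrank Z C = m ^ 2 ∧
      (∀ z, ι (algebraMap Z C z) = j z) ∧
      ∀ x : D, (∀ z, x * j z = j z * x) → ∃ c, ι c = x := by
  have hfinZ : FiniteDimensional F Z := Module.finite_of_finrank_pos (by rw [hZ]; exact hn)
  let C := Subalgebra.centralizer F (j.range : Set D)
  have hmem : ∀ x : D, x ∈ C ↔ ∀ z, x * j z = j z * x := by
    intro x
    rw [Subalgebra.mem_centralizer_iff]
    constructor
    · intro h z
      exact (h (j z) ⟨z, rfl⟩).symm
    · rintro h _ ⟨z, rfl⟩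
      exact (h z).symm
  have hj : ∀ z, j z ∈ C := fun z => (hmem _).mpr fun z' => by
    rw [← map_mul, ← map_mul, mul_comm]
  let i1 : DivisionRing C := divisionRingOfFiniteDimensional F C
  let g : Z →+* C := (j : Z →+* D).codRestrict C hj
  have hg : ∀ z, ((g z : C) : D) = j z := fun _ => rfl
  let i2 : Algebra Z C := g.toAlgebra' fun z c => Subtype.ext ((hmem _).mp c.2 z).symm
  have hsmul : ∀ (z : Z) (c : C), ((z • c : C) : D) = j z * c := fun z c => by
    rw [Algebra.smul_def]
    rfl
  have htower : IsScalarTower F Z C := ⟨fun k z c => Subtype.ext (by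
    rw [hsmul, map_smul, smul_mul_assoc]
    change k • (j z * (c : D)) = k • ((z • c : C) : D)
    rw [hsmul])⟩
  have hfin : Module.Finite Z C := Module.Finite.of_restrictScalars_finite F Z C
  -- dimensions
  have hr : finrank F j.range = n := by
    rw [← hZ]
    exact (AlgEquiv.ofInjective j j.toRingHom.injective).toLinearEquiv.finrank_eq.symm
  have h1 : finrank F j.range * finrank F C = (n * m) ^ 2 := by
    rw [← hD]
    exact Vale.Agent.P011.T2.finrank_centralizer (K := F) j.range
  have h2 : finrank F C = n * m ^ 2 := by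
    rw [hr] at h1
    apply Nat.eq_of_mul_eq_mul_left hn
    rw [h1]
    ring
  have h3 : finrank Z C = m ^ 2 := by
    have h3 : finrank F Z * finrank Z C = finrank F C := Module.finrank_mul_finrank F Z C
    rw [hZ, h2] at h3
    exact Nat.eq_of_mul_eq_mul_left hn h3
  have h4 : Subalgebra.centralizer F (C : Set D) = j.range := by
    symm
    apply Subalgebra.eq_of_le_of_finrank_le
    · intro x hx
      rw [Subalgebra.mem_centralizer_iff]
      intro c hc
      obtain ⟨z, rfl⟩ := hx
      exact (hmem c).mp hc z
    · have h5 := Vale.Agent.P011.T2.finrank_centralizer (K := F) C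
      rw [h2, hD] at h5
      rw [hr]
      have hpos : 0 < n * m ^ 2 := by
        rw [← h2]
        exact Module.finrank_pos
      apply le_of_eq
      apply Nat.eq_of_mul_eq_mul_left hpos
      rw [h5]
      ring
  have h5 : Algebra.IsCentral Z C := ⟨fun c hc => by
    rw [Subalgebra.mem_center_iff] at hc
    have h6 : (c : D) ∈ Subalgebra.centralizer F (C : Set D) := by
      rw [Subalgebra.mem_centralizer_iff]
      intro b hb
      exact congrArg Subtype.val (hc ⟨b, hb⟩)
    rw [h4] at h6
    obtain ⟨z, hz⟩ := h6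
    exact Algebra.mem_bot.mpr ⟨z, Subtype.ext hz⟩⟩
  exact ⟨C, i1, i2, hfin, h5, C.val, h3, fun z => rfl, fun x hx => ⟨⟨x, (hmem x).mpr hx⟩, rfl⟩⟩

end Vale.Agent.P011.W
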