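import Vale.Agent.P011.Arith.Defs

/-!
Definitions for block W: splitting fields and reduced norms of division algebras.
-/

open NumberField IsDedekindDomain Polynomial Module

namespace Vale.Agent.P011.W

/-- The algebra `D` of degree `q` over `F` is split over the field `R`. -/
def Spl {F : Type} [Field F] (D : Type) [DivisionRing D] [Algebra F D] (q : ℕ) {R : Type}
    [Field R] (φ : F →+* R) : Prop :=
  ∃ f : D →+* Matrix (Fin q) (Fin q) R, ∀ c : F, f (algebraMap F D c) = Matrix.scalar (Fin q) (φ c)

/-- The map to the completion of an extension. -/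
noncomputable abbrev pl {F : Type} [Field F] (E : Type) [Field E] [NumberField E] [Algebra F E]
    (w : HeightOneSpectrum (𝓞 E)) : F →+* w.adicCompletion E :=
  (algebraMap E (w.adicCompletion E)).comp (algebraMap F E)

/-- The reduced norm of `t` is `y`. -/
def HasNrd (F : Type) {D : Type} [Field F] [DivisionRing D] [Algebra F D] (d : ℕ) (t : D)
    (y : F) : Prop :=
  ∀ (Ω : Type) [Field Ω] [Algebra F Ω] (f : D →ₐ[F] Matrix (Fin d) (Fin d) Ω),
    (f t).det = algebraMap F Ω y

section

variable {F : Type} [Field F] {D : Type} [DivisionRing D] [Algebra F D] {q : ℕ}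

theorem Spl.comp {R R' : Type} [Field R] [Field R'] {φ : F →+* R} (h : Spl D q φ)
    (ψ : R →+* R') : Spl D q (ψ.comp φ) := by
  obtain ⟨f, hf⟩ := h
  refine ⟨ψ.mapMatrix.comp f, fun c => ?_⟩
  rw [RingHom.comp_apply, hf]
  ext i j
  rw [RingHom.mapMatrix_apply, Matrix.map_apply, Matrix.scalar_apply, Matrix.scalar_apply,
    Matrix.diagonal_apply, Matrix.diagonal_apply]
  split_ifs
  · rfl
  · exact map_zero ψ

/-- The algebra homomorphism of a splitting. -/
theorem spl_iff {R : Type} [Field R] [Algebra F R] :
    Spl D q (algebraMap F R) ↔ Nonempty (D →ₐ[F] Matrix (Fin q) (Fin q) R) := by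
  have key : ∀ c : F, algebraMap F (Matrix (Fin q) (Fin q) R) c =
      Matrix.scalar (Fin q) (algebraMap F R c) := fun c => rfl
  constructor
  · rintro ⟨f, hf⟩
    have h1 : ∀ c : F, f (algebraMap F D c) = algebraMap F (Matrix (Fin q) (Fin q) R) c :=
      fun c => (hf c).trans (key c).symm
    exact ⟨{ f with commutes' := h1 }⟩
  · rintro ⟨f⟩
    exact ⟨(f : D →+* Matrix (Fin q) (Fin q) R), fun c => (f.commutes c).trans (key c)⟩

end

end Vale.Agent.P011.W
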