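import Vale.Agent.P011.W.Near
import Vale.Agent.P011.W.Compl

/-!
Eichler's norm theorem: the local condition at the bad places.
-/

open NumberField IsDedekindDomain Polynomial Module

namespace Vale.Agent.P011.W

open Vale.Agent.P011.Arith (Z0)

section newton

variable {E : Type*} [Field E] (V : Valuation E Z0)

theorem e_val_nat_le (n : ℕ) : V (n : E) ≤ 1 := by
  induction n with
  | zero => rw [Nat.cast_zero, map_zero]; exact zero_le
  | succ n ih => rw [Nat.cast_succ]; exact V.map_add_le ih (by rw [map_one])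

theorem e_z0_lt_iff {x y : Z0} (hy : y ≠ 0) : x < y ↔ x ≤ y * WithZero.exp (-1 : ℤ) := by
  rw [← WithZero.lt_mul_exp_iff_le (mul_ne_zero hy WithZero.exp_ne_zero), mul_assoc,
    ← WithZero.exp_add]
  simp

theorem e_exists_expand {x y : E} (hx : V x ≤ 1) (hy : V y ≤ 1) (n : ℕ) :
    ∃ k : E, V k ≤ 1 ∧ (x + y) ^ n = x ^ n + n * x ^ (n - 1) * y + k * y ^ 2 := by
  obtain ⟨k, hk⟩ := Polynomial.powAddExpansion (⟨x, hx⟩ : V.integer) ⟨y, hy⟩ n
  exact ⟨k, k.2, congrArg Subtype.val hk⟩

/-- Newton's iteration for `e`-th powers in a valued field. -/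
theorem e_newton_pow {e : ℕ} (he : V (e : E) ≠ 0) {μ : E}
    (hμ : V (μ - 1) < V (e : E) ^ 2) {γ : Z0} (hγ : γ ≠ 0) :
    ∃ ν : E, V ν = 1 ∧ V (ν ^ e - μ) < γ := by
  have hle := e_val_nat_le V e
  have hb : ∀ ν : E, V (ν - 1) < V (e : E) → V ν = 1 := by
    intro ν h
    have h1 := V.map_one_add_of_lt (lt_of_lt_of_le h hle)
    rwa [add_sub_cancel] at h1
  have key : ∀ n : ℕ, ∃ ν : E, V (ν - 1) < V (e : E) ∧
      V (ν ^ e - μ) ≤ V (e : E) ^ 2 * WithZero.exp (-(n + 1 : ℤ)) := by
    intro n
    induction n with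
    | zero =>
      refine ⟨1, by rw [sub_self, map_zero]; exact zero_lt_iff.mpr he, ?_⟩
      rw [one_pow, Valuation.map_sub_swap]
      simpa using (e_z0_lt_iff (pow_ne_zero 2 he)).mp hμ
    | succ n ih =>
      obtain ⟨ν, h1, h2⟩ := ih
      have hν := hb ν h1
      have hν0 : ν ≠ 0 := by
        rintro rfl
        rw [map_zero] at hν
        exact zero_ne_one hν
      have heE : (e : E) ≠ 0 := (Valuation.ne_zero_iff V).mp he
      obtain ⟨h, hh⟩ : ∃ h : E, h = -(ν ^ e - μ) / (e * ν ^ (e - 1)) := ⟨_, rfl⟩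
      have hVh : V h ≤ V (e : E) * WithZero.exp (-(n + 1 : ℤ)) := by
        rw [hh, map_div₀, Valuation.map_neg, map_mul, map_pow, hν, one_pow, mul_one,
          div_le_iff₀ (zero_lt_iff.mpr he)]
        refine h2.trans (le_of_eq ?_)
        rw [pow_two, mul_right_comm]
      have hexp : (WithZero.exp (-(n + 1 : ℤ)) : Z0) < 1 := by
        rw [← WithZero.exp_zero, WithZero.exp_lt_exp]; omega
      have hVh' : V h < V (e : E) := by
        refine lt_of_le_of_lt hVh ?_
        calc V (e : E) * WithZero.exp (-(n + 1 : ℤ)) < V (e : E) * 1 :=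
              mul_lt_mul_of_pos_left hexp (zero_lt_iff.mpr he)
          _ = V (e : E) := mul_one _
      obtain ⟨k, hk1, hk2⟩ := e_exists_expand V hν.le (hVh'.le.trans hle) e
      refine ⟨ν + h, ?_, ?_⟩
      · rw [add_sub_right_comm]
        exact V.map_add_lt h1 hVh'
      · have e1 : (ν + h) ^ e - μ = k * h ^ 2 := by
          rw [hk2, hh]
          field_simp
          ring
        rw [e1, map_mul, map_pow]
        calc V k * V h ^ 2 ≤ 1 * (V (e : E) * WithZero.exp (-(n + 1 : ℤ))) ^ 2 :=
              mul_le_mul' hk1 (pow_le_pow_left' hVh 2)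
          _ = V (e : E) ^ 2 * WithZero.exp (-(n + 1 : ℤ)) ^ 2 := by rw [one_mul, mul_pow]
          _ ≤ V (e : E) ^ 2 * WithZero.exp (-((n + 1 : ℕ) + 1 : ℤ)) := by
              refine mul_le_mul_right ?_ _
              rw [← WithZero.exp_nsmul, WithZero.exp_le_exp]
              simp only [nsmul_eq_mul]
              push_cast
              omega
  obtain ⟨ν, h1, h2⟩ := key (WithZero.log γ).natAbs
  refine ⟨ν, hb ν h1, lt_of_le_of_lt h2 ?_⟩
  calc V (e : E) ^ 2 * WithZero.exp (-(((WithZero.log γ).natAbs : ℕ) + 1 : ℤ)) ≤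
        1 * WithZero.exp (-(((WithZero.log γ).natAbs : ℕ) + 1 : ℤ)) :=
        mul_le_mul_left (pow_le_one' hle 2) _
    _ < γ := by
        rw [one_mul]
        conv_rhs => rw [← WithZero.exp_log hγ]
        rw [WithZero.exp_lt_exp]
        omega

end newton

section poly

variable {F : Type} [Field F] [NumberField F] {L : Type} [Field L] [NumberField L] [Algebra F L]
  {v : HeightOneSpectrum (𝓞 F)} {w : HeightOneSpectrum (𝓞 L)}

/-- A common denominator for the coefficients of a polynomial. -/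
theorem exists_denom (v : Valuation F Z0) (A : F[X]) :
    ∃ b : F, b ≠ 0 ∧ v b ≤ 1 ∧ ∀ i, v (b * A.coeff i) ≤ 1 := by
  classical
  by_cases h : ∀ i, v (A.coeff i) ≤ 1
  · exact ⟨1, one_ne_zero, by rw [map_one], fun i => by rw [one_mul]; exact h i⟩
  · push Not at h
    obtain ⟨j, hj⟩ := h
    have hj0 : j ∈ A.support := by
      rw [Polynomial.mem_support_iff]
      intro h0
      rw [h0, map_zero] at hj
      exact not_lt_zero hj
    obtain ⟨m, hm, hmax⟩ := A.support.exists_max_image (fun i => v (A.coeff i)) ⟨j, hj0⟩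
    have h1 : 1 < v (A.coeff m) := lt_of_lt_of_le hj (hmax j hj0)
    have h0 : A.coeff m ≠ 0 := Polynomial.mem_support_iff.mp hm
    have hv0 : v (A.coeff m) ≠ 0 := (Valuation.ne_zero_iff v).mpr h0
    refine ⟨(A.coeff m)⁻¹, inv_ne_zero h0, ?_, fun i => ?_⟩
    · rw [map_inv₀]
      exact inv_le_one_of_one_le₀ h1.le
    · rw [map_mul, map_inv₀, inv_mul_le_iff₀ (zero_lt_iff.mpr hv0), mul_one]
      by_cases hi : i ∈ A.support
      · exact hmax i hi
      · rw [Polynomial.notMem_support_iff.mp hi, map_zero]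
        exact zero_le

theorem val_aeval_le (h : w.asIdeal.comap (algebraMap (𝓞 F) (𝓞 L)) = v.asIdeal) {η : L}
    (hη : w.valuation L η ≤ 1) (A : F[X]) (hA : ∀ i, v.valuation F (A.coeff i) ≤ 1) :
    w.valuation L (aeval η A) ≤ 1 := by
  rw [aeval_eq_sum_range]
  refine (w.valuation L).map_sum_le fun i _ => ?_
  rw [Algebra.smul_def, map_mul, map_pow]
  exact mul_le_one' ((Arith.val_le_one_iff h _).mpr (hA i)) (pow_le_one' hη i)

theorem val_aeval_lt (h : w.asIdeal.comap (algebraMap (𝓞 F) (𝓞 L)) = v.asIdeal) {η : L}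
    (hη : w.valuation L η ≤ 1) (A : F[X]) {g : F} (hg : g ≠ 0)
    (hA : ∀ i, v.valuation F (A.coeff i) < v.valuation F g) :
    w.valuation L (aeval η A) < w.valuation L (algebraMap F L g) := by
  rw [aeval_eq_sum_range]
  have hg0 : w.valuation L (algebraMap F L g) ≠ 0 :=
    (Valuation.ne_zero_iff _).mpr ((_root_.map_ne_zero _).mpr hg)
  refine (w.valuation L).map_sum_lt hg0 fun i _ => ?_
  rw [Algebra.smul_def, map_mul, map_pow]
  calc _ ≤ w.valuation L (algebraMap F L (A.coeff i)) * 1 :=
        mul_le_mul_right (pow_le_one' hη i) _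
    _ < _ := by
        rw [mul_one]
        exact (Arith.val_lt_val_iff h _ _).mpr (hA i)

/-- Roots of integral monic polynomials are integral. -/
theorem val_root_le (h : w.asIdeal.comap (algebraMap (𝓞 F) (𝓞 L)) = v.asIdeal) {ξ : L}
    {f : F[X]} (hf : f.Monic) (hi : ∀ i, v.valuation F (f.coeff i) ≤ 1) (hξ : aeval ξ f = 0) :
    w.valuation L ξ ≤ 1 := by
  by_contra hcon
  push Not at hcon
  have hξ0 : w.valuation L ξ ≠ 0 := (lt_trans zero_lt_one hcon).ne'
  have h1 : aeval ξ f = ξ ^ f.natDegree + ∑ i ∈ Finset.range f.natDegree,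
      algebraMap F L (f.coeff i) * ξ ^ i := by
    conv_lhs => rw [hf.as_sum]
    simp [aeval_def, eval₂_add, eval₂_finsetSum]
  rw [h1] at hξ
  have h2 : w.valuation L (∑ i ∈ Finset.range f.natDegree,
      algebraMap F L (f.coeff i) * ξ ^ i) < w.valuation L (ξ ^ f.natDegree) := by
    refine (w.valuation L).map_sum_lt (by rw [map_pow]; exact pow_ne_zero _ hξ0) fun i hi' => ?_
    rw [map_mul, map_pow, map_pow]
    calc _ ≤ 1 * w.valuation L ξ ^ i :=
          mul_le_mul_left ((Arith.val_le_one_iff h _).mpr (hi i)) _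
      _ < _ := by
          rw [one_mul]
          exact pow_lt_pow_right₀ hcon (Finset.mem_range.mp hi')
  have h3 := Valuation.map_add_eq_of_lt_left (w.valuation L) h2
  rw [hξ, map_zero, map_pow] at h3
  exact pow_ne_zero _ hξ0 h3.symm

end poly

variable {F D : Type} [Field F] [NumberField F] [DivisionRing D] [Algebra F D]
    [FiniteDimensional F D] [Algebra.IsCentral F D] {d : ℕ}

/-- The polynomial is separable, integral version. -/
theorem loc_integral (hd : 0 < d) (hD : finrank F D = d ^ 2) (v : HeightOneSpectrum (𝓞 F)) (x : D)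
    (hx : (minpoly F x).natDegree = d)
    (hint : ∀ i, v.valuation F ((minpoly F x).coeff i) ≤ 1) :
    ∃ g : F, g ≠ 0 ∧ ∀ (c : F), v.valuation F c = 1 → ∀ f : F[X], f.Monic → 
      (∀ i, v.valuation F (f.coeff i - ((minpoly F x).scaleRoots c).coeff i) <
        v.valuation F g) →
      ∀ (L : Type) [Field L] [NumberField L] [Algebra F L] (w : HeightOneSpectrum (𝓞 L)),
        w.asIdeal.comap (algebraMap (𝓞 F) (𝓞 L)) = v.asIdeal → ∀ ξ : L, aeval ξ f = 0 →
        Spl D d (pl (F := F) L w) := by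
  classical
  have hxint : IsIntegral F x := IsIntegral.of_finite F x
  obtain ⟨P, hP⟩ : ∃ P, P = minpoly F x := ⟨_, rfl⟩
  have hPm : P.Monic := hP ▸ minpoly.monic hxint
  have hsep : P.Separable := (hP ▸ minpoly.irreducible hxint).separable
  obtain ⟨A, B, hAB⟩ := hsep
  obtain ⟨b₁, hb₁0, hb₁, hb₁'⟩ := exists_denom (v.valuation F) A
  obtain ⟨b₂, hb₂0, hb₂, hb₂'⟩ := exists_denom (v.valuation F) B
  have hb0 : b₁ * b₂ ≠ 0 := mul_ne_zero hb₁0 hb₂0
  obtain ⟨b, hb⟩ : ∃ b, b = b₁ * b₂ := ⟨_, rfl⟩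
  rw [← hb] at hb0
  have hvb : v.valuation F b ≤ 1 := by rw [hb, map_mul]; exact mul_le_one' hb₁ hb₂
  have hbA : ∀ i, v.valuation F ((C b * A).coeff i) ≤ 1 := by
    intro i
    rw [coeff_C_mul, hb, mul_comm b₁, mul_assoc, map_mul]
    exact mul_le_one' hb₂ (hb₁' i)
  have hbB : ∀ i, v.valuation F ((C b * B).coeff i) ≤ 1 := by
    intro i
    rw [coeff_C_mul, hb, mul_assoc, map_mul]
    exact mul_le_one' hb₁ (hb₂' i)
  refine ⟨b ^ 2, pow_ne_zero 2 hb0, ?_⟩
  intro c hc f hf hclose L _ _ _ w hw ξ hξ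
  rw [← hP] at hclose hx hint
  have hc0 : c ≠ 0 := by
    rintro rfl
    rw [map_zero] at hc
    exact zero_ne_one hc
  have hcL : w.valuation L (algebraMap F L c) = 1 := (Arith.val_eq_one_iff hw c).mpr hc
  have hcL0 : algebraMap F L c ≠ 0 := (_root_.map_ne_zero _).mpr hc0
  have hPc : ∀ i, v.valuation F ((P.scaleRoots c).coeff i) ≤ 1 := by
    intro i
    rw [coeff_scaleRoots, map_mul, map_pow, hc, one_pow, mul_one]
    exact hint i
  have hvb2 : v.valuation F (b ^ 2) ≤ 1 := by rw [map_pow]; exact pow_le_one' hvb 2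
  have hfi : ∀ i, v.valuation F (f.coeff i) ≤ 1 := by
    intro i
    have e1 : f.coeff i = (f.coeff i - (P.scaleRoots c).coeff i) + (P.scaleRoots c).coeff i := by
      ring
    rw [e1]
    exact (v.valuation F).map_add_le ((hclose i).le.trans hvb2) (hPc i)
  have hξ1 : w.valuation L ξ ≤ 1 := val_root_le hw hf hfi hξ
  obtain ⟨η, hη⟩ : ∃ η : L, η = ξ / algebraMap F L c := ⟨_, rfl⟩
  have hη1 : w.valuation L η ≤ 1 := by rw [hη, map_div₀, hcL, div_one]; exact hξ1
  have hξη : ξ = algebraMap F L c * η := by rw [hη]; field_simp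
  have e2 : aeval ξ (P.scaleRoots c) = algebraMap F L c ^ P.natDegree * aeval η P := by
    rw [hξη, aeval_def, scaleRoots_eval₂_mul, aeval_def]
  have h3 : w.valuation L (aeval η P) < w.valuation L (algebraMap F L (b ^ 2)) := by
    have h4 : w.valuation L (aeval η P) = w.valuation L (aeval ξ (f - P.scaleRoots c)) := by
      rw [map_sub, hξ, zero_sub, Valuation.map_neg, e2, map_mul, map_pow, hcL, one_pow, one_mul]
    rw [h4]
    refine val_aeval_lt hw hξ1 _ (pow_ne_zero 2 hb0) fun i => ?_
    rw [coeff_sub]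
    exact hclose i
  have hbL0 : w.valuation L (algebraMap F L b) ≠ 0 :=
    (Valuation.ne_zero_iff _).mpr ((_root_.map_ne_zero _).mpr hb0)
  have hbL1 : w.valuation L (algebraMap F L b) ≤ 1 := (Arith.val_le_one_iff hw b).mpr hvb
  have h4 : w.valuation L (aeval η P) < w.valuation L (algebraMap F L b) := by
    refine lt_of_lt_of_le h3 ?_
    rw [map_pow, map_pow, pow_two]
    calc _ ≤ w.valuation L (algebraMap F L b) * 1 := mul_le_mul_right hbL1 _
      _ = _ := mul_one _
  have h5 : aeval η (C b * A) * aeval η P + aeval η (C b * B) * aeval η (derivative P) =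
      algebraMap F L b := by
    have h6 := congrArg (fun q => aeval η (C b * q)) hAB
    simp only [mul_add, mul_one, map_add, map_mul, aeval_C] at h6 ⊢
    linear_combination h6
  have h6 : w.valuation L (aeval η (C b * B) * aeval η (derivative P)) =
      w.valuation L (algebraMap F L b) := by
    rw [← h5, Valuation.map_add_eq_of_lt_right]
    by_contra hcon
    push Not at hcon
    have h7 : w.valuation L (aeval η (C b * A) * aeval η P) < w.valuation L (algebraMap F L b) := by
      rw [map_mul]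
      calc _ ≤ 1 * w.valuation L (aeval η P) := mul_le_mul_left (val_aeval_le hw hη1 _ hbA) _
        _ < _ := by rwa [one_mul]
    have h8 := (w.valuation L).map_add_lt h7 (lt_of_le_of_lt hcon h7)
    rw [h5] at h8
    exact lt_irrefl _ h8
  have h7 : w.valuation L (algebraMap F L b) ≤ w.valuation L (aeval η (derivative P)) := by
    rw [← h6, map_mul]
    calc _ ≤ 1 * w.valuation L (aeval η (derivative P)) :=
          mul_le_mul_left (val_aeval_le hw hη1 _ hbB) _
      _ = _ := one_mul _
  have h8 : w.valuation L (aeval η P) < w.valuation L (aeval η (derivative P)) ^ 2 := by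
    refine lt_of_lt_of_le h3 ?_
    rw [map_pow, map_pow]
    exact pow_le_pow_left' h7 2
  -- Hensel
  have hval : ∀ z : L, Valued.v (algebraMap L (w.adicCompletion L) z) = w.valuation L z :=
    fun z => HeightOneSpectrum.valuedAdicCompletion_eq_valuation' w z
  have hev : ∀ Q : F[X], (Q.map (pl (F := F) L w)).eval
      (algebraMap L (w.adicCompletion L) η) = algebraMap L (w.adicCompletion L) (aeval η Q) := by
    intro Q
    rw [eval_map, aeval_def, hom_eval₂]
  obtain ⟨α, hα⟩ := hensel w (P.map (pl (F := F) L w)) (by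
    intro i
    rw [coeff_map, RingHom.comp_apply, hval]
    exact (Arith.val_le_one_iff hw _).mpr (hint i)) (algebraMap L _ η) (by rwa [hval]) (by
    rw [derivative_map, hev, hev, hval, hval]
    exact h8)
  rw [eval_map] at hα
  exact spl_of_eval hd hD (x := x) (by rw [← hP]; exact hx) (pl (F := F) L w) (r := α)
    (by rw [← hP]; exact hα)

/-- The local condition. -/
theorem loc (hd : 0 < d) (hD : finrank F D = d ^ 2) (v : HeightOneSpectrum (𝓞 F)) (x : D)
    (hx : (minpoly F x).natDegree = d) :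
    ∃ g : F, g ≠ 0 ∧ ∀ (c : F), v.valuation F c = 1 → ∀ f : F[X], f.Monic → f.natDegree = d →
      (∀ i, v.valuation F (f.coeff i - ((minpoly F x).scaleRoots c).coeff i) <
        v.valuation F g) →
      ∀ (L : Type) [Field L] [NumberField L] [Algebra F L] (w : HeightOneSpectrum (𝓞 L)),
        w.asIdeal.comap (algebraMap (𝓞 F) (𝓞 L)) = v.asIdeal → ∀ ξ : L, aeval ξ f = 0 →
        Spl D d (pl (F := F) L w) := by
  classical
  have hxint : ∀ z : D, IsIntegral F z := fun z => IsIntegral.of_finite F z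
  obtain ⟨b, hb0, hb, hb'⟩ := exists_denom (v.valuation F) (minpoly F x)
  have hbD : algebraMap F D b ≠ 0 := (_root_.map_ne_zero _).mpr hb0
  -- the minimal polynomial of `b * x`
  have key : ∀ (c : F) (z : D), (minpoly F (algebraMap F D c * z)).natDegree ≤
      (minpoly F z).natDegree := by
    intro c z
    rw [← natDegree_scaleRoots (minpoly F z) c]
    refine natDegree_le_of_dvd (minpoly.dvd F _ (scaleRoots_aeval_eq_zero (minpoly.aeval F z)))
      (scaleRoots_ne_zero (minpoly.ne_zero (hxint z)) c)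
  have hdeg : (minpoly F (algebraMap F D b * x)).natDegree = (minpoly F x).natDegree := by
    refine le_antisymm (key b x) ?_
    have h1 := key b⁻¹ (algebraMap F D b * x)
    rwa [← mul_assoc, ← map_mul, inv_mul_cancel₀ hb0, map_one, one_mul] at h1
  have hmin : minpoly F (algebraMap F D b * x) = (minpoly F x).scaleRoots b := by
    have h1 : minpoly F (algebraMap F D b * x) ∣ (minpoly F x).scaleRoots b :=
      minpoly.dvd F _ (scaleRoots_aeval_eq_zero (minpoly.aeval F x))
    have h2 : (minpoly F (algebraMap F D b * x)).Monic := minpoly.monic (hxint _)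
    have h3 : ((minpoly F x).scaleRoots b).Monic :=
      (monic_scaleRoots_iff b).mpr (minpoly.monic (hxint x))
    exact (Polynomial.eq_of_monic_of_dvd_of_natDegree_le h2 h3 h1
      (by rw [natDegree_scaleRoots, hdeg])).symm
  obtain ⟨g, hg0, hg⟩ := loc_integral hd hD v (algebraMap F D b * x) (by rw [hdeg, hx]) (by
    intro i
    rw [hmin, coeff_scaleRoots]
    rcases lt_or_ge i (minpoly F x).natDegree with hi | hi
    · obtain ⟨k, hk⟩ : ∃ k, (minpoly F x).natDegree - i = k + 1 :=
        ⟨(minpoly F x).natDegree - i - 1, by omega⟩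
      rw [hk, pow_succ', ← mul_assoc, mul_comm _ b, map_mul, map_pow]
      exact mul_le_one' (hb' i) (pow_le_one' hb k)
    · rw [Nat.sub_eq_zero_of_le hi, pow_zero, mul_one]
      rcases hi.lt_or_eq with hi | hi
      · rw [coeff_eq_zero_of_natDegree_lt hi, map_zero]
        exact zero_le
      · rw [← hi, (minpoly.monic (hxint x)).coeff_natDegree, map_one])
  refine ⟨g, hg0, ?_⟩
  intro c hc f hf hfd hclose L _ _ _ w hw ξ hξ
  refine hg c hc (f.scaleRoots b) ((monic_scaleRoots_iff b).mpr hf) ?_ L w hw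
    (algebraMap F L b * ξ) (scaleRoots_aeval_eq_zero hξ)
  intro i
  have e1 : (f.scaleRoots b).coeff i - ((minpoly F (algebraMap F D b * x)).scaleRoots c).coeff i =
      (f.coeff i - ((minpoly F x).scaleRoots c).coeff i) * b ^ (d - i) := by
    rw [hmin]
    simp only [coeff_scaleRoots, natDegree_scaleRoots, hfd, hx]
    ring
  rw [e1, map_mul, map_pow]
  calc _ ≤ v.valuation F (f.coeff i - ((minpoly F x).scaleRoots c).coeff i) * 1 :=
        mul_le_mul_right (pow_le_one' hb _) _
    _ < _ := by rw [mul_one]; exact hclose i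

end Vale.Agent.P011.W
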