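import Vale.Agent.P011.W.Eich1

import Vale.Agent.P011.W.Nrd
import Vale.Agent.P011.W.Part
import Vale.Agent.P011.W.Abhn

/-!
Eichler's norm theorem: from a polynomial to an element of the algebra.
-/

open NumberField IsDedekindDomain Polynomial Module

namespace Vale.Agent.P011.W

open Vale.Agent.P011.Arith (Z0)

section

variable {F D : Type} [Field F] [DivisionRing D] [Algebra F D] {d : ℕ}

theorem HasNrd.one : HasNrd F d (1 : D) 1 := by
  intro Ω _ _ f
  rw [map_one, Matrix.det_one, map_one]

theorem HasNrd.algMap (c : F) : HasNrd F d (algebraMap F D c) (c ^ d) := by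
  intro Ω _ _ f
  rw [AlgHom.commutes, IsScalarTower.algebraMap_apply F Ω (Matrix (Fin d) (Fin d) Ω),
    Algebra.algebraMap_eq_smul_one, Matrix.det_smul, Matrix.det_one, mul_one, Fintype.card_fin,
    map_pow]

end

/-- The field generated by a root of a polynomial. -/
theorem exists_root_field {F : Type} [Field F] [NumberField F] (g : F[X]) (hg : g.Monic)
    (hirr : Irreducible g) :
    ∃ (L : Type) (_ : Field L) (_ : NumberField L) (_ : Algebra F L) (ξ : L), aeval ξ g = 0 ∧
      finrank F L = g.natDegree ∧ Algebra.norm F ξ = (-1) ^ g.natDegree * g.coeff 0 := by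
  have := Fact.mk hirr
  have hfd : FiniteDimensional F (AdjoinRoot g) := (AdjoinRoot.powerBasis hirr.ne_zero).finite
  have hch : CharZero (AdjoinRoot g) :=
    charZero_of_injective_algebraMap (algebraMap F (AdjoinRoot g)).injective
  have hfq : FiniteDimensional ℚ (AdjoinRoot g) := Module.Finite.trans F _
  refine ⟨AdjoinRoot g, inferInstance,
    ({ to_charZero := hch, to_finiteDimensional := hfq } : NumberField _), inferInstance,
    AdjoinRoot.root g, ?_, ?_, ?_⟩
  · rw [AdjoinRoot.aeval_eq, AdjoinRoot.mk_self]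
  · rw [(AdjoinRoot.powerBasis hirr.ne_zero).finrank, AdjoinRoot.powerBasis_dim]
  · have h := Algebra.PowerBasis.norm_gen_eq_coeff_zero_minpoly
      (AdjoinRoot.powerBasis hirr.ne_zero)
    rw [AdjoinRoot.powerBasis_gen, AdjoinRoot.powerBasis_dim, AdjoinRoot.minpoly_root hirr.ne_zero,
      hg.leadingCoeff, inv_one, C_1, mul_one] at h
    exact h

variable {F D : Type} [Field F] [NumberField F] [DivisionRing D] [Algebra F D]
    [FiniteDimensional F D] [Algebra.IsCentral F D]

/-- The element of the algebra attached to a polynomial. -/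
theorem exists_of_poly {p e : ℕ} (hp : p.Prime) (hD : finrank F D = (p ^ e) ^ 2) (f : F[X])
    (hn : f.natDegree = p ^ e) (hf : f.Monic)
    (hfin : ∀ (L : Type) [Field L] [NumberField L] [Algebra F L] (w : HeightOneSpectrum (𝓞 L))
      (ξ : L), aeval ξ f = 0 → Spl D (p ^ e) (pl (F := F) L w))
    (hreal : p = 2 → ∀ (φ : F →+* ℝ) (r : ℝ), (f.map φ).eval r = 0 → Spl D (p ^ e) φ) :
    ∃ t : D, HasNrd F (p ^ e) t ((-1) ^ (p ^ e) * f.coeff 0) := by
  have hd : 0 < p ^ e := pow_pos hp.pos e
  have hnu : ¬ IsUnit f := by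
    intro hu
    have := natDegree_eq_zero_of_isUnit hu
    omega
  obtain ⟨g, hgm, hirr, h, hgh⟩ := exists_monic_irreducible_factor f hnu
  obtain ⟨L, _, _, _, ξ, hξ, hL, hN⟩ := exists_root_field g hgm hirr
  have hfd : FiniteDimensional F L := Module.Finite.of_restrictScalars_finite ℚ F L
  have hξf : aeval ξ f = 0 := by rw [hgh, map_mul, hξ, zero_mul]
  have hspl : Spl D (p ^ e) (algebraMap F L) := by
    refine abhn hp hD L (fun w => hfin L w ξ hξf) ?_
    intro hp2 ψ
    refine hreal hp2 _ (ψ ξ) ?_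
    rw [← Polynomial.map_map, eval_map, eval₂_hom, eval_map_algebraMap, hξf, _root_.map_zero]
  have hdvd := dvd_of_spl hD L hspl
  have hfg : f = g := by
    refine eq_of_monic_of_dvd_of_natDegree_le hgm hf ⟨h, hgh⟩ ?_
    rw [hn, ← hL]
    exact Nat.le_of_dvd Module.finrank_pos hdvd
  rw [← hfg, hn] at hL hN
  obtain ⟨j⟩ := embed_of_spl hD hL hspl
  refine ⟨j ξ, ?_⟩
  rw [← hN]
  exact hasNrd_norm hD hL j ξ

end Vale.Agent.P011.W
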