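import Vale.Agent.P011.W.Spl

/-!
Generic elements of central division algebras.
-/

open Module Polynomial

namespace Vale.Agent.P011.W

variable {F D Ω : Type} [Field F] [DivisionRing D] [Algebra F D] [FiniteDimensional F D]
  [Algebra.IsCentral F D] [Field Ω] [Algebra F Ω] {q : ℕ}

omit [FiniteDimensional F D] in
/-- The degree of an element is at most the degree of the algebra. -/
theorem natDegree_le (hq0 : 0 < q) (g : D →ₐ[F] Matrix (Fin q) (Fin q) Ω) (x : D) :
    (minpoly F x).natDegree ≤ q := by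
  by_contra hcon
  rw [not_le] at hcon
  have h1 := Vale.Agent.P011S.SF.split_indep hq0 g
    (fun i : Fin (minpoly F x).natDegree => x ^ (i : ℕ)) (linearIndependent_pow x)
  have h2 : LinearIndependent Ω fun i : Fin (q + 1) => g x ^ (i : ℕ) := by
    have h3 := h1.comp (Fin.castLE (by omega : q + 1 ≤ (minpoly F x).natDegree))
      (Fin.castLE_injective _)
    have h4 : ((fun i : Fin (minpoly F x).natDegree => g (x ^ (i : ℕ))) ∘
        Fin.castLE (by omega : q + 1 ≤ (minpoly F x).natDegree)) =
        fun i : Fin (q + 1) => g x ^ (i : ℕ) := by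
      funext i
      simp [map_pow]
    rwa [h4] at h3
  have h5 := Matrix.aeval_self_charpoly (g x)
  rw [aeval_eq_sum_range' (n := q + 1), Finset.sum_range] at h5
  · have h6 := Fintype.linearIndependent_iff.mp h2 (fun i => (g x).charpoly.coeff i) h5
      (Fin.last q)
    have h7 : (g x).charpoly.coeff q = 1 := by
      have h8 := (g x).charpoly_monic.coeff_natDegree
      rwa [Matrix.charpoly_natDegree_eq_dim, Fintype.card_fin] at h8
    simp only [Fin.val_last] at h6
    rw [h7] at h6
    exact one_ne_zero h6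
  · rw [Matrix.charpoly_natDegree_eq_dim, Fintype.card_fin]
    omega

theorem of_indep (hq0 : 0 < q) (g : D →ₐ[F] Matrix (Fin q) (Fin q) Ω) (x : D)
    (h : LinearIndependent Ω fun i : Fin q => g x ^ (i : ℕ)) :
    (minpoly F x).natDegree = q ∧
      (g x).det = algebraMap F Ω ((-1) ^ q * (minpoly F x).coeff 0) := by
  have hint : IsIntegral F x := Algebra.IsIntegral.isIntegral x
  have hm : (minpoly F x).Monic := minpoly.monic hint
  have h0 : aeval (g x) ((minpoly F x).map (algebraMap F Ω)) = 0 := by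
    rw [aeval_map_algebraMap, aeval_algHom_apply, minpoly.aeval, map_zero]
  have hle := natDegree_le hq0 g x
  have hge : q ≤ (minpoly F x).natDegree := by
    by_contra hcon
    rw [not_le] at hcon
    have h1 : ((minpoly F x).map (algebraMap F Ω)).natDegree < q := by
      rw [natDegree_map]
      exact hcon
    rw [aeval_eq_sum_range' h1, Finset.sum_range] at h0
    have h2 := Fintype.linearIndependent_iff.mp h
      (fun i => ((minpoly F x).map (algebraMap F Ω)).coeff i) h0 ⟨_, hcon⟩
    simp only [coeff_map, hm.coeff_natDegree, map_one] at h2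
    exact one_ne_zero h2
  have hd := le_antisymm hle hge
  refine ⟨hd, ?_⟩
  have h1 := Vale.Agent.P011S.SF.charpoly_unique (g x) h ((minpoly F x).map (algebraMap F Ω))
    (hm.map _) (by rw [natDegree_map, hd]) h0
  rw [Matrix.det_eq_sign_charpoly_coeff, h1, coeff_map, Fintype.card_fin, map_mul, map_pow,
    map_neg, map_one]

omit [FiniteDimensional F D] [Algebra.IsCentral F D] in
/-- Determinants of linear families as polynomial functions. -/
theorem exists_coord_poly {N : ℕ} (b : Fin N → D) (g : D →ₐ[F] Matrix (Fin q) (Fin q) Ω)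
    (hq0 : 0 < q) : ∃ P : MvPolynomial (Fin N) Ω, ∀ s : Fin N → Ω, MvPolynomial.eval s P =
      (Matrix.of fun i j : Fin q => ((∑ l, s l • g (b l)) ^ (j : ℕ)) i ⟨0, hq0⟩).det := by
  let G : Matrix (Fin q) (Fin q) (MvPolynomial (Fin N) Ω) :=
    ∑ l, (MvPolynomial.X l : MvPolynomial (Fin N) Ω) • (g (b l)).map MvPolynomial.C
  refine ⟨(Matrix.of fun i j : Fin q => (G ^ (j : ℕ)) i ⟨0, hq0⟩).det, fun s => ?_⟩
  have hG : (MvPolynomial.eval s).mapMatrix G = ∑ l, s l • g (b l) := by
    rw [map_sum]
    refine Finset.sum_congr rfl fun l _ => ?_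
    ext i j
    simp
  have h1 : ∀ (n : ℕ) (i j : Fin q), MvPolynomial.eval s ((G ^ n) i j) =
      ((∑ l, s l • g (b l)) ^ n) i j := by
    intro n i j
    rw [← hG, ← map_pow]
    rfl
  rw [RingHom.map_det]
  congr 1
  ext i j
  exact h1 _ _ _

omit [FiniteDimensional F D] [Algebra.IsCentral F D] in
/-- The determinant as a polynomial function. -/
theorem exists_poly_det {N : ℕ} (b : Fin N → D) (g : D →ₐ[F] Matrix (Fin q) (Fin q) Ω) :
    ∃ P : MvPolynomial (Fin N) Ω, ∀ s : Fin N → Ω, MvPolynomial.eval s P =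
      (∑ l, s l • g (b l)).det := by
  let G : Matrix (Fin q) (Fin q) (MvPolynomial (Fin N) Ω) :=
    ∑ l, (MvPolynomial.X l : MvPolynomial (Fin N) Ω) • (g (b l)).map MvPolynomial.C
  refine ⟨G.det, fun s => ?_⟩
  have hG : (MvPolynomial.eval s).mapMatrix G = ∑ l, s l • g (b l) := by
    rw [map_sum]
    refine Finset.sum_congr rfl fun l _ => ?_
    ext i j
    simp
  rw [RingHom.map_det, hG]

omit [FiniteDimensional F D] in
/-- The images of a basis span the matrix algebra. -/
theorem exists_coords (hq0 : 0 < q) (hq : finrank F D = q ^ 2)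
    (g : D →ₐ[F] Matrix (Fin q) (Fin q) Ω) {N : ℕ} (b : Basis (Fin N) F D)
    (M : Matrix (Fin q) (Fin q) Ω) : ∃ ρ : Fin N → Ω, ∑ l, ρ l • g (b l) = M := by
  have h1 := Vale.Agent.P011S.SF.split_indep hq0 g b b.linearIndependent
  have h2 : Fintype.card (Fin N) = finrank Ω (Matrix (Fin q) (Fin q) Ω) := by
    rw [Module.finrank_matrix, Fintype.card_fin q, Module.finrank_self, mul_one, ← pow_two, ← hq,
      Module.finrank_eq_card_basis b]
  have h3 := h1.span_eq_top_of_card_eq_finrank' h2
  have h4 : M ∈ Submodule.span Ω (Set.range fun i => g (b i)) := by rw [h3]; trivial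
  obtain ⟨ρ, hρ⟩ := (Submodule.mem_span_range_iff_exists_fun Ω).mp h4
  exact ⟨ρ, hρ⟩

/-- Generic elements with coordinates in prescribed infinite sets. -/
theorem exists_generic (hq0 : 0 < q) (hq : finrank F D = q ^ 2)
    (g : D →ₐ[F] Matrix (Fin q) (Fin q) Ω) {N : ℕ} (b : Basis (Fin N) F D) (S : Fin N → Set F)
    (hS : ∀ i, (S i).Infinite) : ∃ t : Fin N → F, (∀ i, t i ∈ S i) ∧
      (minpoly F (∑ i, t i • b i)).natDegree = q ∧
      (g (∑ i, t i • b i)).det =
        algebraMap F Ω ((-1) ^ q * (minpoly F (∑ i, t i • b i)).coeff 0) := by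
  obtain ⟨P, hP⟩ := exists_coord_poly b g hq0
  have hP0 : P ≠ 0 := by
    intro h0
    let Sh : Matrix (Fin q) (Fin q) Ω := Matrix.of fun i j => if (i : ℕ) = j + 1 then 1 else 0
    obtain ⟨ρ, hρ⟩ := exists_coords hq0 hq g b Sh
    have h1 := hP ρ
    have h2 : ∀ (n : ℕ) (i : Fin q), n < q → (Sh ^ n) i ⟨0, hq0⟩ = if (i : ℕ) = n then 1 else 0 := by
      intro n
      induction n with
      | zero =>
        intro i _
        rw [pow_zero, Matrix.one_apply]
        simp only [Fin.ext_iff]
      | succ n ih =>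
        intro i hn
        rw [pow_succ', Matrix.mul_apply, Finset.sum_eq_single ⟨n, by omega⟩]
        · rw [ih _ (by omega)]
          simp [Sh]
        · intro j _ hj
          rw [ih j (by omega), if_neg, mul_zero]
          intro h
          exact hj (Fin.ext h)
        · intro h; exact absurd (Finset.mem_univ _) h
    have h3 : (Matrix.of fun i j : Fin q => (Sh ^ (j : ℕ)) i ⟨0, hq0⟩) = 1 := by
      ext i j
      rw [Matrix.of_apply, h2 _ _ j.2, Matrix.one_apply]
      simp only [Fin.ext_iff]
    rw [h0, map_zero, hρ, h3, Matrix.det_one] at h1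
    exact zero_ne_one h1
  obtain ⟨s, hs, hs0⟩ : ∃ s : Fin N → Ω, (∀ i, s i ∈ algebraMap F Ω '' S i) ∧
      MvPolynomial.eval s P ≠ 0 := by
    by_contra hcon
    push Not at hcon
    apply hP0
    refine MvPolynomial.funext_set (fun i => algebraMap F Ω '' S i)
      (fun i => (hS i).image (algebraMap F Ω).injective.injOn) fun x hx => ?_
    rw [map_zero]
    exact hcon x fun i => hx i (Set.mem_univ i)
  choose t ht hts using hs
  refine ⟨t, ht, ?_⟩
  have e : g (∑ i, t i • b i) = ∑ l, s l • g (b l) := by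
    rw [map_sum]
    refine Finset.sum_congr rfl fun l _ => ?_
    rw [map_smul, ← hts l, algebraMap_smul]
  apply of_indep hq0 g
  rw [Fintype.linearIndependent_iff]
  intro c hc
  have h1 : (Matrix.of fun i j : Fin q => ((∑ l, s l • g (b l)) ^ (j : ℕ)) i ⟨0, hq0⟩).mulVec c =
      0 := by
    funext i
    have h2 := congrFun (congrFun hc i) ⟨0, hq0⟩
    rw [Matrix.sum_apply] at h2
    rw [Matrix.mulVec, dotProduct]
    rw [Matrix.zero_apply] at h2
    rw [Pi.zero_apply, ← h2]
    refine Finset.sum_congr rfl fun j _ => ?_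
    rw [Matrix.of_apply, Matrix.smul_apply, smul_eq_mul, mul_comm, e]
  rw [hP] at hs0
  have h2 := Matrix.eq_zero_of_mulVec_eq_zero hs0 h1
  intro i
  rw [h2]
  rfl

end Vale.Agent.P011.W
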