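import Vale.Agent.P011.W.Spl
import Vale.Agent.P011.Even.LocDiv

/-!
The structure of a central division algebra over a local field: an unramified maximal subfield and
a uniformizer which normalises it.
-/

open Module Polynomial

namespace Vale.Agent.P011.W

open Vale.Agent.P011.Even.LocDiv

section per

variable {E : Type} [NormedDivisionRing E] (R : Frame E)

theorem pi_pow (i : ℕ) : R.π ^ i * R.ζ = R.ζ ^ (R.j ^ i) * R.π ^ i := by
  induction i with
  | zero => simp
  | succ i ih =>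
    rw [pow_succ' R.π, mul_assoc, ih, ← mul_assoc, R.comm_pow, pow_succ' R.j, mul_assoc]

theorem exists_per : ∃ m : ℕ, 0 < m ∧ R.ζ ^ (R.j ^ m) = R.ζ := by
  have hfin : (Set.range fun i : ℕ => R.ζ ^ (R.j ^ i)).Finite := by
    refine ((Set.finite_lt_nat R.N).image fun r => R.ζ ^ r).subset ?_
    rintro _ ⟨i, rfl⟩
    refine ⟨R.j ^ i % R.N, Nat.mod_lt _ R.hN, ?_⟩
    change R.ζ ^ (R.j ^ i % R.N) = R.ζ ^ (R.j ^ i)
    conv_rhs => rw [← Nat.mod_add_div (R.j ^ i) R.N, pow_add, pow_mul, R.ζN, one_pow, mul_one]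
  have hni : ¬ Function.Injective fun i : ℕ => R.ζ ^ (R.j ^ i) := fun h =>
    Set.infinite_range_of_injective h hfin
  rw [Function.Injective] at hni
  push Not at hni
  obtain ⟨a, b, hab, hne⟩ := hni
  have key : ∀ a b : ℕ, a < b → R.ζ ^ (R.j ^ a) = R.ζ ^ (R.j ^ b) →
      ∃ m : ℕ, 0 < m ∧ R.ζ ^ (R.j ^ m) = R.ζ := by
    intro a b hlt h
    refine ⟨b - a, by omega, ?_⟩
    have h1 := pi_pow R a
    have h2 := pi_pow R b
    have h3 := pi_pow R (b - a)
    have h4 : R.π ^ b = R.π ^ a * R.π ^ (b - a) := by rw [← pow_add]; congr 1; omega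
    have hπ : ∀ n, R.π ^ n ≠ 0 := fun n => pow_ne_zero _ R.π0
    have h5 : R.π ^ a * (R.π ^ (b - a) * R.ζ) = R.π ^ a * (R.ζ * R.π ^ (b - a)) := by
      rw [← mul_assoc, ← h4, h2, ← h, h4, ← mul_assoc, ← h1, mul_assoc]
    have h6 := mul_left_cancel₀ (hπ a) h5
    rw [h3] at h6
    exact mul_right_cancel₀ (hπ (b - a)) h6
  rcases lt_or_gt_of_ne hne with h | h
  · exact key a b h hab
  · exact key b a h hab.symm

end per

/-- A local division algebra as a cyclic algebra. -/
structure Cyc (k E W : Type) [NontriviallyNormedField k] [NormedDivisionRing E] [Algebra k E]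
    [Field W] [Algebra k W] (R : Frame E) where
  ι : W →ₐ[k] E
  ω : W
  hω : ι ω = R.ζ
  gen : ∀ w : W, ∃ p : k[X], w = aeval ω p
  σ : W →ₐ[k] W
  hσ : ∀ w, R.π * ι w = ι (σ w) * R.π
  m : ℕ
  m0 : 0 < m
  per : R.ζ ^ (R.j ^ m) = R.ζ
  min : ∀ i, 0 < i → i < m → R.ζ ^ (R.j ^ i) ≠ R.ζ
  cen : ∀ z : E, z * R.ζ = R.ζ * z → z * R.π = R.π * z → ∃ c : k, z = algebraMap k E c

variable {k E : Type} [NontriviallyNormedField k] [CompleteSpace k] [NormedDivisionRing E]
  [NormedAlgebra k E] [IsUltrametricDist E] [FiniteDimensional k E]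

theorem exists_cyc [Algebra.IsCentral k E] (R : Frame E) : ∃ (W : Type) (_ : Field W)
    (_ : Algebra k W) (_ : FiniteDimensional k W), Nonempty (Cyc k E W R) := by
  classical
  have hint : IsIntegral k R.ζ := Algebra.IsIntegral.isIntegral R.ζ
  let _ : Fact (Irreducible (minpoly k R.ζ)) := ⟨minpoly.irreducible hint⟩
  have hne : minpoly k R.ζ ≠ 0 := minpoly.ne_zero hint
  obtain ⟨ι, hι⟩ : ∃ ι : AdjoinRoot (minpoly k R.ζ) →ₐ[k] E, ι (AdjoinRoot.root _) = R.ζ := by
    refine ⟨Ideal.Quotient.liftₐ (Ideal.span {minpoly k R.ζ}) (Polynomial.aeval R.ζ) (by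
        intro a ha
        obtain ⟨b, rfl⟩ := Ideal.mem_span_singleton'.1 ha
        simp), ?_⟩
    change (Polynomial.aeval R.ζ) (Polynomial.X : k[X]) = R.ζ
    simp
  have hinj : Function.Injective ι := ι.toRingHom.injective
  have hconj : ∀ p : k[X], R.π * aeval R.ζ p = aeval (R.ζ ^ R.j) p * R.π := by
    intro p
    induction p using Polynomial.induction_on' with
    | add p q hp hq => rw [map_add, map_add, mul_add, add_mul, hp, hq]
    | monomial n a =>
      rw [aeval_monomial, aeval_monomial, ← mul_assoc, ← Algebra.commutes a R.π, mul_assoc,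
        R.comm_pow, mul_assoc, pow_mul]
  have h0 : eval₂ ((Algebra.ofId k (AdjoinRoot (minpoly k R.ζ)) :
      k →ₐ[k] AdjoinRoot (minpoly k R.ζ)) : k →+* AdjoinRoot (minpoly k R.ζ))
      (AdjoinRoot.root (minpoly k R.ζ) ^ R.j) (minpoly k R.ζ) = 0 := by
    apply hinj
    rw [map_zero]
    have h1 : eval₂ ((Algebra.ofId k (AdjoinRoot (minpoly k R.ζ)) :
      k →ₐ[k] AdjoinRoot (minpoly k R.ζ)) : k →+* AdjoinRoot (minpoly k R.ζ))
      (AdjoinRoot.root (minpoly k R.ζ) ^ R.j) (minpoly k R.ζ) =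
        aeval (AdjoinRoot.root (minpoly k R.ζ) ^ R.j) (minpoly k R.ζ) := rfl
    rw [h1, ← aeval_algHom_apply, map_pow, hι]
    have h2 := hconj (minpoly k R.ζ)
    rw [minpoly.aeval, mul_zero] at h2
    rcases mul_eq_zero.mp h2.symm with h3 | h3
    · exact h3
    · exact absurd h3 R.π0
  let σ : AdjoinRoot (minpoly k R.ζ) →ₐ[k] AdjoinRoot (minpoly k R.ζ) :=
    AdjoinRoot.liftAlgHom (minpoly k R.ζ) (Algebra.ofId k _)
      (AdjoinRoot.root (minpoly k R.ζ) ^ R.j) h0
  have hσr : σ (AdjoinRoot.root (minpoly k R.ζ)) = AdjoinRoot.root (minpoly k R.ζ) ^ R.j :=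
    AdjoinRoot.liftAlgHom_root _ _ _ _
  have hgen : ∀ w : AdjoinRoot (minpoly k R.ζ), ∃ p : k[X], w =
      aeval (AdjoinRoot.root (minpoly k R.ζ)) p := by
    intro w
    obtain ⟨p, rfl⟩ := AdjoinRoot.mk_surjective w
    exact ⟨p, (AdjoinRoot.aeval_eq p).symm⟩
  refine ⟨AdjoinRoot (minpoly k R.ζ), inferInstance, inferInstance,
    (AdjoinRoot.powerBasis hne).finite, ⟨Cyc.mk ι (AdjoinRoot.root _) hι hgen σ ?_
      (Nat.find (exists_per R)) (Nat.find_spec (exists_per R)).1
      (Nat.find_spec (exists_per R)).2 ?_ ?_⟩⟩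
  · intro w
    obtain ⟨p, rfl⟩ := hgen w
    rw [← aeval_algHom_apply σ, hσr, ← aeval_algHom_apply ι, ← aeval_algHom_apply ι, map_pow, hι]
    exact hconj p
  · intro i hi him h
    exact Nat.find_min (exists_per R) him ⟨hi, h⟩
  · intro z h1 h2
    have h3 : z ∈ Subalgebra.center k E := by
      rw [Subalgebra.mem_center_iff]
      exact Subring.mem_center_iff.mp (R.mem_center k h1 h2)
    rw [Algebra.IsCentral.center_eq_bot] at h3
    obtain ⟨c, hc⟩ := Algebra.mem_bot.mp h3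
    exact ⟨c, hc.symm⟩

namespace Cyc

variable {R : Frame E} {W : Type} [Field W] [Algebra k W] (C : Cyc k E W R)

omit [CompleteSpace k] [IsUltrametricDist E] [FiniteDimensional k E] in
include C in
theorem inj : Function.Injective C.ι := C.ι.toRingHom.injective

omit [CompleteSpace k] [IsUltrametricDist E] [FiniteDimensional k E] in
theorem σ_iter (i : ℕ) (w : W) : R.π ^ i * C.ι w = C.ι (C.σ^[i] w) * R.π ^ i := by
  induction i with
  | zero => simp
  | succ i ih =>
    rw [Function.iterate_succ_apply', pow_succ' R.π, mul_assoc, ih, ← mul_assoc, C.hσ, mul_assoc]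

omit [CompleteSpace k] [IsUltrametricDist E] [FiniteDimensional k E] in
theorem σ_ω (i : ℕ) : C.σ^[i] C.ω = C.ω ^ (R.j ^ i) := by
  apply C.inj
  have h1 := C.σ_iter i C.ω
  rw [C.hω, pi_pow] at h1
  rw [map_pow, C.hω]
  exact (mul_right_cancel₀ (pow_ne_zero _ R.π0) h1).symm

omit [CompleteSpace k] [IsUltrametricDist E] [FiniteDimensional k E] in
theorem ω_per : C.ω ^ (R.j ^ C.m) = C.ω := by
  apply C.inj
  rw [map_pow, C.hω, C.per]

omit [CompleteSpace k] [IsUltrametricDist E] [FiniteDimensional k E] in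
theorem σ_m (w : W) : C.σ^[C.m] w = w := by
  have h1 : ∀ (i : ℕ) (p : k[X]), C.σ^[i] (aeval C.ω p) = aeval (C.σ^[i] C.ω) p := by
    intro i p
    induction i with
    | zero => rfl
    | succ i ih =>
      rw [Function.iterate_succ_apply', ih, Function.iterate_succ_apply', aeval_algHom_apply]
  obtain ⟨p, rfl⟩ := C.gen w
  rw [h1, C.σ_ω, C.ω_per]

omit [CompleteSpace k] [IsUltrametricDist E] [FiniteDimensional k E] in
theorem ζ_ne {a b : ℕ} (hab : a < b) (hb : b < C.m) : R.ζ ^ (R.j ^ a) ≠ R.ζ ^ (R.j ^ b) := by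
  intro h
  apply C.min (b - a) (by omega) (by omega)
  have h1 := pi_pow R a
  have h2 := pi_pow R b
  have h3 := pi_pow R (b - a)
  have h4 : R.π ^ b = R.π ^ a * R.π ^ (b - a) := by rw [← pow_add]; congr 1; omega
  have hπ : ∀ n, R.π ^ n ≠ 0 := fun n => pow_ne_zero _ R.π0
  have h5 : R.π ^ a * (R.π ^ (b - a) * R.ζ) = R.π ^ a * (R.ζ * R.π ^ (b - a)) := by
    rw [← mul_assoc, ← h4, h2, ← h, h4, ← mul_assoc, ← h1, mul_assoc]
  have h6 := mul_left_cancel₀ (hπ a) h5
  rw [h3] at h6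
  exact mul_right_cancel₀ (hπ (b - a)) h6

omit [CompleteSpace k] [FiniteDimensional k E] in
/-- Distinct conjugates are not congruent. -/
theorem norm_ζ_sub {a b : ℕ} (hab : a ≠ b) (ha : a < C.m) (hb : b < C.m) :
    ‖R.ζ ^ (R.j ^ a) - R.ζ ^ (R.j ^ b)‖ = 1 := by
  have hn : ∀ n : ℕ, ‖R.ζ ^ n‖ = 1 := fun n => by rw [norm_pow, R.norm_ζ, one_pow]
  have hle : ‖R.ζ ^ (R.j ^ a) - R.ζ ^ (R.j ^ b)‖ ≤ 1 := by
    rw [sub_eq_add_neg]
    refine (IsUltrametricDist.norm_add_le_max _ _).trans ?_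
    rw [norm_neg, hn, hn, max_self]
  refine le_antisymm hle (not_lt.mp fun h => ?_)
  have h1 := R.pow_inj h
  rcases lt_or_gt_of_ne hab with h2 | h2
  · exact C.ζ_ne h2 hb h1
  · exact C.ζ_ne h2 ha h1.symm

omit [CompleteSpace k] [IsUltrametricDist E] [FiniteDimensional k E] in
theorem exists_ϖ : ∃ c : k, algebraMap k E c = R.π ^ C.m := by
  obtain ⟨c, hc⟩ := C.cen (R.π ^ C.m) (by rw [pi_pow, C.per]) (by rw [← pow_succ, ← pow_succ'])
  exact ⟨c, hc.symm⟩

/-- The matrix representation over the unramified maximal subfield. -/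
theorem exists_X : ∃ X : E →+* Matrix (Fin C.m) (Fin C.m) W,
    (∀ w, X (C.ι w) = Matrix.diagonal fun i : Fin C.m => C.σ^[(i : ℕ)] w) ∧
    finrank W (Fin C.m → W) * finrank k W = finrank k E := by
  let _ := modL (C.ι : W →+* E)
  have hs : ∀ (l : W) (d : E), l • d = C.ι l * d := fun _ _ => rfl
  have : IsScalarTower k W E := IsScalarTower.of_algebraMap_smul fun c d => by
    change C.ι (algebraMap k W c) * d = c • d
    rw [C.ι.commutes, Algebra.smul_def]
  let T : Module.End W E :=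
    { toFun := fun x => x * R.ζ
      map_add' := fun x y => add_mul _ _ _
      map_smul' := fun l x => by rw [hs, mul_assoc]; rfl }
  have hli : LinearIndependent W fun i : Fin C.m => R.π ^ (i : ℕ) := by
    refine Module.End.eigenvectors_linearIndependent' T (fun i : Fin C.m => C.ω ^ (R.j ^ (i : ℕ)))
      ?_ _ ?_
    · intro a b hab
      by_contra hne
      have hne' : (a : ℕ) ≠ b := fun h => hne (Fin.ext h)
      have h1 := congrArg C.ι hab
      simp only [map_pow, C.hω] at h1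
      have h2 := C.norm_ζ_sub hne' a.2 b.2
      rw [h1, sub_self, norm_zero] at h2
      exact zero_ne_one h2
    · intro i
      rw [Module.End.hasEigenvector_iff, Module.End.mem_eigenspace_iff]
      refine ⟨?_, pow_ne_zero _ R.π0⟩
      change R.π ^ (i : ℕ) * R.ζ = C.ι _ * _
      rw [map_pow, C.hω, pi_pow]
  obtain ⟨ϖ, hϖ⟩ := C.exists_ϖ
  have hϖ0 : ϖ ≠ 0 := by
    rintro rfl
    rw [map_zero] at hϖ
    exact pow_ne_zero _ R.π0 hϖ.symm
  have hspan : ⊤ ≤ Submodule.span W (Set.range fun i : Fin C.m => R.π ^ (i : ℕ)) := by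
    intro x _
    have hx : x ∈ Submodule.span k (Set.range fun p : ℕ × ℤ => R.ζ ^ p.1 * R.π ^ p.2) := by
      rw [R.span_eq_top]; trivial
    have hk : ∀ (c : k) (y : E), y ∈ Submodule.span W (Set.range fun i : Fin C.m =>
        R.π ^ (i : ℕ)) → c • y ∈ Submodule.span W (Set.range fun i : Fin C.m =>
        R.π ^ (i : ℕ)) := by
      intro c y hy
      rw [← algebraMap_smul W c y]
      exact Submodule.smul_mem _ _ hy
    induction hx using Submodule.span_induction with
    | mem y hy =>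
      obtain ⟨p, rfl⟩ := hy
      change R.ζ ^ p.1 * R.π ^ p.2 ∈ _
      have hm0 : (C.m : ℤ) ≠ 0 := by exact_mod_cast C.m0.ne'
      obtain ⟨b, hb⟩ : ∃ b : ℕ, (b : ℤ) = p.2 % C.m :=
        ⟨(p.2 % C.m).toNat, Int.toNat_of_nonneg (Int.emod_nonneg _ hm0)⟩
      have hblt : b < C.m := by
        have := Int.emod_lt_of_pos p.2 (by exact_mod_cast C.m0 : (0 : ℤ) < C.m)
        omega
      have h1 : R.π ^ p.2 = algebraMap k E (ϖ ^ (p.2 / C.m)) * R.π ^ b := by
        have h2 : p.2 = C.m * (p.2 / C.m) + b := by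
          rw [hb]; exact (Int.mul_ediv_add_emod p.2 C.m).symm
        conv_lhs => rw [h2]
        rw [zpow_add₀ R.π0, zpow_mul, zpow_natCast, zpow_natCast, ← hϖ, map_zpow₀]
      have h2 : R.ζ ^ p.1 * R.π ^ p.2 = (ϖ ^ (p.2 / C.m)) • (C.ω ^ p.1 • R.π ^ b) := by
        rw [h1, hs, map_pow, C.hω, Algebra.smul_def, ← mul_assoc, ← mul_assoc, Algebra.commutes]
      rw [h2]
      exact hk _ _ (Submodule.smul_mem _ _ (Submodule.subset_span ⟨⟨b, hblt⟩, rfl⟩))
    | zero => exact Submodule.zero_mem _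
    | add y z _ _ hy hz => exact Submodule.add_mem _ (hy trivial) (hz trivial)
    | smul a y _ hy => exact hk a y (hy trivial)
  let e : Module.Basis (Fin C.m) W E := Module.Basis.mk hli hspan
  have he : ∀ i, e i = R.π ^ (i : ℕ) := fun i => Module.Basis.mk_apply hli hspan i
  obtain ⟨X, -, hX⟩ := exists_reg (C.ι : W →+* E) e
  refine ⟨X, fun w => ?_, ?_⟩
  · apply hX
    intro i
    rw [he]
    exact C.σ_iter i w
  · rw [Module.finrank_fin_fun, mul_comm, ← Module.finrank_mul_finrank k W E,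
      Module.finrank_eq_card_basis e, Fintype.card_fin]

end Cyc

end Vale.Agent.P011.W
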