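import Vale.Agent.P011.W.LocA

/-!
Norms from the unramified maximal subfield of a local division algebra.
-/

open Module Polynomial

namespace Vale.Agent.P011.W

open Vale.Agent.P011.Even.LocDiv

/-- In a finite commutative group an endomorphism whose kernel lies in the range of another one,
which it annihilates, has the kernel of the other one as its range. -/
theorem range_eq_ker {G : Type} [CommGroup G] [Finite G] (φ ψ : G →* G) (h1 : ψ.ker ≤ φ.range)
    (h2 : ψ.range ≤ φ.ker) : ψ.range = φ.ker := by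
  apply Subgroup.eq_of_le_of_card_ge h2
  have e1 : Nat.card ψ.ker * Nat.card ψ.range = Nat.card G := by
    rw [← Subgroup.index_ker, Subgroup.card_mul_index]
  have e2 : Nat.card φ.ker * Nat.card φ.range = Nat.card G := by
    rw [← Subgroup.index_ker, Subgroup.card_mul_index]
  have e3 : Nat.card ψ.ker ≤ Nat.card φ.range := Subgroup.card_le_of_le h1
  have hpos : 0 < Nat.card φ.range := Nat.card_pos
  have h4 : Nat.card φ.ker * Nat.card φ.range ≤ Nat.card ψ.range * Nat.card φ.range := by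
    rw [e2, ← e1, mul_comm]
    exact Nat.mul_le_mul_left _ e3
  exact Nat.le_of_mul_le_mul_right h4 hpos

namespace Cyc

variable {k E : Type} [NontriviallyNormedField k] [NormedDivisionRing E] [NormedAlgebra k E]
  {R : Frame E} {W : Type} [Field W] [Algebra k W] (C : Cyc k E W R)

/-- The norm of the unramified extension. -/
def N (w : W) : W := ∏ i ∈ Finset.range C.m, C.σ^[i] w

/-- The trace of the unramified extension. -/
def T (w : W) : W := ∑ i ∈ Finset.range C.m, C.σ^[i] w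

theorem σ_mul (i : ℕ) (w w' : W) : C.σ^[i] (w * w') = C.σ^[i] w * C.σ^[i] w' := by
  induction i with
  | zero => rfl
  | succ i ih => rw [Function.iterate_succ_apply', ih, map_mul, Function.iterate_succ_apply',
      Function.iterate_succ_apply']

theorem σ_add (i : ℕ) (w w' : W) : C.σ^[i] (w + w') = C.σ^[i] w + C.σ^[i] w' := by
  induction i with
  | zero => rfl
  | succ i ih => rw [Function.iterate_succ_apply', ih, map_add, Function.iterate_succ_apply',
      Function.iterate_succ_apply']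

theorem σ_one (i : ℕ) : C.σ^[i] 1 = 1 := by
  induction i with
  | zero => rfl
  | succ i ih => rw [Function.iterate_succ_apply', ih, map_one]

theorem σ_alg (i : ℕ) (c : k) : C.σ^[i] (algebraMap k W c) = algebraMap k W c := by
  induction i with
  | zero => rfl
  | succ i ih => rw [Function.iterate_succ_apply', ih, C.σ.commutes]

theorem σ_pow (i n : ℕ) (w : W) : C.σ^[i] (w ^ n) = (C.σ^[i] w) ^ n := by
  induction n with
  | zero => rw [pow_zero, pow_zero, C.σ_one]
  | succ n ih => rw [pow_succ, C.σ_mul, ih, pow_succ]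

theorem σ_ωl (i l : ℕ) : C.σ^[i] (C.ω ^ l) = C.ω ^ (l * R.j ^ i) := by
  rw [C.σ_pow, C.σ_ω, ← pow_mul, mul_comm]

theorem N_mul (w w' : W) : C.N (w * w') = C.N w * C.N w' := by
  rw [N, N, N, ← Finset.prod_mul_distrib]
  exact Finset.prod_congr rfl fun i _ => C.σ_mul i w w'

theorem σ_N (w : W) : C.σ (C.N w) = C.N w := by
  by_cases hw : w = 0
  · have h1 : C.N w = 0 := by
      rw [N, Finset.prod_eq_zero (Finset.mem_range.mpr C.m0)]
      exact hw
    rw [h1, map_zero]
  · have h1 : C.σ (C.N w) * w = C.N w * w := by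
      have h2 : C.σ (C.N w) = ∏ i ∈ Finset.range C.m, C.σ^[i + 1] w := by
        rw [N, map_prod]
        exact Finset.prod_congr rfl fun i _ => (Function.iterate_succ_apply' _ _ _).symm
      have h3 : ∏ i ∈ Finset.range (C.m + 1), C.σ^[i] w =
          (∏ i ∈ Finset.range C.m, C.σ^[i + 1] w) * w := by
        rw [Finset.prod_range_succ']
        rfl
      rw [h2, ← h3, Finset.prod_range_succ, C.σ_m]
      rfl
    exact mul_right_cancel₀ hw h1

theorem σ_T (w : W) : C.σ (C.T w) = C.T w := by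
  have h1 : C.σ (C.T w) + w = C.T w + w := by
    have h2 : C.σ (C.T w) = ∑ i ∈ Finset.range C.m, C.σ^[i + 1] w := by
      rw [T, map_sum]
      exact Finset.sum_congr rfl fun i _ => (Function.iterate_succ_apply' _ _ _).symm
    have h3 : ∑ i ∈ Finset.range (C.m + 1), C.σ^[i] w =
        (∑ i ∈ Finset.range C.m, C.σ^[i + 1] w) + w := by
      rw [Finset.sum_range_succ']
      rfl
    rw [h2, ← h3, Finset.sum_range_succ, C.σ_m]
    rfl
  exact add_right_cancel h1

theorem exists_base {w : W} (hw : C.σ w = w) : ∃ c : k, algebraMap k W c = w := by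
  obtain ⟨c, hc⟩ := C.cen (C.ι w) (by
    rw [← C.hω, ← map_mul, ← map_mul, mul_comm]) (by rw [C.hσ, hw])
  refine ⟨c, C.inj ?_⟩
  rw [C.ι.commutes, hc]

theorem norm_σ (i : ℕ) (w : W) : ‖C.ι (C.σ^[i] w)‖ = ‖C.ι w‖ := by
  have h1 := congrArg norm (C.σ_iter i w)
  rw [norm_mul, norm_mul, mul_comm] at h1
  exact (mul_right_cancel₀ (norm_ne_zero_iff.mpr (pow_ne_zero _ R.π0)) h1).symm

theorem norm_ω (n : ℕ) : ‖C.ι (C.ω ^ n)‖ = 1 := by
  rw [map_pow, C.hω, norm_pow, R.norm_ζ, one_pow]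

theorem norm_N (w : W) : ‖C.ι (C.N w)‖ = ‖C.ι w‖ ^ C.m := by
  have h1 : ∀ s : Finset ℕ, ‖C.ι (∏ i ∈ s, C.σ^[i] w)‖ = ‖C.ι w‖ ^ s.card := by
    classical
    intro s
    induction s using Finset.induction_on with
    | empty => rw [Finset.prod_empty, map_one, norm_one, Finset.card_empty, pow_zero]
    | insert a s ha ih =>
      rw [Finset.prod_insert ha, map_mul, norm_mul, ih, C.norm_σ, Finset.card_insert_of_notMem ha,
        pow_succ']
  rw [N, h1, Finset.card_range]

theorem norm_alg (c : k) : ‖C.ι (algebraMap k W c)‖ = ‖c‖ := by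
  rw [C.ι.commutes, norm_algebraMap']

variable [IsUltrametricDist E]

/-- Independence of the conjugations modulo the maximal ideal. -/
theorem ded (S : Finset ℕ) (hS : ∀ b ∈ S, b < C.m) (α : ℕ → W)
    (h : ∀ l : ℕ, ‖C.ι (∑ b ∈ S, α b * C.ω ^ (l * R.j ^ b))‖ < 1) : ∀ b ∈ S, ‖C.ι (α b)‖ < 1 := by
  classical
  induction S using Finset.induction_on generalizing α with
  | empty => simp
  | insert c S hc ih =>
    have h1 : ∀ b ∈ S, ‖C.ι (α b)‖ < 1 := by
      intro b hb
      have hbc : b ≠ c := fun h => hc (h ▸ hb)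
      have h2 := ih (fun b hb => hS b (Finset.mem_insert_of_mem hb))
        (fun b => α b * (C.ω ^ (R.j ^ b) - C.ω ^ (R.j ^ c))) (by
          intro l
          have e : ∑ b ∈ S, α b * (C.ω ^ (R.j ^ b) - C.ω ^ (R.j ^ c)) * C.ω ^ (l * R.j ^ b) =
              (∑ b ∈ insert c S, α b * C.ω ^ ((l + 1) * R.j ^ b)) -
                C.ω ^ (R.j ^ c) * ∑ b ∈ insert c S, α b * C.ω ^ (l * R.j ^ b) := by
            rw [Finset.sum_insert hc, Finset.sum_insert hc, mul_add, Finset.mul_sum]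
            have e1 : ∀ b, α b * (C.ω ^ (R.j ^ b) - C.ω ^ (R.j ^ c)) * C.ω ^ (l * R.j ^ b) =
                α b * C.ω ^ ((l + 1) * R.j ^ b) -
                  C.ω ^ (R.j ^ c) * (α b * C.ω ^ (l * R.j ^ b)) := by
              intro b
              rw [add_mul, one_mul, pow_add]
              ring
            rw [Finset.sum_congr rfl fun b _ => e1 b, Finset.sum_sub_distrib, add_mul, one_mul,
              pow_add]
            ring
          rw [e, map_sub, map_mul, sub_eq_add_neg]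
          refine (IsUltrametricDist.norm_add_le_max _ _).trans_lt (max_lt (h (l + 1)) ?_)
          rw [norm_neg, norm_mul, C.norm_ω, one_mul]
          exact h l) b hb
      rw [map_mul, norm_mul, map_sub, map_pow, map_pow, C.hω,
        C.norm_ζ_sub hbc (hS b (Finset.mem_insert_of_mem hb)) (hS c (Finset.mem_insert_self _ _)),
        mul_one] at h2
      exact h2
    intro b hb
    rcases Finset.mem_insert.mp hb with rfl | hb
    · have h2 := h 0
      simp only [zero_mul, pow_zero, mul_one] at h2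
      rw [Finset.sum_insert hc, map_add] at h2
      have h3 : ‖C.ι (∑ x ∈ S, α x)‖ < 1 := by
        rw [map_sum]
        exact norm_sum_lt' _ _ one_pos h1
      have e : C.ι (α b) = (C.ι (α b) + C.ι (∑ x ∈ S, α x)) + -C.ι (∑ x ∈ S, α x) := by abel
      rw [e]
      refine (IsUltrametricDist.norm_add_le_max _ _).trans_lt (max_lt h2 ?_)
      rwa [norm_neg]
    · exact h1 b hb

/-- An integral element with unit trace. -/
theorem exists_trace : ∃ (l : ℕ) (τ : k), algebraMap k W τ = C.T (C.ω ^ l) ∧ ‖τ‖ = 1 := by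
  by_contra hcon
  push Not at hcon
  have h1 : ∀ l : ℕ, ‖C.ι (∑ b ∈ Finset.range C.m, (fun _ => (1 : W)) b * C.ω ^ (l * R.j ^ b))‖ <
      1 := by
    intro l
    have e : (∑ b ∈ Finset.range C.m, (fun _ => (1 : W)) b * C.ω ^ (l * R.j ^ b)) =
        C.T (C.ω ^ l) := by
      rw [T]
      refine Finset.sum_congr rfl fun b _ => ?_
      rw [one_mul, C.σ_ωl]
    rw [e]
    obtain ⟨τ, hτ⟩ := C.exists_base (C.σ_T (C.ω ^ l))
    have h2 := hcon l τ hτ
    rw [← hτ, C.norm_alg]
    refine lt_of_le_of_ne ?_ h2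
    rw [← C.norm_alg, hτ, T, map_sum]
    apply norm_sum_le' _ _ zero_le_one
    intro i _
    rw [C.norm_σ, C.norm_ω]
  have h2 := C.ded _ (fun b hb => Finset.mem_range.mp hb) _ h1 0 (Finset.mem_range.mpr C.m0)
  rw [map_one, norm_one] at h2
  exact lt_irrefl _ h2

/-- Hilbert 90 in the residue field. -/
theorem h90 {a : ℕ} (ha : C.N (C.ω ^ a) = 1) : ∃ r : ℕ, R.ζ ^ (a + R.j * r) = R.ζ ^ r := by
  set s : ℕ → ℕ := fun b => ∑ i ∈ Finset.range b, R.j ^ i with hs
  have hs1 : ∀ b, s (b + 1) = 1 + R.j * s b := by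
    intro b
    simp only [hs]
    rw [Finset.sum_range_succ', pow_zero, add_comm, Finset.mul_sum]
    congr 1
    exact Finset.sum_congr rfl fun i _ => pow_succ' _ _
  have hsm : C.ω ^ (a * s C.m) = 1 := by
    rw [← ha, N, hs]
    simp only
    rw [Finset.mul_sum, ← Finset.prod_pow_eq_pow_sum]
    exact Finset.prod_congr rfl fun i _ => (C.σ_ωl i a).symm
  obtain ⟨l, hl⟩ : ∃ l : ℕ, ¬ ‖C.ι (∑ b ∈ Finset.range C.m,
      (fun b => C.ω ^ (a * s b)) b * C.ω ^ (l * R.j ^ b))‖ < 1 := by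
    by_contra hcon
    push Not at hcon
    have h2 := C.ded _ (fun b hb => Finset.mem_range.mp hb) _ hcon 0 (Finset.mem_range.mpr C.m0)
    rw [C.norm_ω] at h2
    exact lt_irrefl _ h2
  simp only at hl
  set t : W := ∑ b ∈ Finset.range C.m, C.ω ^ (a * s b) * C.ω ^ (l * R.j ^ b) with ht
  have ht1 : ‖C.ι t‖ = 1 := by
    refine le_antisymm ?_ (not_lt.mp hl)
    rw [ht, map_sum]
    apply norm_sum_le' _ _ zero_le_one
    intro i _
    rw [map_mul, norm_mul, C.norm_ω, C.norm_ω, one_mul]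
  have hσt : C.ω ^ a * C.σ t = t := by
    have h1 : C.ω ^ a * C.σ t = ∑ b ∈ Finset.range C.m,
        C.ω ^ (a * s (b + 1)) * C.ω ^ (l * R.j ^ (b + 1)) := by
      rw [ht, map_sum, Finset.mul_sum]
      refine Finset.sum_congr rfl fun b _ => ?_
      have h2 : ∀ n : ℕ, C.σ (C.ω ^ n) = C.ω ^ (n * R.j) := by
        intro n
        have := C.σ_ωl 1 n
        rwa [pow_one] at this
      rw [map_mul, h2, h2, ← mul_assoc, ← pow_add, hs1, pow_succ]
      congr 2
      · ring
      · ring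
    have h3 : (∑ b ∈ Finset.range C.m, C.ω ^ (a * s (b + 1)) * C.ω ^ (l * R.j ^ (b + 1))) +
        C.ω ^ l = t + C.ω ^ l := by
      have h4 : ∑ b ∈ Finset.range (C.m + 1), C.ω ^ (a * s b) * C.ω ^ (l * R.j ^ b) =
          (∑ b ∈ Finset.range C.m, C.ω ^ (a * s (b + 1)) * C.ω ^ (l * R.j ^ (b + 1))) +
            C.ω ^ l := by
        rw [Finset.sum_range_succ']
        simp [hs]
      rw [← h4, Finset.sum_range_succ, hsm, one_mul, ← C.σ_ωl, C.σ_m]
    rw [h1]
    exact add_right_cancel h3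
  obtain ⟨r, hr⟩ := R.gen _ ht1
  refine ⟨r, R.pow_inj ?_⟩
  have h5 : R.ζ ^ (a + R.j * r) * R.π = R.ζ ^ a * (R.π * R.ζ ^ r) := by
    rw [R.comm_pow, pow_add, mul_assoc]
  have h6 : C.ι t * R.π = R.ζ ^ a * (R.π * C.ι t) := by
    rw [C.hσ, ← mul_assoc, ← C.hω, ← map_pow, ← map_mul, hσt]
  have h7 : (R.ζ ^ (a + R.j * r) - C.ι t) * R.π = -(R.ζ ^ a * (R.π * (C.ι t - R.ζ ^ r))) := by
    rw [sub_mul, h5, h6, mul_sub, mul_sub]
    abel
  have h8 : ‖R.ζ ^ (a + R.j * r) - C.ι t‖ < 1 := by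
    have h9 := congrArg norm h7
    rw [norm_mul, norm_neg, norm_mul, norm_mul, norm_pow, R.norm_ζ, one_pow, one_mul,
      mul_comm] at h9
    rw [mul_left_cancel₀ (norm_ne_zero_iff.mpr R.π0) h9]
    exact hr
  exact norm_sub_lt_trans h8 hr

/-- Surjectivity of the norm of the residue field. -/
theorem residue_norm (y : k) (hy : ‖y‖ = 1) : ∃ i : ℕ, ‖C.ι (C.N (C.ω ^ i)) - algebraMap k E y‖ <
    1 := by
  obtain ⟨a, ha⟩ := R.gen (algebraMap k E y) (by rw [norm_algebraMap', hy])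
  have haj : R.ζ ^ (R.j * a) = R.ζ ^ a := by
    apply R.pow_inj
    have h1 : (R.ζ ^ (R.j * a) - algebraMap k E y) * R.π =
        -(R.π * (algebraMap k E y - R.ζ ^ a)) := by
      rw [sub_mul, mul_sub, R.comm_pow, Algebra.commutes]
      abel
    have h2 : ‖R.ζ ^ (R.j * a) - algebraMap k E y‖ < 1 := by
      have h9 := congrArg norm h1
      rw [norm_mul, norm_neg, norm_mul, mul_comm] at h9
      rw [mul_left_cancel₀ (norm_ne_zero_iff.mpr R.π0) h9]
      exact ha
    exact norm_sub_lt_trans h2 ha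
  have hω0 : C.ω ≠ 0 := by
    intro h0
    have := C.norm_ω 1
    rw [pow_one, h0, map_zero, norm_zero] at this
    exact zero_ne_one this
  have hωN : C.ω ^ R.N = 1 := by
    apply C.inj
    rw [map_pow, C.hω, R.ζN, map_one]
  let u : Wˣ := Units.mk0 C.ω hω0
  have huN : u ^ R.N = 1 := Units.ext (by rw [Units.val_pow_eq_pow_val]; exact hωN)
  have hfin : IsOfFinOrder u := isOfFinOrder_iff_pow_eq_one.mpr ⟨R.N, R.hN, huN⟩
  have : Finite (Subgroup.zpowers u) := hfin.finite_zpowers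
  let φ : Subgroup.zpowers u →* Subgroup.zpowers u := powMonoidHom R.j / MonoidHom.id _
  let ψ : Subgroup.zpowers u →* Subgroup.zpowers u :=
    powMonoidHom (∑ i ∈ Finset.range C.m, R.j ^ i)
  have hx : ∀ x : Subgroup.zpowers u, ∃ n : ℕ, ((x : Wˣ) : W) = C.ω ^ n := by
    intro x
    obtain ⟨n, hn⟩ := (hfin.mem_powers_iff_mem_zpowers (y := (x : Wˣ))).mpr x.2
    exact ⟨n, by rw [← hn]; rfl⟩
  have hφ : ∀ x : Subgroup.zpowers u, φ x = x ^ R.j / x := fun x => rfl
  have hNω : ∀ n : ℕ, C.N (C.ω ^ n) = (C.ω ^ n) ^ (∑ i ∈ Finset.range C.m, R.j ^ i) := by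
    intro n
    rw [N, ← Finset.prod_pow_eq_pow_sum]
    refine Finset.prod_congr rfl fun i _ => ?_
    rw [C.σ_ωl, pow_mul]
  have hrk := range_eq_ker φ ψ (by
    intro x hxk
    rw [MonoidHom.mem_ker] at hxk
    obtain ⟨n, hn⟩ := hx x
    have h1 : C.N (C.ω ^ n) = 1 := by
      rw [hNω, ← hn]
      have h2 := congrArg (fun z : Subgroup.zpowers u => ((z : Wˣ) : W)) hxk
      exact h2
    obtain ⟨r, hr⟩ := C.h90 h1
    refine ⟨(⟨u, Subgroup.mem_zpowers u⟩ : Subgroup.zpowers u)⁻¹ ^ r, ?_⟩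
    rw [hφ]
    have h3 : C.ω ^ (n + R.j * r) = C.ω ^ r := by
      apply C.inj
      rw [map_pow, map_pow, C.hω, hr]
    have h4 : x * (⟨u, Subgroup.mem_zpowers u⟩ : Subgroup.zpowers u) ^ (R.j * r) =
        (⟨u, Subgroup.mem_zpowers u⟩ : Subgroup.zpowers u) ^ r := by
      apply Subtype.ext
      apply Units.ext
      rw [Subgroup.coe_mul, Units.val_mul, hn, Subgroup.coe_pow, Subgroup.coe_pow,
        Units.val_pow_eq_pow_val, Units.val_pow_eq_pow_val]
      change C.ω ^ n * C.ω ^ (R.j * r) = C.ω ^ r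
      rw [← pow_add, h3]
    rw [inv_pow, inv_pow, div_inv_eq_mul, ← pow_mul, mul_comm r R.j, inv_mul_eq_iff_eq_mul,
      mul_comm, h4]) (by
    rintro _ ⟨x, rfl⟩
    obtain ⟨n, hn⟩ := hx x
    rw [MonoidHom.mem_ker, hφ, div_eq_one]
    apply Subtype.ext
    apply Units.ext
    have h1 : (((ψ x : Subgroup.zpowers u) : Wˣ) : W) = C.N (C.ω ^ n) := by
      rw [hNω, ← hn]
      rfl
    rw [Subgroup.coe_pow, Units.val_pow_eq_pow_val, h1]
    have h2 := C.σ_N (C.ω ^ n)
    have h3 : C.σ (C.N (C.ω ^ n)) = C.N (C.ω ^ n) ^ R.j := by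
      have h4 := C.σ_ωl 1 (n * ∑ i ∈ Finset.range C.m, R.j ^ i)
      rw [pow_one] at h4
      rw [hNω, ← pow_mul, ← pow_mul]
      exact h4
    exact h3.symm.trans h2)
  have hmem : (⟨u, Subgroup.mem_zpowers u⟩ : Subgroup.zpowers u) ^ a ∈ ψ.range := by
    rw [hrk, MonoidHom.mem_ker, hφ, div_eq_one]
    apply Subtype.ext
    apply Units.ext
    apply C.inj
    have h1 : ∀ n : ℕ, C.ι ((((⟨u, Subgroup.mem_zpowers u⟩ : Subgroup.zpowers u) ^ n :
        Subgroup.zpowers u) : Wˣ) : W) = R.ζ ^ n := by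
      intro n
      rw [Subgroup.coe_pow, Units.val_pow_eq_pow_val, map_pow]
      change C.ι C.ω ^ n = _
      rw [C.hω]
    rw [← pow_mul, h1, h1, mul_comm, haj]
  obtain ⟨x, hx2⟩ := hmem
  obtain ⟨n, hn⟩ := hx x
  refine ⟨n, ?_⟩
  have h1 : C.N (C.ω ^ n) = C.ω ^ a := by
    rw [hNω, ← hn]
    have h2 := congrArg (fun z : Subgroup.zpowers u => ((z : Wˣ) : W)) hx2
    simp only [Subgroup.coe_pow, Units.val_pow_eq_pow_val] at h2
    exact h2
  rw [h1, map_pow, C.hω, norm_sub_rev]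
  exact ha

end Cyc

end Vale.Agent.P011.W
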