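import Vale.Agent.P011.W.Sym
import Vale.Agent.P011.ArP.All
import Vale.Agent.P011.Even.Completion

/-!
Norms over the completion of a number field are close to global norms.
-/

open NumberField IsDedekindDomain Polynomial Module

namespace Vale.Agent.P011.W

open Vale.Agent.P011.Arith (Z0)
open Vale.Agent.P011.ArP

section cont

variable {T K : Type*} [TopologicalSpace T] [Field K] [TopologicalSpace K] [IsTopologicalRing K]

/-- A family of polynomials of bounded degree with continuous coefficients. -/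
def CC (P : T → K[X]) : Prop :=
  (∀ n, Continuous fun t => (P t).coeff n) ∧ ∃ N : ℕ, ∀ t, (P t).natDegree ≤ N

omit [IsTopologicalRing K] in
theorem CC.const (h : K[X]) : CC (fun _ : T => h) :=
  ⟨fun _ => continuous_const, h.natDegree, fun _ => le_rfl⟩

theorem CC.mul {P Q : T → K[X]} (hP : CC P) (hQ : CC Q) : CC fun t => P t * Q t := by
  refine ⟨fun n => ?_, ?_⟩
  · simp only [coeff_mul]
    exact continuous_finsetSum _ fun i _ => (hP.1 _).mul (hQ.1 _)
  · obtain ⟨N, hN⟩ := hP.2
    obtain ⟨N', hN'⟩ := hQ.2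
    exact ⟨N + N', fun t => natDegree_mul_le.trans (add_le_add (hN t) (hN' t))⟩

theorem CC.rot {P : T → K[X]} (hP : CC P) (c : K) : CC fun t => (P t).comp (C c * X) := by
  refine ⟨fun n => ?_, ?_⟩
  · simp only [comp_C_mul_X_coeff]
    exact (hP.1 n).mul continuous_const
  · obtain ⟨N, hN⟩ := hP.2
    refine ⟨N, fun t => ?_⟩
    rw [natDegree_le_iff_coeff_eq_zero]
    intro m hm
    rw [comp_C_mul_X_coeff, coeff_eq_zero_of_natDegree_lt (lt_of_le_of_lt (hN t) hm), zero_mul]

theorem CC.prod {P : ℕ → T → K[X]} (s : Finset ℕ) (hP : ∀ i ∈ s, CC (P i)) :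
    CC fun t => ∏ i ∈ s, P i t := by
  classical
  induction s using Finset.induction_on with
  | empty => simpa using CC.const (T := T) (1 : K[X])
  | insert a s ha ih =>
    simp only [Finset.prod_insert ha]
    exact (hP a (Finset.mem_insert_self _ _)).mul
      (ih fun i hi => hP i (Finset.mem_insert_of_mem hi))

omit [IsTopologicalRing K] in
theorem CC.contract {P : T → K[X]} (hP : CC P) {p : ℕ} (hp : p ≠ 0) :
    CC fun t => contract p (P t) := by
  refine ⟨fun n => ?_, ?_⟩
  · simp only [coeff_contract hp]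
    exact hP.1 _
  · obtain ⟨N, hN⟩ := hP.2
    refine ⟨N, fun t => ?_⟩
    rw [natDegree_le_iff_coeff_eq_zero]
    intro m hm
    rw [coeff_contract hp]
    refine coeff_eq_zero_of_natDegree_lt (lt_of_le_of_lt (hN t) (lt_of_lt_of_le hm ?_))
    exact Nat.le_mul_of_pos_right m (Nat.pos_of_ne_zero hp)

theorem CC.eval {P : T → K[X]} (hP : CC P) (a : K) : Continuous fun t => (P t).eval a := by
  obtain ⟨N, hN⟩ := hP.2
  have h1 : ∀ t, (P t).eval a = ∑ i ∈ Finset.range (N + 1), (P t).coeff i * a ^ i := fun t =>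
    eval_eq_sum_range' (Nat.lt_succ_of_le (hN t)) a
  simp only [h1]
  exact continuous_finsetSum _ fun i _ => (hP.1 i).mul continuous_const

theorem CC.coords {N : ℕ} : CC fun c : Fin N → K => ∑ i : Fin N, C (c i) * X ^ (i : ℕ) := by
  refine ⟨fun n => ?_, N, fun t => ?_⟩
  · simp only [finsetSum_coeff, coeff_C_mul]
    exact continuous_finsetSum _ fun i _ => (continuous_apply i).mul continuous_const
  · refine natDegree_sum_le_of_forall_le _ _ fun i _ => ?_
    exact (natDegree_C_mul_X_pow_le _ _).trans i.2.le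

end cont

variable {p : ℕ} {F : Type} [Field F] [NumberField F]

omit [NumberField F] in
/-- Maps commute with the norm form. -/
theorem nf_map (M : Mu p F) (E : Type) [Field E] [Algebra F E] (h : F[X]) :
    (M.map E).nf (h.map (algebraMap F E)) = (M.nf h).map (algebraMap F E) := by
  apply (M.map E).nf_eq
  rw [← map_expand, M.expand_nf, Mu.cj, Mu.cj, Polynomial.map_prod]
  refine Finset.prod_congr rfl fun i _ => ?_
  rw [map_comp, Polynomial.map_mul, map_C, map_X, map_pow]
  rfl

theorem isOpen_val (v : HeightOneSpectrum (𝓞 F)) (γ : Z0) :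
    IsOpen {x : v.adicCompletion F | Valued.v x < γ} := by
  obtain ⟨z, hz⟩ := v.valuedAdicCompletion_surjective F γ
  have h1 : {x : v.adicCompletion F | Valued.v x < γ} = {x : v.adicCompletion F | ‖x‖ < ‖z‖} := by
    ext x
    rw [Set.mem_ofPred_eq, Set.mem_ofPred_eq, Even.norm_lt_iff, hz]
  rw [h1]
  exact isOpen_lt continuous_norm continuous_const

/-- A `p`-th power in the completion is a local `p`-th power. -/
theorem not_pow (M : Mu p F) (v : HeightOneSpectrum (𝓞 F)) (a : Fˣ)
    (ha : a ∉ LS M (v.valuation F)) (c : v.adicCompletion F) :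
    c ^ p ≠ algebraMap F (v.adicCompletion F) a := by
  intro hc
  apply ha
  have ha0 : (a : F) ≠ 0 := a.ne_zero
  have hc0 : c ≠ 0 := by
    rintro rfl
    rw [zero_pow M.prime.ne_zero] at hc
    exact ha0 ((algebraMap F (v.adicCompletion F)).injective (hc.symm.trans (map_zero _).symm))
  have hvc : Valued.v c ≠ (0 : Z0) := (Valuation.ne_zero_iff _).mpr hc0
  have hl : v.valuation F (M.l ^ p) ≠ 0 := M.val_lp_ne _
  obtain ⟨y, hy⟩ := Even.dense_val v c (v.valuation F (M.l ^ p) * Valued.v c) (mul_ne_zero hl hvc)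
  set Y : v.adicCompletion F := algebraMap F _ y with hY
  have h2 : Valued.v (Y / c - 1) < v.valuation F (M.l ^ p) := by
    have e : Y / c - 1 = -((c - Y) / c) := by field_simp; ring
    rw [e, Valuation.map_neg, map_div₀, div_lt_iff₀ (zero_lt_iff.mpr hvc)]
    exact hy
  have h3 : Valued.v (Y / c) ≤ (1 : Z0) := by
    have e : Y / c = (Y / c - 1) + 1 := by ring
    rw [e]
    exact Valuation.map_add_le _ (h2.le.trans (M.val_lp_le _)) (by rw [map_one])
  have h4 : Valued.v ((Y / c) ^ p - 1) < v.valuation F (M.l ^ p) := by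
    refine lt_of_le_of_lt ?_ h2
    have h5 := val_one_sub_pow_le (F := v.adicCompletion F) Valued.v h3 p
    rw [← Valuation.map_neg, neg_sub] at h5
    rwa [← Valuation.map_neg _ (Y / c - 1), neg_sub]
  have e3 : (Y / c) ^ p - 1 = algebraMap F _ (y ^ p / a - 1) := by
    rw [div_pow, hc, map_sub, map_div₀, map_pow, map_one]
  rw [e3, Even.valued_alg] at h4
  have hy0 : y ≠ 0 := by
    rintro rfl
    rw [zero_pow M.prime.ne_zero, zero_div, zero_sub, Valuation.map_neg, map_one] at h4
    exact absurd (M.val_lp_le (v.valuation F)) (not_le.mpr h4)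
  rw [← inv_mem_iff]
  refine ⟨(Units.mk0 y hy0)⁻¹, ?_⟩
  have e4 : ((a⁻¹ : Fˣ) : F) / (((Units.mk0 y hy0)⁻¹ : Fˣ) : F) ^ p - 1 = y ^ p / a - 1 := by
    rw [Units.val_inv_eq_inv_val, Units.val_inv_eq_inv_val, Units.val_mk0, inv_pow]
    field_simp
  rw [e4]
  exact h4

theorem local_norm_odd (M : Mu p F) (v : HeightOneSpectrum (𝓞 F)) (a b : Fˣ)
    (h : (v.adicCompletion F)[X])
    (hh : (X ^ p - C (algebraMap F (v.adicCompletion F) a)) ∣
      (∏ i ∈ Finset.range p, h.comp (C (algebraMap F (v.adicCompletion F) M.ζ ^ i) * X)) -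
        C (algebraMap F (v.adicCompletion F) b)) :
    b ∈ NF M a ⊔ LS M (v.valuation F) := by
  set K := v.adicCompletion F
  have hp := M.prime
  have ha0 : (a : F) ≠ 0 := a.ne_zero
  have hb0 : (b : F) ≠ 0 := b.ne_zero
  -- the norm form has the value `b`
  have h1 : ((M.map K).nf h).eval (algebraMap F K a) = algebraMap F K b := by
    obtain ⟨θ, hθ⟩ := IsAlgClosed.exists_pow_nat_eq (algebraMap K (AlgebraicClosure K)
      (algebraMap F K a)) hp.pos
    obtain ⟨r, hr⟩ := hh
    have h2 : (∏ i ∈ Finset.range p, h.comp (C (algebraMap F K M.ζ ^ i) * X)) =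
        expand K p ((M.map K).nf h) := by
      rw [(M.map K).expand_nf]; rfl
    rw [h2] at hr
    have h3 := congrArg (aeval θ) hr
    rw [map_sub, aeval_C, expand_aeval, map_mul, map_sub, aeval_X_pow, aeval_C, hθ, sub_self,
      zero_mul, sub_eq_zero, aeval_algebraMap_apply, coe_aeval_eq_eval] at h3
    exact (algebraMap K (AlgebraicClosure K)).injective h3
  -- approximation
  set N := h.natDegree + 1 with hN
  have hcont : Continuous fun c : Fin N → K =>
      ((M.map K).nf (∑ i : Fin N, C (c i) * X ^ (i : ℕ))).eval (algebraMap F K a) := by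
    apply CC.eval
    unfold Mu.nf Mu.cj
    exact (CC.prod _ fun i _ => CC.coords.rot _).contract hp.ne_zero
  have hdense : DenseRange fun c : Fin N → F => fun i => algebraMap F K (c i) := by
    have hd := HeightOneSpectrum.denseRange_algebraMap F v
    exact DenseRange.piMap fun _ => hd
  have hγ : v.valuation F (M.l ^ p) * v.valuation F (b : F) ≠ 0 :=
    mul_ne_zero (M.val_lp_ne _) ((Valuation.ne_zero_iff _).mpr hb0)
  have hopen : IsOpen {c : Fin N → K | Valued.v
      (((M.map K).nf (∑ i : Fin N, C (c i) * X ^ (i : ℕ))).eval (algebraMap F K a) -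
        algebraMap F K b) < v.valuation F (M.l ^ p) * v.valuation F (b : F)} := by
    exact (isOpen_val v _).preimage (hcont.sub continuous_const)
  obtain ⟨c, hc⟩ := hdense.exists_mem_open hopen ⟨fun i => h.coeff i, by
    have e1 : (∑ i : Fin N, C (h.coeff (i : ℕ)) * X ^ (i : ℕ)) = h := by
      rw [Fin.sum_univ_eq_sum_range (fun i => C (h.coeff i) * X ^ i) N, hN,
        ← as_sum_range_C_mul_X_pow]
    rw [Set.mem_ofPred_eq, e1, h1, sub_self, map_zero]
    exact zero_lt_iff.mpr hγ⟩
  have hc : Valued.v (((M.map K).nf (∑ i : Fin N, C (algebraMap F K (c i)) * X ^ (i : ℕ))).eval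
    (algebraMap F K a) - algebraMap F K b) < v.valuation F (M.l ^ p) * v.valuation F (b : F) := hc
  set g : F[X] := ∑ i : Fin N, C (c i) * X ^ (i : ℕ) with hg
  have e2 : (∑ i : Fin N, C (algebraMap F K (c i)) * X ^ (i : ℕ)) = g.map (algebraMap F K) := by
    rw [hg, Polynomial.map_sum]
    simp
  rw [e2, nf_map, eval_map, ← aeval_def, aeval_algebraMap_apply, coe_aeval_eq_eval, ← map_sub,
    Even.valued_alg] at hc
  set b' : F := (M.nf g).eval (a : F) with hb'
  have h5 : v.valuation F (b' / b - 1) < v.valuation F (M.l ^ p) := by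
    have e : b' / b - 1 = (b' - b) / b := by field_simp
    rw [e, map_div₀, div_lt_iff₀ (zero_lt_iff.mpr ((Valuation.ne_zero_iff _).mpr hb0))]
    exact hc
  have hb'0 : b' ≠ 0 := by
    intro h0
    rw [h0, zero_div, zero_sub, Valuation.map_neg, map_one] at h5
    exact absurd (M.val_lp_le (v.valuation F)) (not_le.mpr h5)
  have h6 : Units.mk0 b' hb'0 ∈ NF M a := ⟨g, rfl⟩
  have h7 : Units.mk0 b' hb'0 / b ∈ LS M (v.valuation F) := by
    apply LS_of_close
    rw [Units.val_div_eq_div_val]
    exact h5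
  have h8 : b = Units.mk0 b' hb'0 * (Units.mk0 b' hb'0 / b)⁻¹ := by
    rw [inv_div, mul_div_cancel]
  rw [h8]
  exact Subgroup.mul_mem_sup h6 (Subgroup.inv_mem _ h7)

/-! ### The case `p = 2` -/

/-- A square in the completion is a local square. -/
theorem not_sq (v : HeightOneSpectrum (𝓞 F)) (a : Fˣ)
    (ha : a ∉ Arith.LS (v.valuation F)) (c : v.adicCompletion F) :
    c ^ 2 ≠ algebraMap F (v.adicCompletion F) a := by
  intro hc
  apply ha
  have ha0 : (a : F) ≠ 0 := a.ne_zero
  have hc0 : c ≠ 0 := by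
    rintro rfl
    rw [zero_pow two_ne_zero] at hc
    exact ha0 ((algebraMap F (v.adicCompletion F)).injective (hc.symm.trans (map_zero _).symm))
  have hvc : Valued.v c ≠ (0 : Z0) := (Valuation.ne_zero_iff _).mpr hc0
  have hl : v.valuation F (4 : F) ≠ 0 := Arith.val_four_ne _
  obtain ⟨y, hy⟩ := Even.dense_val v c (v.valuation F 4 * Valued.v c) (mul_ne_zero hl hvc)
  set Y : v.adicCompletion F := algebraMap F _ y with hY
  have h2 : Valued.v (Y / c - 1) < v.valuation F 4 := by
    have e : Y / c - 1 = -((c - Y) / c) := by field_simp; ring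
    rw [e, Valuation.map_neg, map_div₀, div_lt_iff₀ (zero_lt_iff.mpr hvc)]
    exact hy
  have h3 : Valued.v (Y / c) ≤ (1 : Z0) := by
    have e : Y / c = (Y / c - 1) + 1 := by ring
    rw [e]
    exact Valuation.map_add_le _ (h2.le.trans (Arith.val_four_le _)) (by rw [map_one])
  have h4 : Valued.v ((Y / c) ^ 2 - 1) < v.valuation F 4 := by
    refine lt_of_le_of_lt ?_ h2
    have h5 := val_one_sub_pow_le (F := v.adicCompletion F) Valued.v h3 2
    rw [← Valuation.map_neg, neg_sub] at h5
    rwa [← Valuation.map_neg _ (Y / c - 1), neg_sub]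
  have e3 : (Y / c) ^ 2 - 1 = algebraMap F _ (y ^ 2 / a - 1) := by
    rw [div_pow, hc, map_sub, map_div₀, map_pow, map_one]
  rw [e3, Even.valued_alg] at h4
  have hy0 : y ≠ 0 := by
    rintro rfl
    rw [zero_pow two_ne_zero, zero_div, zero_sub, Valuation.map_neg, map_one] at h4
    exact absurd (Arith.val_four_le (v.valuation F)) (not_le.mpr h4)
  rw [← inv_mem_iff]
  refine ⟨(Units.mk0 y hy0)⁻¹, ?_⟩
  have e4 : ((a⁻¹ : Fˣ) : F) / (((Units.mk0 y hy0)⁻¹ : Fˣ) : F) ^ 2 - 1 = y ^ 2 / a - 1 := by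
    rw [Units.val_inv_eq_inv_val, Units.val_inv_eq_inv_val, Units.val_mk0, inv_pow]
    field_simp
  rw [e4]
  exact h4

/-- The values of the norm form of degree two. -/
theorem exists_two {K : Type} [Field K] {a b : K} (h : K[X])
    (hh : (X ^ 2 - C a) ∣ (∏ i ∈ Finset.range 2, h.comp (C ((-1) ^ i) * X)) - C b) :
    ∃ x y : K, b = x ^ 2 - a * y ^ 2 := by
  obtain ⟨θ, hθ⟩ := IsAlgClosed.exists_pow_nat_eq (algebraMap K (AlgebraicClosure K) a)
    (show 0 < 2 by norm_num)
  have hmon : (X ^ 2 - C a : K[X]).Monic := monic_X_pow_sub_C a two_ne_zero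
  set r := h %ₘ (X ^ 2 - C a) with hr
  have hdeg : r.degree < 2 := by
    have h1 := degree_modByMonic_lt h hmon
    rwa [degree_X_pow_sub_C (by norm_num)] at h1
  have hr1 : r = C (r.coeff 0) + C (r.coeff 1) * X := by
    replace hdeg : r.degree < ((2 : ℕ) : WithBot ℕ) := hdeg
    rw [degree_lt_iff_coeff_zero] at hdeg
    ext i
    rcases i with _ | _ | i
    · simp
    · simp [coeff_C]
    · rw [hdeg _ (by omega)]
      simp [coeff_C, coeff_X]
  have hroot : ∀ y : AlgebraicClosure K, y ^ 2 = algebraMap K _ a → aeval y h =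
      algebraMap K _ (r.coeff 0) + algebraMap K _ (r.coeff 1) * y := by
    intro y hy
    have h1 : h = (X ^ 2 - C a) * (h /ₘ (X ^ 2 - C a)) + r := by
      rw [hr, add_comm]
      exact (modByMonic_add_div h _).symm
    conv_lhs => rw [h1, hr1]
    simp [hy]
  refine ⟨r.coeff 0, r.coeff 1, ?_⟩
  obtain ⟨s, hs⟩ := hh
  have h3 := congrArg (aeval θ) hs
  rw [map_sub, aeval_C, map_mul, map_sub, aeval_X_pow, aeval_C, hθ, sub_self, zero_mul,
    sub_eq_zero, Finset.prod_range_succ, Finset.prod_range_one, map_mul, aeval_comp,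
    aeval_comp] at h3
  simp only [pow_zero, pow_one, one_mul, aeval_X, map_neg, map_one, neg_mul] at h3
  rw [hroot θ hθ, hroot (-θ) (by rw [neg_sq, hθ])] at h3
  apply (algebraMap K (AlgebraicClosure K)).injective
  rw [← h3, map_sub, map_mul, map_pow, map_pow, ← hθ]
  ring

theorem two_dvd {K : Type} [Field K] {a b x y : K} (hb : b = x ^ 2 - a * y ^ 2) :
    (X ^ 2 - C a) ∣ (∏ i ∈ Finset.range 2, (C x + C y * X).comp (C ((-1) ^ i) * X)) - C b := by
  refine ⟨-C (y ^ 2), ?_⟩
  rw [Finset.prod_range_succ, Finset.prod_range_one, hb]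
  simp only [pow_zero, pow_one, C_1, one_mul, comp_X, add_comp, mul_comp, C_comp, X_comp,
    C_sub, C_mul, C_pow, C_neg]
  ring

theorem local_norm_two (v : HeightOneSpectrum (𝓞 F)) (a b : Fˣ)
    (h : (v.adicCompletion F)[X])
    (hh : (X ^ 2 - C (algebraMap F (v.adicCompletion F) a)) ∣
      (∏ i ∈ Finset.range 2, h.comp (C ((-1) ^ i) * X)) -
        C (algebraMap F (v.adicCompletion F) b)) :
    b ∈ Arith.NF a ⊔ Arith.LS (v.valuation F) := by
  obtain ⟨x, y, hxy⟩ := exists_two h hh
  have hb0 : (b : F) ≠ 0 := b.ne_zero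
  have hcont : Continuous fun c : v.adicCompletion F × v.adicCompletion F =>
      c.1 ^ 2 - algebraMap F (v.adicCompletion F) a * c.2 ^ 2 := by fun_prop
  have hγ : v.valuation F 4 * v.valuation F (b : F) ≠ 0 :=
    mul_ne_zero (Arith.val_four_ne _) ((Valuation.ne_zero_iff _).mpr hb0)
  have hdense : DenseRange (Prod.map (algebraMap F (v.adicCompletion F))
      (algebraMap F (v.adicCompletion F))) :=
    (HeightOneSpectrum.denseRange_algebraMap F v).prodMap
      (HeightOneSpectrum.denseRange_algebraMap F v)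
  have hopen : IsOpen {c : v.adicCompletion F × v.adicCompletion F | Valued.v
      (c.1 ^ 2 - algebraMap F (v.adicCompletion F) a * c.2 ^ 2 -
        algebraMap F (v.adicCompletion F) b) < v.valuation F 4 * v.valuation F (b : F)} :=
    (isOpen_val v _).preimage (hcont.sub continuous_const)
  obtain ⟨⟨c, d⟩, hc⟩ := hdense.exists_mem_open hopen ⟨(x, y), by
    rw [Set.mem_ofPred_eq, ← hxy, sub_self, map_zero]
    exact zero_lt_iff.mpr hγ⟩
  have hc : Valued.v ((algebraMap F (v.adicCompletion F) c) ^ 2 -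
      algebraMap F (v.adicCompletion F) a * (algebraMap F (v.adicCompletion F) d) ^ 2 -
        algebraMap F (v.adicCompletion F) b) < v.valuation F 4 * v.valuation F (b : F) := hc
  rw [← map_pow, ← map_pow, ← map_mul, ← map_sub, ← map_sub, Even.valued_alg] at hc
  set b' : F := c ^ 2 - a * d ^ 2 with hb'
  have h5 : v.valuation F (b' / b - 1) < v.valuation F 4 := by
    have e : b' / b - 1 = (b' - b) / b := by field_simp
    rw [e, map_div₀, div_lt_iff₀ (zero_lt_iff.mpr ((Valuation.ne_zero_iff _).mpr hb0))]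
    exact hc
  have hb'0 : b' ≠ 0 := by
    intro h0
    rw [h0, zero_div, zero_sub, Valuation.map_neg, map_one] at h5
    exact absurd (Arith.val_four_le (v.valuation F)) (not_le.mpr h5)
  have h6 : Units.mk0 b' hb'0 ∈ Arith.NF a := ⟨c, d, rfl⟩
  have h7 : Units.mk0 b' hb'0 / b ∈ Arith.LS (v.valuation F) := by
    apply Arith.LS_of_close
    rw [Units.val_div_eq_div_val]
    exact h5
  have h8 : b = Units.mk0 b' hb'0 * (Units.mk0 b' hb'0 / b)⁻¹ := by
    rw [inv_div, mul_div_cancel]
  rw [h8]
  exact Subgroup.mul_mem_sup h6 (Subgroup.inv_mem _ h7)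

/-- The Hasse norm theorem for symbols. -/
theorem hasse_symbol (hp : p.Prime) {ζ : F} (hζ : IsPrimitiveRoot ζ p) (a b : Fˣ)
    (hfin : ∀ v : HeightOneSpectrum (𝓞 F),
      (∀ c : v.adicCompletion F, c ^ p ≠ algebraMap F (v.adicCompletion F) a) →
      ∃ h : (v.adicCompletion F)[X], (X ^ p - C (algebraMap F (v.adicCompletion F) a)) ∣
      (∏ i ∈ Finset.range p, h.comp (C (algebraMap F (v.adicCompletion F) ζ ^ i) * X)) -
        C (algebraMap F (v.adicCompletion F) b))
    (hreal : p = 2 → ∀ φ : F →+* ℝ, (∀ c : ℝ, c ^ p ≠ φ a) →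
      ∃ h : ℝ[X], (X ^ p - C (φ a)) ∣
      (∏ i ∈ Finset.range p, h.comp (C (φ ζ ^ i) * X)) - C (φ b)) :
    ∃ h : F[X], (X ^ p - C (a : F)) ∣
      (∏ i ∈ Finset.range p, h.comp (C (ζ ^ i) * X)) - C (b : F) := by
  by_cases hp2 : p = 2
  · subst hp2
    have hζ1 : ζ = -1 := by
      have := hζ.eq_neg_one_of_two_right
      exact this
    subst hζ1
    have h1 : b ∈ Arith.NF a := by
      apply Arith.hasse_norm
      rintro (v | φ)
      · change b ∈ Arith.NF a ⊔ Arith.LS (v.valuation F)
        by_cases ha : a ∈ Arith.LS (v.valuation F)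
        · rw [Arith.NF_sup_of_mem' a ha]
          exact Subgroup.mem_top b
        · obtain ⟨h, hh⟩ := hfin v (not_sq v a ha)
          refine local_norm_two v a b h ?_
          simpa only [map_neg, map_one] using hh
      · change b ∈ Arith.NF a ⊔ Arith.LSR φ
        by_cases ha : 0 < φ a
        · have hidx := Arith.index_LSR φ
          have h2 : (-a : Fˣ) ∈ Arith.NF a := ⟨0, 1, by simp⟩
          have h3 : (-a : Fˣ) ∉ Arith.LSR φ := by
            intro h
            have : 0 < φ ((-a : Fˣ) : F) := h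
            rw [Units.val_neg, map_neg] at this
            linarith
          by_cases hb : b ∈ Arith.LSR φ
          · exact Subgroup.mem_sup_right hb
          · have h4 : b = (-a) * ((-a)⁻¹ * b) := by group
            rw [h4]
            refine Subgroup.mul_mem_sup h2 ?_
            rw [Arith.notMem_LSR] at hb h3
            have h5 : (-a : Fˣ) * b ∈ Arith.LSR φ := by
              change 0 < φ (((-a : Fˣ) * b : Fˣ) : F)
              rw [Units.val_mul, map_mul]
              exact mul_pos_of_neg_of_neg h3 hb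
            have h6 : (-a : Fˣ)⁻¹ * b = ((-a : Fˣ)⁻¹) ^ 2 * ((-a : Fˣ) * b) := by
              rw [pow_two]; group
            rw [h6]
            exact Subgroup.mul_mem _ (Arith.Sq_le_LSR φ ⟨_, rfl⟩) h5
        · have ha' : φ a < 0 := lt_of_le_of_ne (not_lt.mp ha)
            ((_root_.map_ne_zero φ).mpr a.ne_zero)
          obtain ⟨h, hh⟩ := hreal rfl φ (fun c hc => by nlinarith [sq_nonneg c])
          obtain ⟨x, y, hxy⟩ := exists_two (K := ℝ) h (by simpa only [map_neg, map_one] using hh)
          apply Subgroup.mem_sup_right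
          change 0 < φ b
          refine lt_of_le_of_ne ?_ ((_root_.map_ne_zero φ).mpr b.ne_zero).symm
          rw [hxy]
          nlinarith [sq_nonneg x, sq_nonneg y, mul_nonneg (neg_nonneg.mpr ha'.le) (sq_nonneg y)]
    obtain ⟨x, y, hxy⟩ := h1
    exact ⟨C x + C y * X, two_dvd hxy⟩
  · let M : Mu p F := ⟨ζ, hζ, hp, hp2⟩
    have h1 : b ∈ NF M a := by
      apply hasse_norm
      intro v
      by_cases ha : a ∈ LS M (v.valuation F)
      · rw [NF_sup_of_mem ha]
        exact Subgroup.mem_top b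
      · obtain ⟨h, hh⟩ := hfin v (not_pow M v a ha)
        exact local_norm_odd M v a b h hh
    obtain ⟨h, hh⟩ := h1
    refine ⟨h, ?_⟩
    have h2 : (∏ i ∈ Finset.range p, h.comp (C (ζ ^ i) * X)) = expand F p (M.nf h) := by
      rw [M.expand_nf]; rfl
    have h3 : (X - C (a : F)) ∣ M.nf h - C (b : F) := by
      rw [dvd_iff_isRoot, IsRoot, eval_sub, eval_C, hh, sub_self]
    obtain ⟨r, hr⟩ := h3
    refine ⟨expand F p r, ?_⟩
    rw [h2, ← expand_C p (b : F), ← map_sub, hr, map_mul, map_sub, expand_X, expand_C]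

end Vale.Agent.P011.W
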