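import Vale.Agent.P011S.Defs2

/-!
The group generated by the symmetric elements of a division algebra with involution of the second
kind contains all commutators.
-/

set_option linter.unusedSectionVars false
set_option linter.unusedSimpArgs false

open Matrix Module

namespace Vale.Agent.P011.W

open Vale.Agent.P011S

section

variable {D : Type} [DivisionRing D] [StarRing D]

/-- The group generated by the nonzero symmetric elements. -/
def symGroup (D : Type) [DivisionRing D] [StarRing D] : Subgroup Dˣ :=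
  Subgroup.closure {u : Dˣ | star (u : D) = u}

theorem mem_symGroup {s : D} (hs : s ≠ 0) (h : star s = s) : Units.mk0 s hs ∈ symGroup D :=
  Subgroup.subset_closure h

theorem conj_mem_symGroup (u g : Dˣ) (hu : star (u : D) = u) : g * u * g⁻¹ ∈ symGroup D := by
  have hg : star (g : D) ≠ 0 := star_ne_zero.mpr g.ne_zero
  have h1 : g * u * Units.mk0 (star (g : D)) hg ∈ symGroup D := by
    apply Subgroup.subset_closure
    change star ((g : D) * u * star (g : D)) = (g : D) * u * star (g : D)
    rw [star_mul, star_mul, star_star, hu, mul_assoc]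
  have h2 : g * Units.mk0 (star (g : D)) hg ∈ symGroup D := by
    apply Subgroup.subset_closure
    change star ((g : D) * star (g : D)) = (g : D) * star (g : D)
    rw [star_mul, star_star]
  have h3 : g * u * g⁻¹ = (g * u * Units.mk0 (star (g : D)) hg) *
      (g * Units.mk0 (star (g : D)) hg)⁻¹ := by
    group
  rw [h3]
  exact mul_mem h1 (inv_mem h2)

instance symGroup_normal : (symGroup D).Normal := by
  refine ⟨fun n hn g => ?_⟩
  induction hn using Subgroup.closure_induction with
  | mem x hx => exact conj_mem_symGroup x g hx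
  | one => rw [mul_one, mul_inv_cancel]; exact one_mem _
  | mul x y _ _ hx hy =>
    have h : g * (x * y) * g⁻¹ = (g * x * g⁻¹) * (g * y * g⁻¹) := by group
    rw [h]
    exact mul_mem hx hy
  | inv x _ hx =>
    have h : g * x⁻¹ * g⁻¹ = (g * x * g⁻¹)⁻¹ := by group
    rw [h]
    exact inv_mem hx

/-- The rational space of symmetric elements. -/
def symSpace (D : Type) [DivisionRing D] [StarRing D] [CharZero D] : Submodule ℚ D where
  carrier := {x | star x = x}
  add_mem' := by
    intro a b ha hb
    change star (a + b) = a + b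
    rw [star_add, show star a = a from ha, show star b = b from hb]
  zero_mem' := star_zero D
  smul_mem' := by
    intro q x hx
    change star (q • x) = q • x
    have h : star (q • x) = q • star x := map_rat_smul (starAddEquiv (R := D)) q x
    rw [h, show star x = x from hx]

theorem mem_symSpace [CharZero D] {x : D} : x ∈ symSpace D ↔ star x = x := Iff.rfl

/-- The map `(s, t) ↦ s + a t` on pairs of symmetric elements. -/
def pairMap [CharZero D] (a : D) : (symSpace D × symSpace D) →ₗ[ℚ] D :=
  (symSpace D).subtype.comp (LinearMap.fst ℚ _ _) +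
    ((LinearMap.mulLeft ℚ a).comp (symSpace D).subtype).comp (LinearMap.snd ℚ _ _)

theorem pairMap_apply [CharZero D] (a : D) (z : symSpace D × symSpace D) :
    pairMap a z = (z.1 : D) + a * z.2 := rfl

theorem finrank_pair [CharZero D] [FiniteDimensional ℚ D] {θ : D} (hθ0 : θ ≠ 0)
    (hθ : ∀ x, x * θ = θ * x) (hθs : star θ = -θ) :
    finrank ℚ (symSpace D × symSpace D) = finrank ℚ D := by
  have h2 : (2 : D) ≠ 0 := two_ne_zero
  refine (LinearEquiv.ofBijective (pairMap θ) ⟨?_, ?_⟩).finrank_eq
  · rw [← LinearMap.ker_eq_bot, LinearMap.ker_eq_bot']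
    rintro ⟨⟨s, hs⟩, ⟨t, ht⟩⟩ h
    rw [pairMap_apply] at h
    change s + θ * t = 0 at h
    rw [mem_symSpace] at hs ht
    have h1 := congrArg star h
    rw [star_add, star_mul, hs, ht, hθs, star_zero, mul_neg, hθ] at h1
    have h3 : (2 : D) * s = 0 := by
      calc (2 : D) * s = (s + θ * t) + (s + -(θ * t)) := by rw [two_mul]; abel
        _ = 0 := by rw [h, h1, add_zero]
    have h4 : s = 0 := (mul_eq_zero.mp h3).resolve_left h2
    have h5 : t = 0 := by
      rw [h4, zero_add] at h
      exact (mul_eq_zero.mp h).resolve_left hθ0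
    subst h4
    subst h5
    rfl
  · intro x
    have hc : Commute (2 : D) θ := by
      change (2 : D) * θ = θ * 2
      rw [hθ]
    refine ⟨⟨⟨(x + star x) / 2, ?_⟩, ⟨θ⁻¹ * ((x - star x) / 2), ?_⟩⟩, ?_⟩
    · rw [mem_symSpace, div_eq_mul_inv, star_mul, star_add, star_star, star_inv₀]
      have : star (2 : D) = 2 := star_ofNat 2
      rw [this, add_comm (star x) x]
      exact ((Commute.ofNat_left 2 (x + star x)).inv_left₀).eq
    · rw [mem_symSpace, star_mul, div_eq_mul_inv, star_mul, star_sub, star_star, star_inv₀,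
        star_inv₀, hθs]
      have h3 : star (2 : D) = 2 := star_ofNat 2
      rw [h3]
      have h4 : (2 : D)⁻¹ * (star x - x) = (star x - x) * 2⁻¹ :=
        ((Commute.ofNat_left 2 (star x - x)).inv_left₀).eq
      have h5 : ∀ y : D, y * θ⁻¹ = θ⁻¹ * y := fun y =>
        (Commute.inv_right₀ (show Commute y θ from hθ y)).eq
      rw [h4, inv_neg, mul_neg, h5, ← mul_neg, ← neg_mul, neg_sub]
    · rw [pairMap_apply]
      change (x + star x) / 2 + θ * (θ⁻¹ * ((x - star x) / 2)) = x
      rw [mul_inv_cancel_left₀ hθ0, ← add_div, add_add_sub_cancel, ← two_mul, mul_div_assoc,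
        ((Commute.ofNat_left 2 (x / 2)).eq), div_mul_cancel₀ _ h2]

theorem exists_pair [CharZero D] [FiniteDimensional ℚ D] {θ : D} (hθ0 : θ ≠ 0)
    (hθ : ∀ x, x * θ = θ * x) (hθs : star θ = -θ) {a : D} (ha : a ≠ 0)
    (hno : ∀ s t : D, star s = s → star t = t → s = a * t → s = 0) (b : D) :
    ∃ s t : D, star s = s ∧ star t = t ∧ b = s + a * t := by
  have hinj : Function.Injective (pairMap a) := by
    rw [← LinearMap.ker_eq_bot, LinearMap.ker_eq_bot']
    rintro ⟨⟨s, hs⟩, ⟨t, ht⟩⟩ h
    rw [pairMap_apply] at h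
    change s + a * t = 0 at h
    rw [mem_symSpace] at hs ht
    have h1 : s = 0 := hno s (-t) hs (by rw [star_neg, ht])
      (by rw [mul_neg]; exact eq_neg_of_add_eq_zero_left h)
    have h2 : t = 0 := by
      rw [h1, zero_add] at h
      exact (mul_eq_zero.mp h).resolve_left ha
    subst h1
    subst h2
    rfl
  have hsurj := (LinearMap.injective_iff_surjective_of_finrank_eq_finrank
    (finrank_pair hθ0 hθ hθs)).mp hinj
  obtain ⟨z, hz⟩ := hsurj b
  exact ⟨z.1, z.2, z.1.2, z.2.2, by rw [← hz, pairMap_apply]⟩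

/-- The quotient by the group generated by the symmetric elements is commutative. -/
theorem mk_comm [CharZero D] [FiniteDimensional ℚ D] {θ : D} (hθ0 : θ ≠ 0)
    (hθ : ∀ x, x * θ = θ * x) (hθs : star θ = -θ) (a b : Dˣ) :
    (QuotientGroup.mk' (symGroup D) a) * (QuotientGroup.mk' (symGroup D) b) =
      (QuotientGroup.mk' (symGroup D) b) * (QuotientGroup.mk' (symGroup D) a) := by
  set q := QuotientGroup.mk' (symGroup D) with hq
  have hq1 : ∀ u ∈ symGroup D, q u = 1 := fun u hu => by
    rw [hq, QuotientGroup.mk'_apply, QuotientGroup.eq_one_iff]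
    exact hu
  have hqs : ∀ (s : D) (hs : s ≠ 0), star s = s → q (Units.mk0 s hs) = 1 :=
    fun s hs h => hq1 _ (mem_symGroup hs h)
  by_cases hno : ∀ s t : D, star s = s → star t = t → s = (a : D) * t → s = 0
  · obtain ⟨s, t, hs, ht, hb⟩ := exists_pair hθ0 hθ hθs a.ne_zero hno (b : D)
    by_cases ht0 : t = 0
    · have h1 : q b = 1 := by
        apply hq1
        apply Subgroup.subset_closure
        change star (b : D) = b
        rw [hb, ht0, mul_zero, add_zero, hs]
      rw [h1, mul_one, one_mul]
    · by_cases hs0 : s = 0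
      · have h1 : b = a * Units.mk0 t ht0 := by
          apply Units.ext
          rw [Units.val_mul, Units.val_mk0, hb, hs0, zero_add]
        rw [h1, map_mul, hqs t ht0 ht, mul_one]
      · set c : Dˣ := Units.mk0 s hs0 * (Units.mk0 t ht0)⁻¹ with hc
        have hc1 : q c = 1 := by
          rw [hc, map_mul, map_inv, hqs s hs0 hs, hqs t ht0 ht, inv_one, mul_one]
        have h1 : (b : D) = c * (1 + ((c⁻¹ * a : Dˣ) : D)) * t := by
          have h2 : (c : D) * t = s := by
            rw [hc]
            rw [Units.val_mul, Units.val_mk0, Units.val_inv_eq_inv_val, Units.val_mk0,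
              inv_mul_cancel_right₀ ht0]
          have h3 : (c : D) * ((c⁻¹ * a : Dˣ) : D) = a := by
            rw [← Units.val_mul, mul_inv_cancel_left]
          rw [mul_add, mul_one, h3, add_mul, h2, hb]
        have h4 : (1 : D) + ((c⁻¹ * a : Dˣ) : D) ≠ 0 := by
          intro h0
          rw [h0, mul_zero, zero_mul] at h1
          exact b.ne_zero h1
        have h5 : b = c * Units.mk0 _ h4 * Units.mk0 t ht0 := Units.ext h1
        have h6 : q b = q (Units.mk0 _ h4) := by
          conv_lhs => rw [h5]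
          rw [map_mul, map_mul, hc1, one_mul, hqs t ht0 ht, mul_one]
        have h7 : q a = q (c⁻¹ * a) := by
          rw [map_mul, map_inv, hc1, inv_one, one_mul]
        rw [h6, h7, ← map_mul, ← map_mul]
        congr 1
        apply Units.ext
        change ((c⁻¹ * a : Dˣ) : D) * (1 + ((c⁻¹ * a : Dˣ) : D)) =
          (1 + ((c⁻¹ * a : Dˣ) : D)) * ((c⁻¹ * a : Dˣ) : D)
        rw [mul_add, add_mul, mul_one, one_mul]
  · push Not at hno
    obtain ⟨s, t, hs, ht, hst, hs0⟩ := hno
    have ht0 : t ≠ 0 := by
      rintro rfl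
      exact hs0 (by rw [hst, mul_zero])
    have h1 : q a = 1 := by
      have h2 : a = Units.mk0 s hs0 * (Units.mk0 t ht0)⁻¹ := by
        apply Units.ext
        rw [Units.val_mul, Units.val_mk0, Units.val_inv_eq_inv_val, Units.val_mk0, hst,
          mul_inv_cancel_right₀ ht0]
      rw [h2, map_mul, map_inv, hqs s hs0 hs, hqs t ht0 ht, inv_one, mul_one]
    rw [h1, mul_one, one_mul]

end

section

variable {K D F : Type} [Field K] [StarRing K] [DivisionRing D] [StarRing D] [Algebra K D]
  [StarModule K D] [Field F] [Algebra K F]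

theorem exists_skew (hne : ∃ k : K, star k ≠ k) :
    ∃ θ : D, θ ≠ 0 ∧ (∀ x, x * θ = θ * x) ∧ star θ = -θ := by
  obtain ⟨k, hk⟩ := hne
  refine ⟨algebraMap K D (k - star k), ?_, ?_, ?_⟩
  · rw [Ne, map_eq_zero]
    exact sub_ne_zero.mpr (Ne.symm hk)
  · intro x
    exact (Algebra.commutes _ x).symm
  · rw [← algebraMap_star_comm, star_sub, star_star, ← map_neg, neg_sub]

/-- The statement that every homomorphism to a commutative group which kills all symmetric
elements kills all elements with symmetric reduced norm. -/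
def Kills {d : ℕ} (f : D →ₐ[K] Matrix (Fin d) (Fin d) F) : Prop :=
  ∀ (A : Type) [CommGroup A] (F0 : D → A)
    (_ : ∀ a b : D, a ≠ 0 → b ≠ 0 → F0 (a * b) = F0 a * F0 b)
    (_ : ∀ s : D, s ≠ 0 → star s = s → F0 s = 1) (Z : D), Z ≠ 0 →
    (f (star Z)).det = (f Z).det → F0 Z = 1

variable [CharZero D] [FiniteDimensional ℚ D] {d : ℕ} (f : D →ₐ[K] Matrix (Fin d) (Fin d) F)

/-- Elements with symmetric reduced norm are products of symmetric elements and inverses. -/
theorem mem_of_kills (hne : ∃ k : K, star k ≠ k) (hkill : Kills f) {Z : D} (hZ : Z ≠ 0)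
    (h : (f (star Z)).det = (f Z).det) : Units.mk0 Z hZ ∈ symGroup D := by
  classical
  obtain ⟨θ, hθ0, hθ, hθs⟩ := exists_skew (D := D) hne
  let _ : CommGroup (Dˣ ⧸ symGroup D) :=
    { (inferInstance : Group (Dˣ ⧸ symGroup D)) with
      mul_comm := by
        intro a b
        induction a using QuotientGroup.induction_on with | _ a
        induction b using QuotientGroup.induction_on with | _ b
        exact mk_comm hθ0 hθ hθs a b }
  have h1 := hkill (Dˣ ⧸ symGroup D)
    (fun x => if hx : x = 0 then 1 else QuotientGroup.mk' (symGroup D) (Units.mk0 x hx))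
    (by
      intro a b ha hb
      rw [dif_neg ha, dif_neg hb, dif_neg (mul_ne_zero ha hb)]
      rw [Units.mk0_mul]
      exact map_mul (QuotientGroup.mk' (symGroup D)) (Units.mk0 a ha) (Units.mk0 b hb))
    (by
      intro s hs hss
      rw [dif_neg hs]
      exact (QuotientGroup.eq_one_iff _).mpr (mem_symGroup hs hss)) Z hZ h
  rw [dif_neg hZ] at h1
  exact (QuotientGroup.eq_one_iff _).mp h1

theorem eq_one_of_kills (hne : ∃ k : K, star k ≠ k) (hkill : Kills f) {G : Type} [Group G]
    (hG : IsQuotientOfSUK f G) (g : G) : g = 1 := by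
  obtain ⟨π, hmul, hsurj, hsym⟩ := hG
  obtain ⟨Z, ⟨hZ0, hZ⟩, rfl⟩ := hsurj g
  have h0 : ∀ u : Dˣ, u ∈ symGroup D → (u : D) ∈ SigmaPrime f ∧ π (u : D) = 1 := by
    have hin : ∀ u : Dˣ, (u : D) ∈ SigmaPrime f → ((u⁻¹ : Dˣ) : D) ∈ SigmaPrime f := by
      intro u hu
      refine ⟨(u⁻¹).ne_zero, ?_⟩
      have h2 : (f (star ((u⁻¹ : Dˣ) : D))).det * (f (star (u : D))).det = 1 := by
        rw [← Matrix.det_mul, ← map_mul, ← star_mul, Units.mul_inv, star_one, map_one,
          Matrix.det_one]
      have h3 : (f ((u⁻¹ : Dˣ) : D)).det * (f (u : D)).det = 1 := by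
        rw [← Matrix.det_mul, ← map_mul, Units.inv_mul, map_one, Matrix.det_one]
      rw [hu.2] at h2
      exact mul_right_cancel₀ (right_ne_zero_of_mul_eq_one h3) (h2.trans h3.symm)
    have hm : ∀ u v : Dˣ, (u : D) ∈ SigmaPrime f → (v : D) ∈ SigmaPrime f →
        ((u * v : Dˣ) : D) ∈ SigmaPrime f := by
      intro u v hu hv
      refine ⟨(u * v).ne_zero, ?_⟩
      rw [Units.val_mul, star_mul, map_mul, map_mul, Matrix.det_mul, Matrix.det_mul, hu.2, hv.2,
        mul_comm]
    have hone : π (1 : D) = 1 := hsym 1 one_ne_zero (star_one D)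
    intro u hu
    induction hu using Subgroup.closure_induction with
    | mem x hx =>
      have hx' : star (x : D) = x := hx
      exact ⟨⟨x.ne_zero, by rw [hx']⟩, hsym _ x.ne_zero hx'⟩
    | one => exact ⟨⟨one_ne_zero, by rw [Units.val_one, star_one]⟩, by rw [Units.val_one, hone]⟩
    | mul x y _ _ hx hy =>
      refine ⟨hm x y hx.1 hy.1, ?_⟩
      rw [Units.val_mul, hmul _ hx.1 _ hy.1, hx.2, hy.2, mul_one]
    | inv x _ hx =>
      refine ⟨hin x hx.1, ?_⟩
      have h2 := hmul _ hx.1 _ (hin x hx.1)
      rw [Units.mul_inv, hone, hx.2, one_mul] at h2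
      exact h2.symm
  exact (h0 _ (mem_of_kills f hne hkill hZ0 hZ)).2

end

end Vale.Agent.P011.W
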