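import Vale.Agent.P011.RP.FinalAll
import Vale.Agent.P011.W.Top

/-!
The special unitary group of an anisotropic hermitian form of rank at least four: the normal
subgroups, given that the reduced unitary Whitehead group is trivial.
-/

open Module Matrix

namespace Vale.Agent.P011.W

open Vale.Agent.P011S

variable {K D : Type} [Field K] [NumberField K] [StarRing K] [DivisionRing D] [StarRing D]
  [Algebra K D] [StarModule K D] [FiniteDimensional K D] [Algebra.IsCentral K D]

theorem top_of_kills (hK : ∃ k : K, star k ≠ k) {n : ℕ}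
    {F : Type} [Field F] [Algebra K F] (f : D →ₐ[K] Matrix (Fin n) (Fin n) F)
    (hkill : Kills f) {m : ℕ} (H : Matrix (Fin m) (Fin m) D)
    (N : Subgroup (SU f H)) [N.Normal] (hN : IsQuotientOfSUK f (SU f H ⧸ N)) : N = ⊤ := by
  have hchar : CharZero D := charZero_of_injective_algebraMap (algebraMap K D).injective
  have hfin : FiniteDimensional ℚ D := FiniteDimensional.trans ℚ K D
  rw [eq_top_iff]
  intro x _
  have h := eq_one_of_kills f hK hkill hN (QuotientGroup.mk x)
  exact (QuotientGroup.eq_one_iff x).mp h

/-- Normal subgroups, given that the reduced unitary Whitehead group is trivial. -/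
theorem normal_of_kills (hK : ∃ k : K, star k ≠ k) {n : ℕ} (hn : 0 < n)
    (hdeg : finrank K D = n ^ 2)
    {F : Type} [Field F] [Algebra K F] (f : D →ₐ[K] Matrix (Fin n) (Fin n) F)
    (hkill : Kills f) {m : ℕ} (hm : 4 ≤ m) (H : Matrix (Fin m) (Fin m) D)
    (hH : IsAnisotropicForm H) (N : Subgroup (SU f H)) [N.Normal] :
    N ≤ Subgroup.center (SU f H) ∨ N = ⊤ := by
  rcases RP.normal_every hK hn hdeg f hm H hH N with h | ⟨_, h, _⟩
  · exact Or.inl h
  · exact Or.inr (top_of_kills hK f hkill H N h)

end Vale.Agent.P011.W
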