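import Mathlib

/-!
Roots of polynomials over complete ultrametric fields.
-/

open Polynomial

namespace Vale.Agent.P011.W

variable {R : Type} [NormedField R] [IsUltrametricDist R]

theorem norm_pow_sub_le {x y : R} {ρ : ℝ} (hx : ‖x‖ ≤ ρ) (hy : ‖y‖ ≤ ρ) (hρ : ρ ≤ 1) {n : ℕ}
    (hn : 2 ≤ n) : ‖x ^ n - y ^ n‖ ≤ ρ * ‖x - y‖ := by
  have hρ0 : 0 ≤ ρ := (norm_nonneg x).trans hx
  rw [← geom_sum₂_mul, norm_mul]
  gcongr
  apply IsUltrametricDist.norm_sum_le_of_forall_le_of_nonneg hρ0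
  intro i hi
  have hi' : i < n := Finset.mem_range.mp hi
  rw [norm_mul, norm_pow, norm_pow]
  calc ‖x‖ ^ i * ‖y‖ ^ (n - 1 - i) ≤ ρ ^ i * ρ ^ (n - 1 - i) := by gcongr
    _ = ρ ^ (n - 1) := by rw [← pow_add]; congr 1; omega
    _ ≤ ρ ^ 1 := pow_le_pow_of_le_one hρ0 hρ (by omega)
    _ = ρ := pow_one ρ

/-- Newton's lemma. -/
theorem exists_root [CompleteSpace R] (g : R[X]) (θ : R) {M : ℝ}
    (hb : ∀ k, ‖(taylor θ g).coeff k‖ ≤ M) (h : M * ‖g.eval θ‖ < ‖g.derivative.eval θ‖ ^ 2) :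
    ∃ x, g.eval x = 0 := by
  set a := g.derivative.eval θ with ha
  have haM : ‖a‖ ≤ M := by
    have := hb 1
    rwa [taylor_coeff_one] at this
  have hM0 : 0 ≤ M := (norm_nonneg _).trans haM
  have ha0 : a ≠ 0 := by
    intro h0
    rw [h0, norm_zero, zero_pow two_ne_zero] at h
    exact absurd h (not_lt.mpr (by positivity))
  have hapos : 0 < ‖a‖ := norm_pos_iff.mpr ha0
  have hMpos : 0 < M := hapos.trans_le haM
  set ρ := ‖g.eval θ‖ / ‖a‖ with hρ
  have hρ0 : 0 ≤ ρ := by positivity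
  have hκ : M * ρ / ‖a‖ < 1 := by
    rw [hρ, div_lt_one hapos, ← mul_div_assoc, div_lt_iff₀ hapos, ← pow_two]
    exact h
  have hρ1 : ρ ≤ 1 := by
    by_contra hcon
    rw [not_le] at hcon
    have h1 : ‖a‖ / ‖a‖ ≤ M * ρ / ‖a‖ := by
      gcongr
      calc ‖a‖ = ‖a‖ * 1 := (mul_one _).symm
        _ ≤ M * ρ := by gcongr
    rw [div_self hapos.ne'] at h1
    exact absurd (h1.trans_lt hκ) (lt_irrefl _)
  have key : ∀ x y : R, ‖x - θ‖ ≤ ρ → ‖y - θ‖ ≤ ρ →
      ‖g.eval x - g.eval y - a * (x - y)‖ ≤ M * ρ * ‖x - y‖ := by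
    intro x y hx hy
    have e1 : ∀ x : R, g.eval x = ∑ k ∈ Finset.range (g.natDegree + 2),
        (taylor θ g).coeff k * (x - θ) ^ k := by
      intro x
      have h1 : g.eval x = (taylor θ g).eval (x - θ) := by rw [taylor_eval, sub_add_cancel]
      rw [h1, eval_eq_sum_range' (n := g.natDegree + 2)]
      rw [natDegree_taylor]
      omega
    have e2 : g.eval x - g.eval y - a * (x - y) = ∑ k ∈ Finset.range g.natDegree,
        (taylor θ g).coeff (k + 2) * ((x - θ) ^ (k + 2) - (y - θ) ^ (k + 2)) := by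
      rw [e1 x, e1 y, Finset.sum_range_succ', Finset.sum_range_succ', Finset.sum_range_succ',
        Finset.sum_range_succ', ]
      simp only [mul_sub, Finset.sum_sub_distrib, zero_add, pow_one, pow_zero, taylor_coeff_one,
        ← ha]
      ring
    rw [e2]
    apply IsUltrametricDist.norm_sum_le_of_forall_le_of_nonneg (by positivity)
    intro k _
    rw [norm_mul, mul_assoc]
    have h2 := norm_pow_sub_le hx hy hρ1 (n := k + 2) (by omega)
    rw [sub_sub_sub_cancel_right] at h2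
    gcongr
    exact hb _
  let Φ : R → R := fun x => x - g.eval x / a
  have hΦ : ∀ x y : R, ‖x - θ‖ ≤ ρ → ‖y - θ‖ ≤ ρ → ‖Φ x - Φ y‖ ≤ M * ρ / ‖a‖ * ‖x - y‖ := by
    intro x y hx hy
    have e3 : Φ x - Φ y = -((g.eval x - g.eval y - a * (x - y)) / a) := by
      simp only [Φ]
      field_simp
      ring
    rw [e3, norm_neg, norm_div, div_le_iff₀ hapos]
    calc _ ≤ M * ρ * ‖x - y‖ := key x y hx hy
      _ = M * ρ / ‖a‖ * ‖x - y‖ * ‖a‖ := by field_simp
  have hΦθ : ‖Φ θ - θ‖ ≤ ρ := by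
    have : Φ θ - θ = -(g.eval θ / a) := by
      simp only [Φ]
      ring
    rw [this, norm_neg, norm_div]
  have hmaps : Set.MapsTo Φ (Metric.closedBall θ ρ) (Metric.closedBall θ ρ) := by
    intro x hx
    rw [Metric.mem_closedBall, dist_eq_norm] at hx ⊢
    have e4 : Φ x - θ = (Φ x - Φ θ) + (Φ θ - θ) := by ring
    rw [e4]
    refine (IsUltrametricDist.norm_add_le_max _ _).trans (max_le ?_ hΦθ)
    refine (hΦ x θ hx (by simpa using hρ0)).trans ?_
    calc _ ≤ 1 * ‖x - θ‖ := by gcongr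
      _ ≤ ρ := by rw [one_mul]; exact hx
  have hκ0 : 0 ≤ M * ρ / ‖a‖ := by positivity
  obtain ⟨y, hy, hfix, -⟩ := ContractingWith.exists_fixedPoint'
    (K := ⟨M * ρ / ‖a‖, hκ0⟩) (Metric.isClosed_closedBall (x := θ) (ε := ρ)).isComplete hmaps
    ⟨by exact_mod_cast hκ, LipschitzWith.of_dist_le_mul (by
      rintro ⟨x, hx⟩ ⟨y, hy⟩
      rw [Metric.mem_closedBall, dist_eq_norm] at hx hy
      rw [Subtype.dist_eq, Subtype.dist_eq, dist_eq_norm, dist_eq_norm]
      exact hΦ x y hx hy)⟩ (Metric.mem_closedBall_self hρ0) (edist_ne_top _ _)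
  refine ⟨y, ?_⟩
  have h3 : y - g.eval y / a = y := hfix
  have h4 : g.eval y / a = 0 := by linear_combination -h3
  rcases div_eq_zero_iff.mp h4 with h5 | h5
  · exact h5
  · exact absurd h5 ha0

/-- Bound of the values of a polynomial. -/
theorem norm_eval_le (g : R[X]) {θ : R} {T C : ℝ} (hT : 1 ≤ T) (hθ : ‖θ‖ ≤ T)
    (hC : ∀ i, ‖g.coeff i‖ ≤ C) {n : ℕ} (hn : g.natDegree ≤ n) : ‖g.eval θ‖ ≤ C * T ^ n := by
  have hC0 : 0 ≤ C := (norm_nonneg _).trans (hC 0)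
  have hT0 : 0 ≤ T := zero_le_one.trans hT
  rw [eval_eq_sum_range]
  apply IsUltrametricDist.norm_sum_le_of_forall_le_of_nonneg (by positivity)
  intro i hi
  have hi' : i ≤ n := (Nat.lt_succ_iff.mp (Finset.mem_range.mp hi)).trans hn
  rw [norm_mul, norm_pow]
  calc _ ≤ C * T ^ i := by gcongr; exact hC i
    _ ≤ C * T ^ n := by gcongr

omit [IsUltrametricDist R] in
theorem norm_natCast_le [IsUltrametricDist R] (n : ℕ) : ‖(n : R)‖ ≤ 1 :=
  IsUltrametricDist.norm_natCast_le_one R n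

/-- Bound of the Taylor coefficients of a polynomial. -/
theorem norm_taylor_le (g : R[X]) {θ : R} {T C : ℝ} (hT : 1 ≤ T) (hθ : ‖θ‖ ≤ T)
    (hC : ∀ i, ‖g.coeff i‖ ≤ C) {n : ℕ} (hn : g.natDegree ≤ n) (k : ℕ) :
    ‖(taylor θ g).coeff k‖ ≤ C * T ^ n := by
  rw [taylor_coeff]
  refine norm_eval_le _ hT hθ (fun i => ?_) ((natDegree_hasseDeriv_le g k).trans (by omega))
  rw [hasseDeriv_coeff, norm_mul]
  calc _ ≤ 1 * ‖g.coeff (i + k)‖ := by gcongr; exact norm_natCast_le _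
    _ ≤ C := by rw [one_mul]; exact hC _

/-- The roots of a monic polynomial are bounded. -/
theorem norm_root_le {f : R[X]} (hf : f.Monic) {θ : R} {T : ℝ} (hT : 1 ≤ T)
    (hC : ∀ i, ‖f.coeff i‖ ≤ T) (hθ : f.eval θ = 0) : ‖θ‖ ≤ T := by
  by_contra hcon
  rw [not_le] at hcon
  have hθ1 : 1 < ‖θ‖ := lt_of_le_of_lt hT hcon
  have hθ0 : 0 < ‖θ‖ := zero_lt_one.trans hθ1
  rcases Nat.eq_zero_or_pos f.natDegree with h0 | hpos
  · rw [hf.natDegree_eq_zero.mp h0] at hθ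
    simp at hθ
  rw [eval_eq_sum_range, Finset.sum_range_succ, hf.coeff_natDegree, one_mul] at hθ
  have h1 : ‖θ ^ f.natDegree‖ ≤ T * ‖θ‖ ^ (f.natDegree - 1) := by
    have h2 : θ ^ f.natDegree = -∑ i ∈ Finset.range f.natDegree, f.coeff i * θ ^ i := by
      linear_combination hθ
    rw [h2, norm_neg]
    apply IsUltrametricDist.norm_sum_le_of_forall_le_of_nonneg (by positivity)
    intro i hi
    have hi' : i < f.natDegree := Finset.mem_range.mp hi
    rw [norm_mul, norm_pow]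
    gcongr
    · exact hC i
    · exact hθ1.le
    · omega
  have h3 : ‖θ ^ f.natDegree‖ = ‖θ‖ * ‖θ‖ ^ (f.natDegree - 1) := by
    rw [norm_pow, ← pow_succ']
    congr 1
    omega
  rw [h3] at h1
  have h4 := le_of_mul_le_mul_right h1 (by positivity)
  exact absurd h4 (not_le.mpr hcon)

end Vale.Agent.P011.W
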