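import Vale.Agent.P011.W.Spl
import Vale.Agent.P011.W.Root

/-!
Polynomials close to the minimal polynomial of a generator of a maximal subfield define splitting
fields locally.
-/

open Module NumberField IsDedekindDomain Polynomial

namespace Vale.Agent.P011.W

open Vale.Agent.P011.Arith (Z0 val_above)
open Vale.Agent.P011.Even (valued_alg norm_eq norm_lt_iff norm_le_iff isUltra)

section gen

variable {F D : Type} [Field F] [DivisionRing D] [Algebra F D]

/-- The field generated by an element. -/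
theorem exists_adj [FiniteDimensional F D] (x : D) : ∃ (ι : letI : Fact (Irreducible (minpoly F x)) :=
    ⟨minpoly.irreducible (Algebra.IsIntegral.isIntegral x)⟩
    AdjoinRoot (minpoly F x) →ₐ[F] D), ι (AdjoinRoot.root _) = x := by
  refine ⟨Ideal.Quotient.liftₐ (Ideal.span {minpoly F x}) (Polynomial.aeval x) (by
      intro a ha
      obtain ⟨b, rfl⟩ := Ideal.mem_span_singleton'.1 ha
      simp), ?_⟩
  change (Polynomial.aeval x) (Polynomial.X : F[X]) = x
  simp

/-- A field in which the minimal polynomial of a generator of a maximal subfield has a root splits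
the algebra. -/
theorem spl_of_eval {q : ℕ} (hq0 : 0 < q) (hq : finrank F D = q ^ 2) {x : D}
    (hx : (minpoly F x).natDegree = q) {R : Type} [Field R] (φ : F →+* R) {r : R}
    (hr : (minpoly F x).eval₂ φ r = 0) : Spl D q φ := by
  have : FiniteDimensional F D := Module.finite_of_finrank_pos (by rw [hq]; positivity)
  let _ : Fact (Irreducible (minpoly F x)) :=
    ⟨minpoly.irreducible (Algebra.IsIntegral.isIntegral x)⟩
  obtain ⟨ι, -⟩ := exists_adj (F := F) x
  have hne : minpoly F x ≠ 0 := minpoly.ne_zero (Algebra.IsIntegral.isIntegral x)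
  have hL : finrank F (AdjoinRoot (minpoly F x)) = q := by
    rw [(AdjoinRoot.powerBasis hne).finrank, AdjoinRoot.powerBasis_dim, hx]
  have h1 := (spl_subfield hq0 hq hL ι).comp (AdjoinRoot.lift φ r hr)
  have h2 : (AdjoinRoot.lift φ r hr).comp (algebraMap F (AdjoinRoot (minpoly F x))) = φ := by
    ext c
    exact AdjoinRoot.lift_of hr
  rwa [h2] at h1

end gen

variable {F D : Type} [Field F] [NumberField F] [DivisionRing D] [Algebra F D] {q : ℕ}

theorem norm_pl_lt {E : Type} [Field E] [NumberField E] [Algebra F E] {v : HeightOneSpectrum (𝓞 F)}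
    {w : HeightOneSpectrum (𝓞 E)} (h : w.asIdeal.comap (algebraMap (𝓞 F) (𝓞 E)) = v.asIdeal)
    {x y : F} : ‖pl E w x‖ < ‖pl E w y‖ ↔ v.valuation F x < v.valuation F y := by
  rw [RingHom.comp_apply, RingHom.comp_apply, norm_lt_iff, valued_alg, valued_alg]
  exact Vale.Agent.P011.Arith.val_lt_val_iff h x y

theorem norm_pl_le {E : Type} [Field E] [NumberField E] [Algebra F E] {v : HeightOneSpectrum (𝓞 F)}
    {w : HeightOneSpectrum (𝓞 E)} (h : w.asIdeal.comap (algebraMap (𝓞 F) (𝓞 E)) = v.asIdeal)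
    {x y : F} : ‖pl E w x‖ ≤ ‖pl E w y‖ ↔ v.valuation F x ≤ v.valuation F y := by
  rw [← not_lt, ← not_lt, norm_pl_lt h]

/-- A common bound for the coefficients of a polynomial. -/
theorem exists_coeff_bound (v : HeightOneSpectrum (𝓞 F)) (g : F[X]) (c0 : F) :
    ∃ c : F, v.valuation F c0 ≤ v.valuation F c ∧
      ∀ i, v.valuation F (g.coeff i) ≤ v.valuation F c := by
  induction g using Polynomial.induction_on' generalizing c0 with
  | add p q hp hq =>
    obtain ⟨c1, h1, h2⟩ := hp c0
    obtain ⟨c2, h3, h4⟩ := hq c1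
    refine ⟨c2, h1.trans h3, fun i => ?_⟩
    rw [coeff_add]
    exact (Valuation.map_add _ _ _).trans (max_le ((h2 i).trans h3) (h4 i))
  | monomial n a =>
    rcases le_total (v.valuation F c0) (v.valuation F a) with h | h
    · refine ⟨a, h, fun i => ?_⟩
      rw [coeff_monomial]
      split_ifs
      · exact le_rfl
      · rw [map_zero]; exact zero_le
    · refine ⟨c0, le_rfl, fun i => ?_⟩
      rw [coeff_monomial]
      split_ifs
      · exact h
      · rw [map_zero]; exact zero_le

/-- Polynomials close to the minimal polynomial of a generator of a maximal subfield. -/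
theorem spl_of_near (hq0 : 0 < q) (hq : finrank F D = q ^ 2) (v : HeightOneSpectrum (𝓞 F)) (x : D)
    (hx : (minpoly F x).natDegree = q) : ∃ γ : Z0, γ ≠ 0 ∧ ∀ f : F[X], f.Monic →
      f.natDegree = q → (∀ i, v.valuation F (f.coeff i - (minpoly F x).coeff i) < γ) →
      ∀ (E : Type) [Field E] [NumberField E] [Algebra F E] (w : HeightOneSpectrum (𝓞 E)),
      w.asIdeal.comap (algebraMap (𝓞 F) (𝓞 E)) = v.asIdeal →
      ∀ θ : E, Polynomial.aeval (R := F) θ f = 0 → Spl D q (pl (F := F) E w) := by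
  have : FiniteDimensional F D := Module.finite_of_finrank_pos (by rw [hq]; positivity)
  have hint : IsIntegral F x := Algebra.IsIntegral.isIntegral x
  set g := minpoly F x with hg
  have hirr : Irreducible g := minpoly.irreducible hint
  have hgm : g.Monic := minpoly.monic hint
  obtain ⟨A, B, hAB⟩ := hirr.separable
  obtain ⟨c1, -, hc1⟩ := exists_coeff_bound v g 1
  obtain ⟨c2, hc12, hc2⟩ := exists_coeff_bound v A c1
  obtain ⟨c3, hc23, hc3⟩ := exists_coeff_bound v B c2
  obtain ⟨c, hc3c, hc⟩ := exists_coeff_bound v (1 : F[X]) c3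
  have hcg : ∀ i, v.valuation F (g.coeff i) ≤ v.valuation F c := fun i =>
    (hc1 i).trans (hc12.trans (hc23.trans hc3c))
  have hcA : ∀ i, v.valuation F (A.coeff i) ≤ v.valuation F c := fun i =>
    (hc2 i).trans (hc23.trans hc3c)
  have hcB : ∀ i, v.valuation F (B.coeff i) ≤ v.valuation F c := fun i => (hc3 i).trans hc3c
  have hc1' : v.valuation F 1 ≤ v.valuation F c := by
    have := hc 0
    rwa [coeff_one_zero] at this
  obtain ⟨π, hπ⟩ := v.valuation_exists_uniformizer F
  have hπ1 : v.valuation F π < v.valuation F 1 := by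
    rw [hπ, map_one, ← WithZero.exp_zero, WithZero.exp_lt_exp]
    norm_num
  have hπ0 : π ≠ 0 := by
    rintro rfl
    rw [map_zero] at hπ
    exact WithZero.exp_ne_zero hπ.symm
  have hc0 : c ≠ 0 := by
    rintro rfl
    rw [map_one, map_zero] at hc1'
    exact absurd hc1' (by simp)
  obtain ⟨n, hn1, hn2, hn3⟩ : ∃ n, q ≤ n ∧ A.natDegree ≤ n ∧ B.natDegree ≤ n :=
    ⟨q + A.natDegree + B.natDegree, by omega, by omega, by omega⟩
  set δ : F := π / c ^ (4 * n + 3) with hδ
  have hδ0 : δ ≠ 0 := div_ne_zero hπ0 (pow_ne_zero _ hc0)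
  have hδ1 : v.valuation F δ ≤ v.valuation F 1 := by
    rw [hδ, map_div₀, map_one]
    rw [map_one] at hπ1 hc1'
    have h0 : 0 < v.valuation F (c ^ (4 * n + 3)) :=
      zero_lt_iff.mpr ((Valuation.ne_zero_iff _).mpr (pow_ne_zero _ hc0))
    rw [div_le_one₀ h0, map_pow]
    exact hπ1.le.trans (one_le_pow₀ hc1')
  refine ⟨v.valuation F δ, (Valuation.ne_zero_iff _).mpr hδ0, ?_⟩
  intro f hfm hfd hclose E _ _ _ w hw θ hθ
  have := isUltra w
  set φ : F →+* w.adicCompletion E := pl E w with hφ
  set T := ‖φ c‖ with hT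
  have hT1 : 1 ≤ T := by
    have h1 := (norm_pl_le (E := E) hw).mpr hc1'
    rwa [map_one, norm_one] at h1
  have hT0 : 0 < T := zero_lt_one.trans_le hT1
  set t : w.adicCompletion E := algebraMap E _ θ with ht
  have hfT : ∀ i, ‖(f.map φ).coeff i‖ ≤ T := by
    intro i
    rw [coeff_map]
    apply (norm_pl_le hw).mpr
    have h1 : f.coeff i = (f.coeff i - g.coeff i) + g.coeff i := by ring
    rw [h1]
    refine (Valuation.map_add _ _ _).trans (max_le ?_ (hcg i))
    exact ((hclose i).le.trans hδ1).trans hc1'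
  have hft : (f.map φ).eval t = 0 := by
    rw [eval_map, ht, hφ]
    have h1 : (algebraMap E (w.adicCompletion E)) (aeval θ f) = 0 := by rw [hθ, map_zero]
    rw [aeval_def, hom_eval₂] at h1
    exact h1
  have htT : ‖t‖ ≤ T := norm_root_le (hfm.map φ) hT1 hfT hft
  have hπn : ‖φ π‖ < 1 := by
    have h1 := (norm_pl_lt (E := E) hw).mpr hπ1
    rwa [map_one, norm_one] at h1
  have hδn : ‖φ δ‖ * T ^ (4 * n + 3) = ‖φ π‖ := by
    rw [hδ, map_div₀, map_pow, norm_div, norm_pow, ← hT, div_mul_cancel₀]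
    positivity
  have hgt : ‖(g.map φ).eval t‖ ≤ ‖φ δ‖ * T ^ n := by
    have h1 : (g.map φ).eval t = ((g - f).map φ).eval t := by
      rw [Polynomial.map_sub, eval_sub, hft, sub_zero]
    rw [h1]
    refine norm_eval_le _ hT1 htT (fun i => ?_) ?_
    · rw [coeff_map]
      apply (norm_pl_le hw).mpr
      rw [coeff_sub, Valuation.map_sub_swap]
      exact (hclose i).le
    · refine (natDegree_map_le).trans ((natDegree_sub_le _ _).trans ?_)
      rw [hfd, hx, max_self]
      exact hn1
  have hAt : ‖(A.map φ).eval t‖ ≤ T * T ^ n :=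
    norm_eval_le _ hT1 htT (fun i => by rw [coeff_map]; exact (norm_pl_le hw).mpr (hcA i))
      (natDegree_map_le.trans hn2)
  have hBt : ‖(B.map φ).eval t‖ ≤ T * T ^ n :=
    norm_eval_le _ hT1 htT (fun i => by rw [coeff_map]; exact (norm_pl_le hw).mpr (hcB i))
      (natDegree_map_le.trans hn3)
  have hbez : (A.map φ).eval t * (g.map φ).eval t + (B.map φ).eval t *
      (g.map φ).derivative.eval t = 1 := by
    have h1 := congrArg (fun p => (Polynomial.map φ p).eval t) hAB
    simp only [Polynomial.map_add, Polynomial.map_mul, eval_add, eval_mul, Polynomial.map_one,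
      eval_one] at h1
    rw [derivative_map]
    exact h1
  have hTn : ∀ k, 1 ≤ T ^ k := fun k => one_le_pow₀ hT1
  have h1 : ‖(A.map φ).eval t * (g.map φ).eval t‖ < 1 := by
    rw [norm_mul]
    calc _ ≤ (T * T ^ n) * (‖φ δ‖ * T ^ n) := by gcongr
      _ = ‖φ δ‖ * T ^ (2 * n + 1) := by ring
      _ ≤ ‖φ δ‖ * T ^ (4 * n + 3) := by
        have h2 : T ^ (2 * n + 1) ≤ T ^ (4 * n + 3) := pow_le_pow_right₀ hT1 (by omega)
        gcongr
      _ = ‖φ π‖ := hδn
      _ < 1 := hπn
  have h2 : ‖(B.map φ).eval t * (g.map φ).derivative.eval t‖ = 1 := by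
    have e : (B.map φ).eval t * (g.map φ).derivative.eval t =
        1 + -((A.map φ).eval t * (g.map φ).eval t) := by linear_combination hbez
    rw [e]
    have h3 : ‖(1 : w.adicCompletion E)‖ ≠ ‖-((A.map φ).eval t * (g.map φ).eval t)‖ := by
      rw [norm_one, norm_neg]
      exact h1.ne'
    rw [IsUltrametricDist.norm_add_eq_max_of_norm_ne_norm h3, norm_one, norm_neg,
      max_eq_left h1.le]
  have h3 : 1 ≤ T ^ (n + 1) * ‖(g.map φ).derivative.eval t‖ := by
    rw [← h2, norm_mul, pow_succ']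
    gcongr
  obtain ⟨r, hr⟩ := exists_root (g.map φ) t (M := T * T ^ n)
    (norm_taylor_le _ hT1 htT (fun i => by rw [coeff_map]; exact (norm_pl_le hw).mpr (hcg i))
      (natDegree_map_le.trans (hx.le.trans hn1))) (by
    have h4 : T * T ^ n * ‖(g.map φ).eval t‖ * T ^ (2 * n + 2) < 1 := by
      calc _ ≤ T * T ^ n * (‖φ δ‖ * T ^ n) * T ^ (2 * n + 2) := by gcongr
        _ = ‖φ δ‖ * T ^ (4 * n + 3) := by ring
        _ = ‖φ π‖ := hδn
        _ < 1 := hπn
    have h5 : (1 : ℝ) ≤ T ^ (2 * n + 2) * ‖(g.map φ).derivative.eval t‖ ^ 2 := by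
      calc (1 : ℝ) = 1 ^ 2 := (one_pow 2).symm
        _ ≤ (T ^ (n + 1) * ‖(g.map φ).derivative.eval t‖) ^ 2 := by gcongr
        _ = _ := by ring
    have h6 : T * T ^ n * ‖(g.map φ).eval t‖ * T ^ (2 * n + 2) <
        ‖(g.map φ).derivative.eval t‖ ^ 2 * T ^ (2 * n + 2) := by
      rw [mul_comm (‖(g.map φ).derivative.eval t‖ ^ 2)]
      exact h4.trans_le h5
    exact lt_of_mul_lt_mul_right h6 (by positivity))
  rw [eval_map] at hr
  exact spl_of_eval hq0 hq hx φ hr

end Vale.Agent.P011.W
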