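import Vale.Agent.P011.Bdl.B2

/-!
Reduction of the two-primary part of the reduced unitary Whitehead group to division algebras
whose degree is a power of two.
-/

set_option linter.unusedSectionVars false
set_option linter.unusedSimpArgs false

open Matrix Module TensorProduct

namespace Vale.Agent.P011.W

open Vale.Agent.P011S

/-- The division part over an extension contained with prime power degree in a splitting field. -/
theorem exists_data_pow {K D E N : Type} [Field K] [CharZero K] [DivisionRing D] [Algebra K D]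
    [FiniteDimensional K D] [Algebra.IsCentral K D] [Field E] [Algebra K E] [Field N] [Algebra K N]
    [Algebra E N] [IsScalarTower K E N] [FiniteDimensional E N] {p a d : ℕ} (hp : p.Prime)
    (hN : finrank E N = p ^ a) (g : D →ₐ[K] Matrix (Fin d) (Fin d) N)
    (hD : finrank K D = d ^ 2) :
    ∃ (n : ℕ) (_ : NeZero n) (Δ : Type) (_ : DivisionRing Δ) (_ : Algebra E Δ)
      (_ : FiniteDimensional E Δ) (_ : Algebra.IsCentral E Δ)
      (_ : E ⊗[K] D ≃ₐ[E] Matrix (Fin n) (Fin n) Δ) (j : ℕ),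
      n * p ^ j = d ∧ finrank E Δ = (p ^ j) ^ 2 := by
  obtain ⟨n, hn, Δ, i1, i2, i3, i4, ψ, h1⟩ := exists_wed (E := E) hD
  have hd : 0 < d := by
    have h0 : 0 < finrank K D := finrank_pos
    rw [hD] at h0
    exact Nat.pos_of_ne_zero fun h => by rw [h] at h0; simp at h0
  have : CharZero N := charZero_of_injective_algebraMap (algebraMap K N).injective
  let G : Matrix (Fin n) (Fin n) Δ →ₐ[E] Matrix (Fin d) (Fin d) N :=
    (bcf g).comp (ψ.symm : Matrix (Fin n) (Fin n) Δ →ₐ[E] E ⊗[K] D)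
  have h2 := corner_dim G
  obtain ⟨q, hq⟩ : ∃ q, q = finrank N (cW G) := ⟨_, rfl⟩
  rw [← hq] at h2
  have hnpos : 0 < n := Nat.pos_of_ne_zero (NeZero.ne n)
  have h3 : finrank E Δ = q ^ 2 := by
    rw [← h2, mul_pow] at h1
    exact Nat.eq_of_mul_eq_mul_left (pow_pos hnpos 2) h1
  have hq0 : 0 < q := by
    rcases Nat.eq_zero_or_pos q with h | h
    · rw [h, mul_zero] at h2; omega
    · exact h
  obtain ⟨f2, -⟩ := exists_corner G h2
  have h4 := corner_dvd h3 hq0 f2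
  rw [hN] at h4
  obtain ⟨j, hj, rfl⟩ := (Nat.dvd_prime_pow hp).mp h4
  exact ⟨n, hn, Δ, i1, i2, i3, i4, ψ, j, h2, h3⟩

variable {K D F : Type} [Field K] [CharZero K] [FiniteDimensional ℚ K] [StarRing K]
  [DivisionRing D] [CharZero D] [StarRing D] [FiniteDimensional ℚ D] [Algebra K D]
  [FiniteDimensional K D] [StarModule K D] [Algebra.IsCentral K D] [Field F] [Algebra K F]
  {A : Type} [CommGroup A] (F0 : D → A)
  (hmul : ∀ a b : D, a ≠ 0 → b ≠ 0 → F0 (a * b) = F0 a * F0 b)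
  (hsym : ∀ s : D, s ≠ 0 → star s = s → F0 s = 1)

include hmul hsym

/-- the part at the prime two -/
theorem suk_part_of {d : ℕ} (hD : finrank K D = d ^ 2)
    (hne : ∃ k : K, star k ≠ k) (f : D →ₐ[K] Matrix (Fin d) (Fin d) F) {Z : D} (hZ : Z ≠ 0)
    (h : (f (star Z)).det = (f Z).det)
    (T : ∀ (E Δ Ω : Type) [Field E] [CharZero E] [FiniteDimensional ℚ E] [StarRing E]
      [DivisionRing Δ] [CharZero Δ] [StarRing Δ] [FiniteDimensional ℚ Δ] [Algebra E Δ]
      [FiniteDimensional E Δ] [StarModule E Δ] [Algebra.IsCentral E Δ] [Field Ω] [Algebra E Ω]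
      (j : ℕ) (_ : 2 ^ j ∣ d) (_ : finrank E Δ = (2 ^ j) ^ 2) (_ : ∃ e : E, star e ≠ e)
      (f2 : Δ →ₐ[E] Matrix (Fin (2 ^ j)) (Fin (2 ^ j)) Ω) (F1 : Δ → A)
      (_ : ∀ a b : Δ, a ≠ 0 → b ≠ 0 → F1 (a * b) = F1 a * F1 b)
      (_ : ∀ s : Δ, s ≠ 0 → star s = s → F1 s = 1) (Z : Δ) (_ : Z ≠ 0)
      (_ : (f2 (star Z)).det = (f2 Z).det), ∃ e, Odd e ∧ F1 Z ^ e = 1) :
    ∃ e, Odd e ∧ F0 Z ^ e = 1 := by
  classical
  have hneg : F0 (-1) = 1 := hsym (-1) (neg_ne_zero.mpr one_ne_zero) (by simp only [star_neg, star_one])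
  obtain ⟨E, i1, i2, i3, i4, r, b, N, i5, i6, i7, i8, i9, a, hodd, hb, ha, ⟨g⟩⟩ :=
    exists_star_ext (K := K) (D := D) hne hD
  have hfE : FiniteDimensional K E := Module.Finite.of_basis b
  obtain ⟨n, hn, Δ, j1, j2, j3, j4, ψ0, j, hnq, hΔ⟩ := exists_data_pow Nat.prime_two ha g hD
  have hcE : CharZero E := charZero_of_injective_algebraMap (algebraMap K E).injective
  have hcΔ : CharZero Δ := charZero_of_injective_algebraMap (algebraMap E Δ).injective
  have hst : ∀ e : E, star (algebraMap E (E ⊗[K] D) e) = algebraMap E (E ⊗[K] D) (star e) := by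
    intro e
    rw [Algebra.TensorProduct.algebraMap_apply, Algebra.TensorProduct.algebraMap_apply,
      TensorProduct.star_tmul, star_one]
    rfl
  have hneE : ∃ e : E, star e ≠ e := by
    obtain ⟨k, hk⟩ := hne
    refine ⟨algebraMap K E k, fun h => hk ?_⟩
    rw [← algebraMap_star_comm] at h
    exact (algebraMap K E).injective h
  obtain ⟨ψ, hψ⟩ := exists_psi hst (two_ne_zero : (2 : Δ) ≠ 0) hneE ψ0
  obtain ⟨st, stm, hstar⟩ := exists_star hst ψ hψ
  -- a common extension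
  let F' := AlgebraicClosure F
  let lift : E →ₐ[K] F' := IsAlgClosed.lift
  let algE : Algebra E F' := lift.toRingHom.toAlgebra
  have htow : IsScalarTower K E F' := IsScalarTower.of_algebraMap_eq fun x => (lift.commutes x).symm
  have hcF : CharZero F' := charZero_of_injective_algebraMap (algebraMap K F').injective
  let f' : D →ₐ[K] Matrix (Fin d) (Fin d) F' :=
    ((Algebra.ofId F F').restrictScalars K).mapMatrix.comp f
  have hf' : ∀ u, (f' u).det = algebraMap F F' (f u).det := by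
    intro u
    have h1 : f' u = (f u).map (algebraMap F F') := rfl
    rw [h1]
    exact (RingHom.map_det (algebraMap F F') (f u)).symm
  let G : Matrix (Fin n) (Fin n) Δ →ₐ[E] Matrix (Fin d) (Fin d) F' :=
    (bcf f').comp (ψ.symm : Matrix (Fin n) (Fin n) Δ →ₐ[E] E ⊗[K] D)
  obtain ⟨f2, hf2⟩ := exists_corner G hnq
  let θ : (Matrix (Fin n) (Fin n) Δ)ˣ →* A := (mdU F0 hmul hneg r).comp
    (Units.map (((trf b : E ⊗[K] D →ₐ[K] _) : E ⊗[K] D →* _).comp
      (ψ.symm : Matrix (Fin n) (Fin n) Δ →* E ⊗[K] D)))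
  obtain ⟨s, hs⟩ : ∃ s : Matrix (Fin n) (Fin n) Δ → Matrix (Fin n) (Fin n) Δ,
      ∀ x, s x = ψ (star (ψ.symm x)) := ⟨_, fun x => rfl⟩
  have hs1 : s 1 = 1 := by rw [hs, map_one, star_one, map_one]
  have hsdg : ∀ δ : Δ, s (1 - eU n Δ + Matrix.single 0 0 δ) =
      1 - eU n Δ + Matrix.single 0 0 (star δ) := by
    intro δ
    have h1 : s (1 - eU n Δ + Matrix.single 0 0 δ) =
        s 1 - s (eU n Δ) + s (Matrix.single 0 0 δ) := by
      simp only [hs, map_add, map_sub, star_add, star_sub]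
    rw [h1, hs1, hs, hs, hψ, hstar]
  have hdg : ∀ δ : Δˣ, ((dgU 0 δ : (Matrix (Fin n) (Fin n) Δ)ˣ) : Matrix (Fin n) (Fin n) Δ) =
      1 - eU n Δ + Matrix.single 0 0 (δ : Δ) := by
    intro δ
    rw [dgU_val, eU]
    ext i j
    rw [Matrix.diagonal_apply, Matrix.add_apply, Matrix.sub_apply, Matrix.one_apply,
      Matrix.single_apply, Matrix.single_apply]
    by_cases hij : i = j
    · subst hij
      by_cases hi : i = 0
      · subst hi; simp
      · simp [hi, Function.update_of_ne hi, Ne.symm hi]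
    · rw [if_neg hij, if_neg hij, if_neg, if_neg]
      · simp
      · rintro ⟨rfl, rfl⟩; exact hij rfl
      · rintro ⟨rfl, rfl⟩; exact hij rfl
  let ω : Matrix (Fin n) (Fin n) Δ →* F' :=
    { toFun := fun x => (G (s x)).det
      map_one' := by rw [hs1, map_one, Matrix.det_one]
      map_mul' := fun x y => by
        have h1 : s (x * y) = s y * s x := by simp only [hs, map_mul, star_mul]
        rw [h1, map_mul, Matrix.det_mul, mul_comm] }
  let χ : (Matrix (Fin n) (Fin n) Δ)ˣ →* A × (F'ˣ × F'ˣ) :=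
    θ.prod ((Units.map (Matrix.detMonoidHom.comp (G : _ →* Matrix (Fin d) (Fin d) F'))).prod
      (Units.map ω))
  have h2Δ : (2 : Δ) ≠ 0 := two_ne_zero
  let U : (Matrix (Fin n) (Fin n) Δ)ˣ := Units.map
    ((ψ : E ⊗[K] D →* _).comp (Algebra.TensorProduct.includeRight : D →ₐ[K] E ⊗[K] D))
    (Units.mk0 Z hZ)
  obtain ⟨δ, hδ⟩ := exists_dgU χ (chi_tvU h2Δ χ) 0 U
  have hδ1 : θ U = θ (dgU 0 δ) := congrArg Prod.fst hδ
  have hδ2 : (G (U : Matrix (Fin n) (Fin n) Δ)).det =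
      (G (dgU 0 δ : (Matrix (Fin n) (Fin n) Δ)ˣ)).det :=
    congrArg Units.val (congrArg Prod.fst (congrArg Prod.snd hδ))
  have hδ3 : (G (s (U : Matrix (Fin n) (Fin n) Δ))).det =
      (G (s ((dgU 0 δ : (Matrix (Fin n) (Fin n) Δ)ˣ) : Matrix (Fin n) (Fin n) Δ))).det :=
    congrArg Units.val (congrArg Prod.snd (congrArg Prod.snd hδ))
  have hU : ψ.symm (U : Matrix (Fin n) (Fin n) Δ) = 1 ⊗ₜ Z := ψ.symm_apply_apply _
  have hθU : θ U = F0 Z ^ r := by
    change mdU F0 hmul hneg r _ = _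
    rw [mdU_diagonal F0 hmul hneg _ (fun _ => Z) (fun _ => hZ), Finset.prod_const,
      Finset.card_univ, Fintype.card_fin]
    change trf b (ψ.symm (U : Matrix (Fin n) (Fin n) Δ)) = _
    rw [hU, trf_one_tmul]
  have hsδ : (star δ : Δˣ) = star δ := rfl
  have hδ4 : (f2 (star (δ : Δ))).det = (f2 (δ : Δ)).det := by
    have h1 : (f2 (star (δ : Δ))).det = (f2 ((star δ : Δˣ) : Δ)).det := rfl
    rw [h1, ← hf2, ← hf2, hdg (star δ)]
    change (G (1 - eU n Δ + Matrix.single 0 0 (star (δ : Δ)))).det = _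
    rw [← hsdg, ← hdg, ← hδ3, ← hδ2, hs]
    change (bcf f' (ψ.symm (ψ (star (ψ.symm (U : Matrix (Fin n) (Fin n) Δ)))))).det =
      (bcf f' (ψ.symm (U : Matrix (Fin n) (Fin n) Δ))).det
    rw [ψ.symm_apply_apply, hU, TensorProduct.star_tmul, star_one, bcf_one_tmul, bcf_one_tmul,
      hf', hf', h]
  -- symmetric elements
  have hsymθ : ∀ δ : Δˣ, star (δ : Δ) = δ → θ (dgU 0 δ) = 1 := by
    intro δ hδ
    change mdU F0 hmul hneg r (Units.map ((trf b : E ⊗[K] D →ₐ[K] _) : E ⊗[K] D →* _)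
      (Units.map (ψ.symm : Matrix (Fin n) (Fin n) Δ →* E ⊗[K] D) (dgU 0 δ))) = 1
    apply trf_sym b hb F0 hmul hsym hneg
    change star (ψ.symm ((dgU 0 δ : (Matrix (Fin n) (Fin n) Δ)ˣ) : Matrix (Fin n) (Fin n) Δ)) =
      ψ.symm ((dgU 0 δ : (Matrix (Fin n) (Fin n) Δ)ˣ) : Matrix (Fin n) (Fin n) Δ)
    apply ψ.injective
    rw [ψ.apply_symm_apply, ← hs, hdg, hsdg, hδ]
  have hfQE : FiniteDimensional ℚ E := FiniteDimensional.trans ℚ K E
  have hfQΔ : FiniteDimensional ℚ Δ := FiniteDimensional.trans ℚ E Δ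
  let F1 : Δ → A := fun x => if h : x = 0 then 1 else θ (dgU 0 (Units.mk0 x h))
  have hF1 : ∀ (x : Δ) (h : x ≠ 0), F1 x = θ (dgU 0 (Units.mk0 x h)) := fun x h => dif_neg h
  obtain ⟨e, he, h1⟩ : ∃ e, Odd e ∧ F1 (δ : Δ) ^ e = 1 := by
    refine T E Δ F' j (hnq ▸ Dvd.intro_left _ rfl) hΔ hneE f2 F1 ?_ ?_ δ δ.ne_zero hδ4
    · intro x y hx hy
      rw [hF1 _ hx, hF1 _ hy, hF1 _ (mul_ne_zero hx hy), ← map_mul, ← dgU_mul]
      congr 2
      exact Units.ext rfl
    · intro x hx hxs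
      rw [hF1 _ hx]
      exact hsymθ _ hxs
  refine ⟨r * e, hodd.mul he, ?_⟩
  rw [pow_mul, ← hθU, hδ1]
  rw [hF1 _ δ.ne_zero] at h1
  convert h1 using 3
  congr 1
  exact Units.ext rfl

end Vale.Agent.P011.W
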