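import Vale.Agent.P011.W.Gen
import Vale.Agent.P011.T2.MaxSub
import Vale.Agent.P011.Arith.LocalB

/-!
Reduction of a central division algebra at a place where all structure constants are integral.
-/

open Module Polynomial NumberField IsDedekindDomain

namespace Vale.Agent.P011.W

open Vale.Agent.P011.Arith (Z0 exists_residue finite_residue mk_eq_zero_iff)

section order

variable {F D : Type} [Field F] [DivisionRing D] [Algebra F D] {N : ℕ}
  (b : Basis (Fin N) F D) (w : Valuation F Z0)

/-- All structure constants are integral. -/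
structure Nice : Prop where
  mul : ∀ i j l, w (b.repr (b i * b j) l) ≤ 1
  one : ∀ i, w (b.repr 1 i) ≤ 1
  one' : ∃ t, w (b.repr 1 t) = 1
  sand : ∀ s t, ∃ a : Fin N → D, (∀ i l, w (b.repr (a i) l) ≤ 1) ∧
    ∀ x, b.repr x t • b s = ∑ i, a i * x * b i

variable {b w} (h : Nice b w)

include h in
theorem Nice.mul_le {x y : D} {γ : Z0} (hx : ∀ i, w (b.repr x i) ≤ 1)
    (hy : ∀ i, w (b.repr y i) ≤ γ) (l : Fin N) : w (b.repr (x * y) l) ≤ γ := by
  have e : x * y = ∑ i, ∑ j, (b.repr x i * b.repr y j) • (b i * b j) := by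
    conv_lhs => rw [← b.sum_repr x, ← b.sum_repr y]
    rw [Finset.sum_mul_sum]
    refine Finset.sum_congr rfl fun i _ => Finset.sum_congr rfl fun j _ => ?_
    rw [smul_mul_smul_comm]
  rw [e, map_sum, Finsupp.finsetSum_apply]
  apply Valuation.map_sum_le
  intro i _
  rw [map_sum, Finsupp.finsetSum_apply]
  apply Valuation.map_sum_le
  intro j _
  rw [map_smul, Finsupp.smul_apply, smul_eq_mul, map_mul, map_mul]
  calc _ ≤ (1 * γ) * 1 := mul_le_mul' (mul_le_mul' (hx i) (hy j)) (h.mul i j l)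
    _ = γ := by rw [one_mul, mul_one]

include h in
theorem Nice.mul_lt {x y : D} (hx : ∀ i, w (b.repr x i) ≤ 1)
    (hy : ∀ i, w (b.repr y i) < 1) (l : Fin N) : w (b.repr (x * y) l) < 1 := by
  have e : x * y = ∑ i, ∑ j, (b.repr x i * b.repr y j) • (b i * b j) := by
    conv_lhs => rw [← b.sum_repr x, ← b.sum_repr y]
    rw [Finset.sum_mul_sum]
    refine Finset.sum_congr rfl fun i _ => Finset.sum_congr rfl fun j _ => ?_
    rw [smul_mul_smul_comm]
  rw [e, map_sum, Finsupp.finsetSum_apply]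
  apply Valuation.map_sum_lt _ one_ne_zero
  intro i _
  rw [map_sum, Finsupp.finsetSum_apply]
  apply Valuation.map_sum_lt _ one_ne_zero
  intro j _
  rw [map_smul, Finsupp.smul_apply, smul_eq_mul, map_mul, map_mul]
  calc w (b.repr x i) * w (b.repr y j) * w (b.repr (b i * b j) l) ≤ (1 * w (b.repr y j)) * 1 :=
        mul_le_mul' (mul_le_mul' (hx i) le_rfl) (h.mul i j l)
    _ = w (b.repr y j) := by rw [one_mul, mul_one]
    _ < 1 := hy j

include h in
theorem Nice.mul_lt' {x y : D} (hx : ∀ i, w (b.repr x i) < 1)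
    (hy : ∀ i, w (b.repr y i) ≤ 1) (l : Fin N) : w (b.repr (x * y) l) < 1 := by
  have e : x * y = ∑ i, ∑ j, (b.repr x i * b.repr y j) • (b i * b j) := by
    conv_lhs => rw [← b.sum_repr x, ← b.sum_repr y]
    rw [Finset.sum_mul_sum]
    refine Finset.sum_congr rfl fun i _ => Finset.sum_congr rfl fun j _ => ?_
    rw [smul_mul_smul_comm]
  rw [e, map_sum, Finsupp.finsetSum_apply]
  apply Valuation.map_sum_lt _ one_ne_zero
  intro i _
  rw [map_sum, Finsupp.finsetSum_apply]
  apply Valuation.map_sum_lt _ one_ne_zero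
  intro j _
  rw [map_smul, Finsupp.smul_apply, smul_eq_mul, map_mul, map_mul]
  calc w (b.repr x i) * w (b.repr y j) * w (b.repr (b i * b j) l) ≤ (w (b.repr x i) * 1) * 1 :=
        mul_le_mul' (mul_le_mul' le_rfl (hy j)) (h.mul i j l)
    _ = w (b.repr x i) := by rw [mul_one, mul_one]
    _ < 1 := hx i

/-- The order. -/
def Nice.ord : Subring D where
  carrier := {x | ∀ i, w (b.repr x i) ≤ 1}
  mul_mem' {x y} hx hy := fun l => h.mul_le hx hy l
  one_mem' := h.one
  add_mem' {x y} hx hy := fun i => by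
    rw [map_add, Finsupp.add_apply]
    exact (Valuation.map_add _ _ _).trans (max_le (hx i) (hy i))
  zero_mem' := fun i => by
    rw [map_zero, Finsupp.zero_apply, map_zero]
    exact zero_le
  neg_mem' {x} hx := fun i => by
    rw [map_neg, Finsupp.neg_apply, Valuation.map_neg]
    exact hx i

theorem Nice.mem_ord {x : D} : x ∈ h.ord ↔ ∀ i, w (b.repr x i) ≤ 1 := Iff.rfl

/-- The ideal of elements divisible by the place. -/
def Nice.idl : Ideal h.ord where
  carrier := {x | ∀ i, w (b.repr (x : D) i) < 1}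
  add_mem' {x y} hx hy := fun i => by
    rw [Subring.coe_add, map_add, Finsupp.add_apply]
    exact (Valuation.map_add _ _ _).trans_lt (max_lt (hx i) (hy i))
  zero_mem' := fun i => by
    rw [Subring.coe_zero, map_zero, Finsupp.zero_apply, map_zero]
    exact zero_lt_one
  smul_mem' := fun c x hx => fun i => by
    rw [smul_eq_mul, Subring.coe_mul]
    exact h.mul_lt c.2 hx i

theorem Nice.mem_idl {x : h.ord} : x ∈ h.idl ↔ ∀ i, w (b.repr (x : D) i) < 1 := Iff.rfl

instance : (h.idl).IsTwoSided where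
  mul_mem_of_left := fun {x} y hx i => by
    rw [Subring.coe_mul]
    exact h.mul_lt' hx y.2 i

/-- The reduction. -/
abbrev Nice.red : Type := h.ord ⧸ h.idl

theorem Nice.smul_mem {c : F} (hc : w c ≤ 1) {x : D} (hx : x ∈ h.ord) : c • x ∈ h.ord := by
  intro i
  rw [map_smul, Finsupp.smul_apply, smul_eq_mul, map_mul]
  exact mul_le_one' hc (hx i)

theorem Nice.basis_mem (i : Fin N) : b i ∈ h.ord := by
  classical
  intro j
  rw [b.repr_self, Finsupp.single_apply]
  split_ifs
  · rw [map_one]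
  · rw [map_zero]; exact zero_le

theorem Nice.alg_mem {c : F} (hc : w c ≤ 1) : algebraMap F D c ∈ h.ord := by
  rw [Algebra.algebraMap_eq_smul_one]
  exact h.smul_mem hc h.ord.one_mem

theorem Nice.nontrivial : Nontrivial h.red := by
  refine ⟨⟨0, 1, fun h0 => ?_⟩⟩
  have h1 : (1 : h.ord) ∈ h.idl := Ideal.Quotient.eq_zero_iff_mem.1 (by rw [map_one]; exact h0.symm)
  obtain ⟨t, ht⟩ := h.one'
  have h2 := h1 t
  rw [Subring.coe_one, ht] at h2
  exact lt_irrefl _ h2

theorem Nice.simple : IsSimpleRing h.red := by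
  rw [isSimpleRing_iff_isTwoSided_imp]
  refine ⟨h.nontrivial, fun I hI => ?_⟩
  by_cases hbot : I = ⊥
  · exact Or.inl hbot
  right
  obtain ⟨q, hq, hq0⟩ := Submodule.exists_mem_ne_zero_of_ne_bot hbot
  obtain ⟨x, rfl⟩ := Ideal.Quotient.mk_surjective q
  have hx : ¬ x ∈ h.idl := fun hx => hq0 (Ideal.Quotient.eq_zero_iff_mem.2 hx)
  rw [h.mem_idl] at hx
  push Not at hx
  obtain ⟨t, ht⟩ := hx
  have ht1 : w (b.repr (x : D) t) = 1 := le_antisymm (x.2 t) ht
  have ht0 : b.repr (x : D) t ≠ 0 := by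
    intro h0
    rw [h0, map_zero] at ht1
    exact zero_ne_one ht1
  choose a ha hax using fun s => h.sand s t
  have hc : ∀ s, w (b.repr 1 s / b.repr (x : D) t) ≤ 1 := fun s => by
    rw [map_div₀, ht1, div_one]
    exact h.one s
  have key : (1 : h.ord) = ∑ s, ∑ i, (⟨(b.repr 1 s / b.repr (x : D) t) • a s i,
      h.smul_mem (hc s) (ha s i)⟩ : h.ord) * x * ⟨b i, h.basis_mem i⟩ := by
    apply Subtype.ext
    rw [Subring.coe_one, AddSubmonoidClass.coe_finsetSum]
    conv_lhs => rw [← b.sum_repr 1]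
    refine Finset.sum_congr rfl fun s _ => ?_
    rw [AddSubmonoidClass.coe_finsetSum]
    have h1 : b.repr 1 s • b s = (b.repr 1 s / b.repr (x : D) t) • (b.repr (x : D) t • b s) := by
      rw [smul_smul, div_mul_cancel₀ _ ht0]
    rw [h1, hax, Finset.smul_sum]
    refine Finset.sum_congr rfl fun i _ => ?_
    rw [Subring.coe_mul, Subring.coe_mul, smul_mul_assoc, smul_mul_assoc]
  rw [Ideal.eq_top_iff_one]
  have h1 : (1 : h.red) = Ideal.Quotient.mk h.idl (1 : h.ord) := (map_one _).symm
  rw [h1, key, map_sum]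
  refine Ideal.sum_mem _ fun s _ => ?_
  rw [map_sum]
  refine Ideal.sum_mem _ fun i _ => ?_
  rw [map_mul, map_mul]
  exact I.mul_mem_right _ (I.mul_mem_left _ hq)

/-- Central elements of the reduction are scalars. -/
theorem Nice.central {z : h.ord} (hz : ∀ y : h.ord, z * y - y * z ∈ h.idl) :
    ∃ c : F, w c ≤ 1 ∧ ∀ i, w (b.repr ((z : D) - algebraMap F D c) i) < 1 := by
  obtain ⟨t, ht⟩ := h.one'
  have ht0 : b.repr 1 t ≠ 0 := by
    intro h0
    rw [h0, map_zero] at ht
    exact zero_ne_one ht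
  choose a ha hax using fun s => h.sand s t
  refine ⟨b.repr (z : D) t / b.repr 1 t, by rw [map_div₀, ht, div_one]; exact z.2 t, ?_⟩
  -- z * (u_t b_s) is congruent to z_t b_s
  have h1 : ∀ s l, w (b.repr ((z : D) * (b.repr 1 t • b s) - b.repr (z : D) t • b s) l) < 1 := by
    intro s l
    have e : (z : D) * (b.repr 1 t • b s) - b.repr (z : D) t • b s =
        ∑ i, ((z : D) * a s i - a s i * z) * b i := by
      rw [hax, hax, Finset.mul_sum, ← Finset.sum_sub_distrib]
      refine Finset.sum_congr rfl fun i _ => ?_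
      rw [mul_one, ← mul_assoc, sub_mul]
    rw [e, map_sum, Finsupp.finsetSum_apply]
    apply Valuation.map_sum_lt _ one_ne_zero
    intro i _
    refine h.mul_lt' (fun j => ?_) (h.basis_mem i) l
    exact hz ⟨a s i, ha s i⟩ j
  intro l
  have e : (z : D) - algebraMap F D (b.repr (z : D) t / b.repr 1 t) =
      ∑ s, (b.repr 1 s / b.repr 1 t) •
        ((z : D) * (b.repr 1 t • b s) - b.repr (z : D) t • b s) := by
    have e1 : ∀ s, (b.repr 1 s / b.repr 1 t) •
        ((z : D) * (b.repr 1 t • b s) - b.repr (z : D) t • b s) =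
        (z : D) * (b.repr 1 s • b s) - (b.repr (z : D) t / b.repr 1 t) • (b.repr 1 s • b s) := by
      intro s
      rw [smul_sub, mul_smul_comm, smul_smul, div_mul_cancel₀ _ ht0, smul_smul, smul_smul,
        mul_smul_comm]
      congr 2
      ring
    rw [Finset.sum_congr rfl fun s _ => e1 s, Finset.sum_sub_distrib, ← Finset.mul_sum,
      ← Finset.smul_sum, b.sum_repr, mul_one, Algebra.algebraMap_eq_smul_one]
  rw [e, map_sum, Finsupp.finsetSum_apply]
  apply Valuation.map_sum_lt _ one_ne_zero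
  intro s _
  rw [map_smul, Finsupp.smul_apply, smul_eq_mul, map_mul, map_div₀, ht, div_one]
  calc _ ≤ 1 * w (b.repr ((z : D) * (b.repr 1 t • b s) - b.repr (z : D) t • b s) l) :=
        mul_le_mul' (h.one s) le_rfl
    _ < 1 := by rw [one_mul]; exact h1 s l

end order

end Vale.Agent.P011.W
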