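import Vale.Agent.P011.W.RedA
import Vale.Agent.P011.W.Near

/-!
Almost all places split a central division algebra.
-/

open Module Polynomial NumberField IsDedekindDomain

namespace Vale.Agent.P011.W

open Vale.Agent.P011.Arith (Z0 exists_residue finite_residue mk_eq_zero_iff finite_ne_one)

variable {F D : Type} [Field F] [NumberField F] [DivisionRing D] [Algebra F D] {N : ℕ}
  {b : Basis (Fin N) F D} {v : HeightOneSpectrum (𝓞 F)}

/-- The scalars in the reduction. -/
noncomputable def Nice.sc (h : Nice b (v.valuation F)) : 𝓞 F →+* h.red :=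
  (Ideal.Quotient.mk h.idl).comp
    (((algebraMap F D).comp (algebraMap (𝓞 F) F)).codRestrict h.ord
      fun c => h.alg_mem (v.valuation_le_one c))

theorem Nice.sc_apply (h : Nice b (v.valuation F)) (c : 𝓞 F) :
    h.sc c = Ideal.Quotient.mk h.idl ⟨algebraMap F D (c : F), h.alg_mem (v.valuation_le_one c)⟩ :=
  rfl

theorem Nice.sc_eq_zero (h : Nice b (v.valuation F)) (c : 𝓞 F) :
    h.sc c = 0 ↔ v.valuation F (c : F) < 1 := by
  rw [h.sc_apply, Ideal.Quotient.eq_zero_iff_mem, h.mem_idl]
  constructor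
  · intro h1
    obtain ⟨t, ht⟩ := h.one'
    have h2 := h1 t
    change v.valuation F (b.repr (algebraMap F D (c : F)) t) < 1 at h2
    rw [Algebra.algebraMap_eq_smul_one, map_smul, Finsupp.smul_apply, smul_eq_mul, map_mul, ht,
      mul_one] at h2
    exact h2
  · intro h1 i
    change v.valuation F (b.repr (algebraMap F D (c : F)) i) < 1
    rw [Algebra.algebraMap_eq_smul_one, map_smul, Finsupp.smul_apply, smul_eq_mul, map_mul]
    calc _ ≤ v.valuation F (c : F) * 1 := mul_le_mul' le_rfl (h.one i)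
      _ < 1 := by rw [mul_one]; exact h1

/-- The scalars in the reduction, over the residue field. -/
noncomputable def Nice.sc' (h : Nice b (v.valuation F)) : 𝓞 F ⧸ v.asIdeal →+* h.red :=
  Ideal.Quotient.lift v.asIdeal h.sc fun a ha => by
    rw [h.sc_eq_zero]
    exact (HeightOneSpectrum.valuation_lt_one_iff_mem (K := F) v a).mpr ha

theorem Nice.sc'_mk (h : Nice b (v.valuation F)) (c : 𝓞 F) :
    h.sc' (Ideal.Quotient.mk v.asIdeal c) = h.sc c := Ideal.Quotient.lift_mk _ _ _

theorem Nice.sc_comm (h : Nice b (v.valuation F)) (c : 𝓞 F) (z : h.red) :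
    h.sc c * z = z * h.sc c := by
  obtain ⟨y, rfl⟩ := Ideal.Quotient.mk_surjective z
  rw [h.sc_apply, ← map_mul, ← map_mul]
  congr 1
  apply Subtype.ext
  exact Algebra.commutes _ _

theorem Nice.exists_coords (h : Nice b (v.valuation F)) :
    ∃ f : (Fin N → 𝓞 F ⧸ v.asIdeal) → h.red, Function.Bijective f := by
  let g : (Fin N → 𝓞 F) → h.ord := fun c => ∑ i, ⟨(c i : F) • b i,
    h.smul_mem (v.valuation_le_one (c i)) (h.basis_mem i)⟩
  have hg : ∀ c, (g c : D) = ∑ i, (c i : F) • b i := by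
    intro c
    rw [AddSubmonoidClass.coe_finsetSum]
  have hgr : ∀ c i, b.repr (g c : D) i = (c i : F) := by
    intro c i
    rw [hg, b.repr_sum_self]
  have hgg : ∀ c c', Ideal.Quotient.mk h.idl (g c) = Ideal.Quotient.mk h.idl (g c') ↔
      ∀ i, Ideal.Quotient.mk v.asIdeal (c i) = Ideal.Quotient.mk v.asIdeal (c' i) := by
    intro c c'
    rw [Ideal.Quotient.eq, h.mem_idl]
    refine forall_congr' fun i => ?_
    rw [Ideal.Quotient.eq, ← HeightOneSpectrum.valuation_lt_one_iff_mem (K := F)]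
    rw [AddSubgroupClass.coe_sub, map_sub, Finsupp.sub_apply, hgr, hgr]
    rfl
  have hs := Ideal.Quotient.mk_surjective (I := v.asIdeal)
  refine ⟨fun γ => Ideal.Quotient.mk h.idl (g fun i => Function.surjInv hs (γ i)), ?_, ?_⟩
  · intro γ γ' hγ
    have h1 := (hgg _ _).mp hγ
    funext i
    have h2 := h1 i
    rwa [Function.surjInv_eq hs, Function.surjInv_eq hs] at h2
  · intro z
    obtain ⟨x, rfl⟩ := Ideal.Quotient.mk_surjective z
    choose c hc using fun i => exists_residue v (x.2 i)
    refine ⟨fun i => Ideal.Quotient.mk v.asIdeal (c i), ?_⟩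
    have h1 : Ideal.Quotient.mk h.idl (g c) = Ideal.Quotient.mk h.idl x := by
      rw [Ideal.Quotient.eq, h.mem_idl]
      intro i
      rw [AddSubgroupClass.coe_sub, map_sub, Finsupp.sub_apply, hgr]
      exact hc i
    rw [← h1]
    exact (hgg _ _).mpr fun i => Function.surjInv_eq hs _

/-- The reduction is a matrix algebra over the residue field. -/
theorem Nice.exists_matrix (h : Nice b (v.valuation F)) : ∃ (n : ℕ) (_ : NeZero n) (Δ : Type)
    (_ : DivisionRing Δ) (φ : h.red ≃+* Matrix (Fin n) (Fin n) Δ) (θ : 𝓞 F ⧸ v.asIdeal →+* Δ),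
    N = n * n ∧ Function.Injective θ ∧ ∀ c, φ (h.sc' c) = Matrix.scalar (Fin n) (θ c) := by
  classical
  have hprime : v.asIdeal.IsPrime := v.isPrime
  have : Finite (𝓞 F ⧸ v.asIdeal) := finite_residue v
  have hnt : Nontrivial (𝓞 F ⧸ v.asIdeal) := Ideal.Quotient.nontrivial_iff.mpr hprime.ne_top
  obtain ⟨f, hf⟩ := h.exists_coords
  have hfin : Finite h.red := Finite.of_surjective f hf.2
  have hcard : Nat.card h.red = Nat.card (𝓞 F ⧸ v.asIdeal) ^ N := by
    rw [← Nat.card_congr (Equiv.ofBijective f hf), Nat.card_fun, Nat.card_fin]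
  have : IsSimpleRing h.red := h.simple
  have : IsArtinianRing h.red := inferInstance
  obtain ⟨n, hn, Δ, iΔ, ⟨φ⟩⟩ := IsSimpleRing.exists_ringEquiv_matrix_divisionRing h.red
  have hinj : Function.Injective (Matrix.scalar (Fin n) : Δ →+* Matrix (Fin n) (Fin n) Δ) :=
    RingHom.injective _
  have hΔ : Finite Δ := Finite.of_injective (fun δ : Δ => φ.symm (Matrix.scalar (Fin n) δ))
    (φ.symm.injective.comp hinj)
  have hcomm : ∀ x y : Δ, x * y = y * x := (Finite.isDomain_to_isField Δ).mul_comm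
  have hsc : ∀ c : 𝓞 F ⧸ v.asIdeal, ∃ δ : Δ, Matrix.scalar (Fin n) δ = φ (h.sc' c) := by
    intro c
    obtain ⟨c, rfl⟩ := Ideal.Quotient.mk_surjective c
    apply Matrix.mem_range_scalar_of_commute_single
    intro i j _
    rw [h.sc'_mk]
    have h1 := congrArg φ (h.sc_comm c (φ.symm (Matrix.single i j 1)))
    rw [map_mul, map_mul, φ.apply_symm_apply] at h1
    exact h1.symm
  choose θ0 hθ0 using hsc
  let θ : 𝓞 F ⧸ v.asIdeal →+* Δ :=
    { toFun := θ0
      map_one' := hinj (by rw [hθ0, map_one, map_one, map_one])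
      map_mul' := fun x y => hinj (by rw [hθ0, map_mul, map_mul, map_mul, hθ0, hθ0])
      map_zero' := hinj (by rw [hθ0, map_zero, map_zero, map_zero])
      map_add' := fun x y => hinj (by rw [hθ0, map_add, map_add, map_add, hθ0, hθ0]) }
  have hθ : ∀ c, Matrix.scalar (Fin n) (θ c) = φ (h.sc' c) := hθ0
  have hθinj : Function.Injective θ := by
    rw [injective_iff_map_eq_zero]
    intro c hc
    obtain ⟨c, rfl⟩ := Ideal.Quotient.mk_surjective c
    have h1 := hθ (Ideal.Quotient.mk v.asIdeal c)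
    rw [hc, map_zero, h.sc'_mk] at h1
    have h2 : h.sc c = 0 := by
      apply φ.injective
      rw [← h1, map_zero]
    rw [h.sc_eq_zero] at h2
    exact (mk_eq_zero_iff v c).mpr h2
  have hθsurj : Function.Surjective θ := by
    intro δ
    obtain ⟨z, hz⟩ := Ideal.Quotient.mk_surjective (φ.symm (Matrix.scalar (Fin n) δ))
    obtain ⟨c, hc1, hc⟩ := h.central (z := z) (by
      intro y
      rw [← Ideal.Quotient.eq, map_mul, map_mul, hz]
      apply φ.injective
      rw [map_mul, map_mul, φ.apply_symm_apply]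
      ext i j
      rw [Matrix.scalar_apply, Matrix.diagonal_mul, Matrix.mul_diagonal]
      exact hcomm _ _)
    obtain ⟨c0, hc0⟩ := exists_residue v hc1
    refine ⟨Ideal.Quotient.mk v.asIdeal c0, hinj ?_⟩
    rw [hθ, h.sc'_mk]
    have h1 : h.sc c0 = Ideal.Quotient.mk h.idl z := by
      rw [h.sc_apply, Ideal.Quotient.eq, h.mem_idl]
      intro i
      have e : ((⟨algebraMap F D (c0 : F), h.alg_mem (v.valuation_le_one c0)⟩ - z : h.ord) : D) =
          algebraMap F D ((c0 : F) - c) + -((z : D) - algebraMap F D c) := by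
        rw [AddSubgroupClass.coe_sub, map_sub]
        change algebraMap F D (c0 : F) - (z : D) = _
        abel
      rw [e, map_add, Finsupp.add_apply]
      refine (Valuation.map_add _ _ _).trans_lt (max_lt ?_ ?_)
      · rw [Algebra.algebraMap_eq_smul_one, map_smul, Finsupp.smul_apply, smul_eq_mul, map_mul]
        calc _ ≤ v.valuation F ((c0 : F) - c) * 1 := mul_le_mul' le_rfl (h.one i)
          _ < 1 := by rw [mul_one]; exact hc0
      · rw [map_neg, Finsupp.neg_apply, Valuation.map_neg]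
        exact hc i
    rw [h1, hz, φ.apply_symm_apply]
  refine ⟨n, hn, Δ, iΔ, φ, θ, ?_, hθinj, fun c => (hθ c).symm⟩
  have h1 : Nat.card Δ = Nat.card (𝓞 F ⧸ v.asIdeal) :=
    (Nat.card_congr (Equiv.ofBijective θ ⟨hθinj, hθsurj⟩)).symm
  have h2 : Nat.card h.red = Nat.card Δ ^ (n * n) := by
    rw [Nat.card_congr φ.toEquiv]
    change Nat.card (Fin n → Fin n → Δ) = _
    rw [Nat.card_fun, Nat.card_fun, Nat.card_fin, ← pow_mul]
  rw [h1, hcard] at h2
  have h3 : 1 < Nat.card (𝓞 F ⧸ v.asIdeal) := Finite.one_lt_card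
  exact Nat.pow_right_injective h3 h2

end Vale.Agent.P011.W
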