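import Vale.Agent.P011.W.Cent

/-!
Symbol algebras of prime degree.
-/

open NumberField IsDedekindDomain Polynomial Module

namespace Vale.Agent.P011.W

section alg

variable {R A : Type*} [Field R] [Ring A] [Algebra R A]

/-- Moving `u` across a polynomial in `θ`. -/
theorem comm_aeval {ζ : R} {θ u : A} (hc : u * θ = algebraMap R A ζ * (θ * u)) (g : R[X]) :
    u * aeval θ g = aeval θ (g.comp (C ζ * X)) * u := by
  have hpow : ∀ k : ℕ, u * θ ^ k = algebraMap R A (ζ ^ k) * (θ ^ k * u) := by
    intro k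
    induction k with
    | zero => simp
    | succ k ih =>
      have h1 : θ ^ k * algebraMap R A ζ = algebraMap R A ζ * θ ^ k := (Algebra.commutes _ _).symm
      calc u * θ ^ (k + 1) = (u * θ ^ k) * θ := by rw [pow_succ, mul_assoc]
        _ = algebraMap R A (ζ ^ k) * (θ ^ k * (u * θ)) := by rw [ih]; simp only [mul_assoc]
        _ = algebraMap R A (ζ ^ k) * (θ ^ k * algebraMap R A ζ * (θ * u)) := by
          rw [hc]; simp only [mul_assoc]
        _ = algebraMap R A (ζ ^ k) * (algebraMap R A ζ * (θ ^ k * θ) * u) := by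
          rw [h1]; simp only [mul_assoc]
        _ = _ := by rw [← pow_succ, pow_succ ζ, map_mul]; simp only [mul_assoc]
  induction g using Polynomial.induction_on' with
  | add f g hf hg => rw [map_add, mul_add, hf, hg, add_comp, map_add, add_mul]
  | monomial k c =>
    rw [← C_mul_X_pow_eq_monomial, mul_comp, C_comp, X_pow_comp, mul_pow, ← C_pow]
    simp only [map_mul, aeval_C, map_pow, aeval_X]
    rw [← mul_assoc, ← Algebra.commutes c u, mul_assoc, hpow, map_pow]
    simp only [mul_assoc]

/-- The partial products of the conjugates of a polynomial. -/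
noncomputable def pcj (ζ : R) (h : R[X]) (j : ℕ) : R[X] :=
  ∏ i ∈ Finset.range j, h.comp (C (ζ ^ i) * X)

theorem pcj_succ (ζ : R) (h : R[X]) (j : ℕ) :
    pcj ζ h (j + 1) = (pcj ζ h j).comp (C ζ * X) * h := by
  unfold pcj
  rw [Finset.prod_range_succ', pow_zero, C_1, one_mul, comp_X, prod_comp]
  congr 1
  refine Finset.prod_congr rfl fun i _ => ?_
  rw [comp_assoc, mul_comp, C_comp, X_comp, pow_succ, C_mul, mul_assoc]

/-- Powers of `u` applied to a vector. -/
theorem pow_apply {V : Type*} [AddCommGroup V] [Module R V] {ζ : R} {θ u : Module.End R V}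
    (hc : u * θ = algebraMap R (Module.End R V) ζ * (θ * u)) {h : R[X]} {e : V}
    (he : u e = aeval θ h e) (j : ℕ) : (u ^ j) e = aeval θ (pcj ζ h j) e := by
  induction j with
  | zero => simp [pcj]
  | succ j ih =>
    rw [pow_succ', Module.End.mul_apply, ih, ← Module.End.mul_apply, comm_aeval hc,
      Module.End.mul_apply, he, ← Module.End.mul_apply, ← map_mul, pcj_succ]

/-- In dimension `n` the norm equation holds. -/
theorem exists_norm {V : Type*} [AddCommGroup V] [Module R V] [FiniteDimensional R V] {n : ℕ}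
    (hn : 0 < n) (hV : Module.finrank R V = n) {ζ a b : R} (hirr : Irreducible (X ^ n - C a : R[X]))
    {θ u : Module.End R V} (hθ : θ ^ n = algebraMap R (Module.End R V) a)
    (hu : u ^ n = algebraMap R (Module.End R V) b)
    (hc : u * θ = algebraMap R (Module.End R V) ζ * (θ * u)) :
    ∃ h : R[X], h.degree < n ∧ (X ^ n - C a) ∣ pcj ζ h n - C b := by
  have hnt : Nontrivial V := Module.finrank_pos_iff.mp (by rw [hV]; exact hn)
  obtain ⟨e, he⟩ := exists_ne (0 : V)
  have key : ∀ g : R[X], aeval θ g e = 0 → (X ^ n - C a) ∣ g := by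
    intro g h0
    by_contra hd
    obtain ⟨r, s, hrs⟩ := (hirr.coprime_iff_not_dvd).mpr hd
    have h1 : aeval θ (r * (X ^ n - C a) + s * g) = 1 := by rw [hrs, map_one]
    have h2 : aeval θ (X ^ n - C a) = 0 := by
      rw [map_sub, aeval_X_pow, aeval_C, hθ, sub_self]
    rw [map_add, map_mul, h2, mul_zero, zero_add, map_mul] at h1
    have h3 : (aeval θ s * aeval θ g) e = e := by rw [h1]; rfl
    rw [Module.End.mul_apply, h0, map_zero] at h3
    exact he h3.symm
  let ev : degreeLT R n →ₗ[R] V :=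
    { toFun := fun g => aeval θ (g : R[X]) e
      map_add' := fun x y => by simp
      map_smul' := fun c x => by simp }
  have hinj : Function.Injective ev := by
    rw [injective_iff_map_eq_zero]
    rintro ⟨g, hg⟩ h0
    rw [mem_degreeLT] at hg
    by_contra hne
    have hg0 : g ≠ 0 := fun h => hne (Subtype.ext h)
    have hmon : (X ^ n - C a : R[X]).degree = n := degree_X_pow_sub_C hn a
    have := degree_le_of_dvd (key g h0) hg0
    rw [hmon] at this
    exact absurd hg (not_lt.mpr this)
  have hfr : Module.finrank R (degreeLT R n) = Module.finrank R V := by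
    rw [hV, LinearEquiv.finrank_eq (degreeLTEquiv R n), Module.finrank_fin_fun]
  have hfd : FiniteDimensional R (degreeLT R n) :=
    Module.Finite.equiv (degreeLTEquiv R n).symm
  have hsurj := (LinearMap.injective_iff_surjective_of_finrank_eq_finrank hfr).mp hinj
  obtain ⟨⟨h, hh⟩, hhe⟩ := hsurj (u e)
  refine ⟨h, mem_degreeLT.mp hh, key _ ?_⟩
  have h1 := pow_apply hc (h := h) (e := e) hhe.symm n
  rw [map_sub, LinearMap.sub_apply, ← h1, hu, aeval_C, sub_self]

end alg

section div

variable {F Δ : Type*} [Field F] [DivisionRing Δ] [Algebra F Δ]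

theorem exists_factor {ι : Type*} (s : Finset ι) (f : ι → F[X]) (w : Δ)
    (h : aeval w (∏ i ∈ s, f i) = 0) : ∃ i ∈ s, aeval w (f i) = 0 := by
  classical
  induction s using Finset.induction_on with
  | empty => simp at h
  | insert a s ha ih =>
    rw [Finset.prod_insert ha, map_mul] at h
    rcases mul_eq_zero.mp h with h | h
    · exact ⟨a, Finset.mem_insert_self _ _, h⟩
    · obtain ⟨i, hi, h⟩ := ih h
      exact ⟨i, Finset.mem_insert_of_mem hi, h⟩

theorem prod_X_sub_zeta {p : ℕ} (hp : 0 < p) {ζ : F} (hζ : IsPrimitiveRoot ζ p) :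
    ∏ i ∈ Finset.range p, (X - C (ζ ^ i) : F[X]) = X ^ p - 1 := by
  classical
  have : NeZero p := ⟨hp.ne'⟩
  rw [X_pow_sub_one_eq_prod hp hζ]
  refine (Finset.prod_bij (fun i _ => ζ ^ i) ?_ ?_ ?_ ?_)
  · intro i _
    rw [mem_nthRootsFinset hp, ← pow_mul, mul_comm, pow_mul, hζ.pow_eq_one, one_pow]
  · intro i hi j hj h
    exact hζ.pow_inj (Finset.mem_range.mp hi) (Finset.mem_range.mp hj) h
  · intro y hy
    obtain ⟨i, hi, h⟩ := hζ.eq_pow_of_pow_eq_one ((mem_nthRootsFinset hp _).mp hy)
    exact ⟨i, Finset.mem_range.mpr hi, h⟩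
  · intro i _
    rfl

/-- B4 a symbol algebra of a norm is not a division algebra -/
theorem symbol_ne_norm {p : ℕ} (hp : p.Prime) {ζ a b : F} (hζ : IsPrimitiveRoot ζ p) {t x : Δ}
    (ha : a ≠ 0) (hb : b ≠ 0) (ht : t ^ p = algebraMap F Δ a) (hx : x ^ p = algebraMap F Δ b)
    (hxt : x * t = algebraMap F Δ ζ * t * x) (h : F[X]) (hn : (X ^ p - C a) ∣
      (∏ i ∈ Finset.range p, h.comp (C (ζ ^ i) * X)) - C b) : False := by
  have hc : x * t = algebraMap F Δ ζ * (t * x) := by rw [hxt, mul_assoc]
  have hn : (X ^ p - C a) ∣ pcj ζ h p - C b := hn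
  have ht0 : t ≠ 0 := by
    rintro rfl
    rw [zero_pow hp.ne_zero] at ht
    exact ha ((algebraMap F Δ).injective (ht.symm.trans (map_zero _).symm))
  have e1 : aeval t (pcj ζ h p) = algebraMap F Δ b := by
    obtain ⟨r, hr⟩ := hn
    have h1 := congrArg (aeval t) hr
    rw [map_sub, aeval_C, map_mul, map_sub, aeval_X_pow, aeval_C, ht, sub_self, zero_mul,
      sub_eq_zero] at h1
    exact h1
  set z : Δ := aeval t h with hz
  have hz0 : z ≠ 0 := by
    intro h0
    have h1 : aeval t (pcj ζ h p) = 0 := by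
      obtain ⟨q, hq⟩ : ∃ q, p = q + 1 := ⟨p - 1, (Nat.sub_add_cancel hp.pos).symm⟩
      rw [hq, pcj_succ, map_mul, ← hz, h0, mul_zero]
    rw [h1] at e1
    exact hb ((algebraMap F Δ).injective (e1.symm.trans (map_zero _).symm))
  set w : Δ := z⁻¹ * x with hw
  have hzw : z * w = x := by rw [hw, ← mul_assoc, mul_inv_cancel₀ hz0, one_mul]
  have hpw : ∀ j : ℕ, x ^ j = aeval t (pcj ζ h j) * w ^ j := by
    intro j
    induction j with
    | zero => simp [pcj]
    | succ j ih =>
      calc x ^ (j + 1) = x * (aeval t (pcj ζ h j) * w ^ j) := by rw [pow_succ', ih]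
        _ = aeval t ((pcj ζ h j).comp (C ζ * X)) * x * w ^ j := by
          rw [← mul_assoc, comm_aeval hc]
        _ = aeval t ((pcj ζ h j).comp (C ζ * X)) * z * (w * w ^ j) := by
          rw [← hzw]; simp only [mul_assoc]
        _ = _ := by rw [pcj_succ, map_mul, pow_succ']
  have hbΔ : algebraMap F Δ b ≠ 0 := (_root_.map_ne_zero (algebraMap F Δ)).mpr hb
  have hw1 : w ^ p = 1 := by
    have h1 := hpw p
    rw [hx, e1] at h1
    exact (mul_left_cancel₀ hbΔ ((mul_one _).trans h1)).symm
  have hwt : w * t = algebraMap F Δ ζ * (t * w) := by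
    have h1 : t * z = z * t := by
      have h0 : aeval t (X * h) = aeval t (h * X) := by rw [mul_comm]
      rwa [map_mul, map_mul, aeval_X, ← hz] at h0
    have h2 : t * z⁻¹ = z⁻¹ * t := by
      have h3 : z⁻¹ * (t * z) * z⁻¹ = z⁻¹ * (z * t) * z⁻¹ := by rw [h1]
      rw [← mul_assoc, mul_assoc (z⁻¹ * t), mul_inv_cancel₀ hz0, mul_one, ← mul_assoc z⁻¹ z t,
        inv_mul_cancel₀ hz0, one_mul] at h3
      exact h3.symm
    rw [hw, mul_assoc, hc, ← mul_assoc, ← Algebra.commutes ζ z⁻¹, mul_assoc, ← mul_assoc z⁻¹ t x,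
      ← h2, mul_assoc t]
  have hfac : aeval w (∏ i ∈ Finset.range p, (X - C (ζ ^ i) : F[X])) = 0 := by
    rw [prod_X_sub_zeta hp.pos hζ, map_sub, aeval_X_pow, map_one, hw1, sub_self]
  obtain ⟨i, _, hi⟩ := exists_factor _ _ w hfac
  rw [map_sub, aeval_X, aeval_C, sub_eq_zero] at hi
  have h1 : w * t = t * w := by rw [hi]; exact Algebra.commutes _ _
  have hw0 : w ≠ 0 := by
    intro h0
    rw [h0, zero_pow hp.ne_zero] at hw1
    exact zero_ne_one hw1
  rw [h1] at hwt
  have h2 : algebraMap F Δ ζ = 1 := by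
    have h3 : t * w ≠ 0 := mul_ne_zero ht0 hw0
    exact (mul_right_cancel₀ h3 ((one_mul _).trans hwt)).symm
  have h3 : ζ = 1 := (algebraMap F Δ).injective (h2.trans (map_one _).symm)
  exact hζ.ne_one hp.one_lt h3

end div

section symbol

variable {K B : Type} [Field K] [DivisionRing B] [Algebra K B] {p : ℕ}

/-- B3 a split symbol algebra comes from a norm (the case where `a` is not a `p`-th power in the
splitting field) -/
theorem norm_of_symbol (hp : p.Prime) {ζ a b : K} {t x : B}
    (ht : t ^ p = algebraMap K B a) (hx : x ^ p = algebraMap K B b)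
    (hxt : x * t = algebraMap K B ζ * t * x) {K' : Type} [Field K'] {φ₀ : K →+* K'}
    (ha : ∀ c : K', c ^ p ≠ φ₀ a) (h : Spl B p φ₀) :
    ∃ h : K'[X], h.degree < p ∧ (X ^ p - C (φ₀ a)) ∣
      (∏ i ∈ Finset.range p, h.comp (C (φ₀ ζ ^ i) * X)) - C (φ₀ b) := by
  obtain ⟨f, hf⟩ := h
  let φ : B →+* Module.End K' (Fin p → K') :=
    (Matrix.toLinAlgEquiv' : Matrix (Fin p) (Fin p) K' ≃ₐ[K'] _).toAlgHom.toRingHom.comp f
  have hφ : ∀ c : K, φ (algebraMap K B c) = algebraMap K' (Module.End K' (Fin p → K'))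
      (φ₀ c) := by
    intro c
    have h1 : f (algebraMap K B c) = algebraMap K' (Matrix (Fin p) (Fin p) K') (φ₀ c) := hf c
    change Matrix.toLinAlgEquiv' (f (algebraMap K B c)) = _
    rw [h1, AlgEquiv.commutes]
  refine exists_norm (R := K') (V := Fin p → K') hp.pos (Module.finrank_fin_fun K')
    (X_pow_sub_C_irreducible_of_prime hp ha) (θ := φ t) (u := φ x) ?_ ?_ ?_
  · rw [← map_pow, ht, hφ]
  · rw [← map_pow, hx, hφ]
  · rw [← map_mul, hxt, map_mul, map_mul, hφ, mul_assoc]

section ext

variable {L : Type} [Field L] [Algebra K L]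

/-- Every element of `K(θ)` is a polynomial of small degree in `θ`. -/
theorem exists_poly (hp : p.Prime) {a : K} (ha : ∀ c : K, c ^ p ≠ a) (hL : finrank K L = p) {θ : L}
    (hθ : θ ^ p = algebraMap K L a) (l : L) : ∃ g : K[X], g.degree < p ∧ aeval θ g = l := by
  have hfd : FiniteDimensional K L := Module.finite_of_finrank_pos (by rw [hL]; exact hp.pos)
  have hirr : Irreducible (X ^ p - C a : K[X]) := X_pow_sub_C_irreducible_of_prime hp ha
  let ev : degreeLT K p →ₗ[K] L :=
    { toFun := fun g => aeval θ (g : K[X])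
      map_add' := fun x y => by simp
      map_smul' := fun c x => by simp }
  have hmin : minpoly K θ = X ^ p - C a :=
    (minpoly.eq_of_irreducible_of_monic hirr (by
      rw [map_sub, aeval_X_pow, aeval_C, hθ, sub_self]) (monic_X_pow_sub_C a hp.ne_zero)).symm
  have hinj : Function.Injective ev := by
    rw [injective_iff_map_eq_zero]
    rintro ⟨g, hg⟩ h0
    rw [mem_degreeLT] at hg
    by_contra hne
    have hg0 : g ≠ 0 := fun h => hne (Subtype.ext h)
    have h1 := degree_le_of_dvd (minpoly.dvd K θ h0) hg0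
    rw [hmin, degree_X_pow_sub_C hp.pos a] at h1
    exact absurd hg (not_lt.mpr h1)
  have hfr : Module.finrank K (degreeLT K p) = Module.finrank K L := by
    rw [hL, LinearEquiv.finrank_eq (degreeLTEquiv K p), Module.finrank_fin_fun]
  have hfd : FiniteDimensional K (degreeLT K p) :=
    Module.Finite.equiv (degreeLTEquiv K p).symm
  obtain ⟨⟨g, hg⟩, h⟩ := (LinearMap.injective_iff_surjective_of_finrank_eq_finrank hfr).mp hinj l
  exact ⟨g, mem_degreeLT.mp hg, h⟩

/-- The automorphism of a Kummer extension. -/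
theorem exists_sigma (hp : p.Prime) {a ζ : K} (hζ : IsPrimitiveRoot ζ p) (ha : ∀ c : K, c ^ p ≠ a)
    (hL : finrank K L = p) {θ : L} (hθ : θ ^ p = algebraMap K L a) :
    ∃ σ : L →ₐ[K] L, σ θ = algebraMap K L ζ * θ ∧
      ∀ l, σ l = l → ∃ c : K, l = algebraMap K L c := by
  have hfd : FiniteDimensional K L := Module.finite_of_finrank_pos (by rw [hL]; exact hp.pos)
  have hirr : Irreducible (X ^ p - C a : K[X]) := X_pow_sub_C_irreducible_of_prime hp ha
  have hmin : minpoly K θ = X ^ p - C a :=
    (minpoly.eq_of_irreducible_of_monic hirr (by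
      rw [map_sub, aeval_X_pow, aeval_C, hθ, sub_self]) (monic_X_pow_sub_C a hp.ne_zero)).symm
  have hfact : Fact (Irreducible (X ^ p - C a : K[X])) := ⟨hirr⟩
  have hroot : ∀ y : L, y ^ p = algebraMap K L a →
      aeval y (X ^ p - C a : K[X]) = 0 := fun y hy => by
    rw [map_sub, aeval_X_pow, aeval_C, hy, sub_self]
  let e₁ : AdjoinRoot (X ^ p - C a : K[X]) →ₐ[K] L :=
    AdjoinRoot.liftAlgHom _ (Algebra.ofId K L) θ (hroot θ hθ)
  have hζθ : (algebraMap K L ζ * θ) ^ p = algebraMap K L a := by
    rw [mul_pow, ← map_pow, hζ.pow_eq_one, map_one, one_mul, hθ]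
  let e₂ : AdjoinRoot (X ^ p - C a : K[X]) →ₐ[K] L :=
    AdjoinRoot.liftAlgHom _ (Algebra.ofId K L) (algebraMap K L ζ * θ) (hroot _ hζθ)
  have he₁ : e₁ (AdjoinRoot.root _) = θ := AdjoinRoot.liftAlgHom_root _ _ _ _
  have he₂ : e₂ (AdjoinRoot.root _) = algebraMap K L ζ * θ := AdjoinRoot.liftAlgHom_root _ _ _ _
  have hbij : Function.Bijective e₁ := by
    refine ⟨e₁.toRingHom.injective, fun l => ?_⟩
    obtain ⟨g, _, hg⟩ := exists_poly hp ha hL hθ l
    refine ⟨aeval (AdjoinRoot.root _) g, ?_⟩
    rw [← aeval_algHom_apply, he₁, hg]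
  obtain ⟨σ, hσθ⟩ : ∃ σ : L →ₐ[K] L, σ θ = algebraMap K L ζ * θ := by
    obtain ⟨e, he⟩ : ∃ e : AdjoinRoot (X ^ p - C a : K[X]) ≃ₐ[K] L, ∀ y, e y = e₁ y :=
      ⟨AlgEquiv.ofBijective e₁ hbij, fun y => rfl⟩
    have he' : e.symm θ = AdjoinRoot.root _ := by
      rw [AlgEquiv.symm_apply_eq, he, he₁]
    refine ⟨e₂.comp e.symm.toAlgHom, ?_⟩
    change e₂ (e.symm θ) = _
    rw [he', he₂]
  clear_value e₁ e₂
  refine ⟨σ, hσθ, fun l hl => ?_⟩
  obtain ⟨g, hg, rfl⟩ := exists_poly hp ha hL hθ l
  rw [← aeval_algHom_apply, hσθ] at hl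
  have h1 : aeval θ (g.comp (C ζ * X) - g) = 0 := by
    rw [map_sub, aeval_comp, map_mul, aeval_C, aeval_X, hl, sub_self]
  have h2 : g.comp (C ζ * X) - g = 0 := by
    by_contra hne
    have h3 := degree_le_of_dvd (minpoly.dvd K θ h1) hne
    rw [hmin, degree_X_pow_sub_C hp.pos a] at h3
    have h4 : (g.comp (C ζ * X) - g).degree < p := by
      rw [degree_lt_iff_coeff_zero] at hg ⊢
      intro m hm
      rw [coeff_sub, comp_C_mul_X_coeff, hg m hm, zero_mul, sub_zero]
    exact absurd h4 (not_lt.mpr h3)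
  have h3 : ∀ i, i ≠ 0 → g.coeff i = 0 := by
    intro i hi
    by_cases hip : i < p
    · have h4 := congrArg (fun f => coeff f i) h2
      simp only [coeff_sub, comp_C_mul_X_coeff, coeff_zero] at h4
      by_contra hne
      have h5 : ζ ^ i = 1 := by
        have : g.coeff i * (ζ ^ i - 1) = 0 := by rw [mul_sub, mul_one]; exact h4
        exact sub_eq_zero.mp ((mul_eq_zero.mp this).resolve_left hne)
      exact absurd (Nat.le_of_dvd (Nat.pos_of_ne_zero hi) ((hζ.pow_eq_one_iff_dvd i).mp h5))
        (not_le.mpr hip)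
    · rw [degree_lt_iff_coeff_zero] at hg
      exact hg i (not_lt.mp hip)
  refine ⟨g.coeff 0, ?_⟩
  have h4 : g = C (g.coeff 0) := by
    ext i
    rw [coeff_C]
    split_ifs with h
    · rw [h]
    · exact h3 i h
  conv_lhs => rw [h4]
  rw [aeval_C]

end ext

section skolem

theorem mem_range_of_comm' {D : Type} [DivisionRing D] [Algebra K D]
    [Algebra.IsCentral K D] {w : D} (h : ∀ a : D, a * w = w * a) :
    ∃ k : K, algebraMap K D k = w := by
  have h1 : w ∈ Subalgebra.center K D := Subalgebra.mem_center_iff.mpr h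
  have h2 := Algebra.IsCentral.out h1
  rw [Algebra.mem_bot] at h2
  exact h2

theorem sandwich {D : Type} [DivisionRing D] [Algebra K D]
    [Algebra.IsCentral K D] {ι : Type} [DecidableEq ι] (e : ι → D) (he : LinearIndependent K e) :
    ∀ (s : Finset ι) (v : ι → D), (∀ d : D, ∑ j ∈ s, e j * d * v j = 0) → ∀ j ∈ s, v j = 0 := by
  intro s
  induction s using Finset.strongInduction with
  | H s ih =>
    intro v hv
    by_contra hcon
    push Not at hcon
    obtain ⟨j0, hj0, hne⟩ := hcon
    let w : ι → D := fun j => v j * (v j0)⁻¹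
    have hw0 : w j0 = 1 := mul_inv_cancel₀ hne
    have hw : ∀ d : D, ∑ j ∈ s, e j * d * w j = 0 := by
      intro d
      have := congrArg (· * (v j0)⁻¹) (hv d)
      simp only [Finset.sum_mul, zero_mul, mul_assoc] at this
      simpa only [w, mul_assoc] using this
    have hcomm : ∀ j ∈ s, ∀ a : D, a * w j = w j * a := by
      intro j hj a
      by_cases hjj : j = j0
      · rw [hjj, hw0]; simp
      · have := ih (s.erase j0) (Finset.erase_ssubset hj0) (fun j => a * w j - w j * a) (by
          intro d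
          have h1 : ∑ j ∈ s, e j * d * (a * w j - w j * a) = 0 := by
            have e1 := hw (d * a)
            have e2 := congrArg (· * a) (hw d)
            simp only [Finset.sum_mul, zero_mul] at e2
            calc ∑ j ∈ s, e j * d * (a * w j - w j * a)
                = ∑ j ∈ s, e j * (d * a) * w j - ∑ j ∈ s, e j * d * w j * a := by
                  rw [← Finset.sum_sub_distrib]
                  refine Finset.sum_congr rfl fun j _ => ?_
                  noncomm_ring
              _ = 0 := by rw [e1, e2, sub_zero]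
          rw [← Finset.add_sum_erase s _ hj0, hw0] at h1
          simpa only [mul_one, one_mul, sub_self, mul_zero, zero_add] using h1) j
            (Finset.mem_erase.mpr ⟨hjj, hj⟩)
        exact sub_eq_zero.mp this
    have hK : ∀ j, ∃ k : K, j ∈ s → algebraMap K D k = w j := by
      intro j
      by_cases hj : j ∈ s
      · obtain ⟨k, hk⟩ := mem_range_of_comm' (K := K) (hcomm j hj)
        exact ⟨k, fun _ => hk⟩
      · exact ⟨0, fun h => absurd h hj⟩
    choose k hk using hK
    have h1 : ∑ j ∈ s, k j • e j = 0 := by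
      rw [← hw 1]
      refine Finset.sum_congr rfl fun j hj => ?_
      rw [mul_one, ← hk j hj, Algebra.smul_def, Algebra.commutes]
    have h2 := (linearIndependent_iff'.mp he) s k h1 j0 hj0
    have h3 := hk j0 hj0
    rw [h2, hw0, map_zero] at h3
    exact zero_ne_one h3

/-- A5 Skolem-Noether for subfields of a division algebra -/
theorem skolem [CharZero K] [FiniteDimensional K B] [Algebra.IsCentral K B]
    {L : Type} [Field L] [Algebra K L] [FiniteDimensional K L] (i j : L →ₐ[K] B) :
    ∃ g : B, g ≠ 0 ∧ ∀ l, g * i l = j l * g := by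
  classical
  let pb := Field.powerBasisOfFiniteOfSeparable K L
  set α : L := pb.gen with hα
  set x : B := i α with hx
  set y : B := j α with hy
  set f : K[X] := minpoly K α with hf
  set n := f.natDegree with hn
  have hint : IsIntegral K α := Algebra.IsIntegral.isIntegral α
  have hmon : f.Monic := minpoly.monic hint
  have hfx : aeval x f = 0 := by rw [hx, aeval_algHom_apply, minpoly.aeval, map_zero]
  have hfy : aeval y f = 0 := by rw [hy, aeval_algHom_apply, minpoly.aeval, map_zero]
  have hn0 : 0 < n := minpoly.natDegree_pos hint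
  -- the sandwich
  let w : ℕ → B := fun a => ∑ k ∈ Finset.range (n + 1), if a < k then
    algebraMap K B (f.coeff k) * x ^ (k - 1 - a) else 0
  let Φ : B → B := fun d => ∑ a ∈ Finset.range n, y ^ a * d * w a
  have hΦ : ∀ d, Φ d = ∑ k ∈ Finset.range (n + 1), algebraMap K B (f.coeff k) *
      ∑ a ∈ Finset.range k, y ^ a * d * x ^ (k - 1 - a) := by
    intro d
    have h1 : ∀ a, y ^ a * d * w a = ∑ k ∈ Finset.range (n + 1), if a < k then
        algebraMap K B (f.coeff k) * (y ^ a * d * x ^ (k - 1 - a)) else 0 := by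
      intro a
      rw [Finset.mul_sum]
      refine Finset.sum_congr rfl fun k _ => ?_
      split_ifs with h
      · rw [← mul_assoc, ← mul_assoc, Algebra.commutes (f.coeff k) (y ^ a * d)]
      · rw [mul_zero]
    change ∑ a ∈ Finset.range n, y ^ a * d * w a = _
    rw [Finset.sum_congr rfl fun a _ => h1 a, Finset.sum_comm]
    refine Finset.sum_congr rfl fun k hk => ?_
    rw [Finset.mem_range] at hk
    rw [← Finset.sum_filter, Finset.mul_sum]
    refine Finset.sum_congr ?_ fun _ _ => rfl
    ext a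
    simp only [Finset.mem_filter, Finset.mem_range]
    omega
  have hcomm : ∀ d, y * Φ d = Φ d * x := by
    intro d
    have h1 : ∀ k : ℕ, y * (∑ a ∈ Finset.range k, y ^ a * d * x ^ (k - 1 - a)) -
        (∑ a ∈ Finset.range k, y ^ a * d * x ^ (k - 1 - a)) * x = y ^ k * d - d * x ^ k := by
      intro k
      have h2 : y * (∑ a ∈ Finset.range k, y ^ a * d * x ^ (k - 1 - a)) =
          ∑ a ∈ Finset.range k, y ^ (a + 1) * d * x ^ (k - (a + 1)) := by
        rw [Finset.mul_sum]
        refine Finset.sum_congr rfl fun a ha => ?_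
        rw [pow_succ', show k - 1 - a = k - (a + 1) by omega]
        simp only [mul_assoc]
      have h3 : (∑ a ∈ Finset.range k, y ^ a * d * x ^ (k - 1 - a)) * x =
          ∑ a ∈ Finset.range k, y ^ a * d * x ^ (k - a) := by
        rw [Finset.sum_mul]
        refine Finset.sum_congr rfl fun a ha => ?_
        rw [Finset.mem_range] at ha
        rw [mul_assoc, ← pow_succ, show k - 1 - a + 1 = k - a by omega]
      rw [h2, h3, ← Finset.sum_sub_distrib,
        Finset.sum_range_sub (fun a => y ^ a * d * x ^ (k - a)) k]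
      simp
    have h2 : y * Φ d - Φ d * x = 0 := by
      rw [hΦ, Finset.mul_sum, Finset.sum_mul, ← Finset.sum_sub_distrib]
      have h3 : ∀ k, y * (algebraMap K B (f.coeff k) *
          ∑ a ∈ Finset.range k, y ^ a * d * x ^ (k - 1 - a)) -
          algebraMap K B (f.coeff k) * (∑ a ∈ Finset.range k, y ^ a * d * x ^ (k - 1 - a)) * x =
          algebraMap K B (f.coeff k) * y ^ k * d - d * (algebraMap K B (f.coeff k) * x ^ k) := by
        intro k
        have h4 : y * (algebraMap K B (f.coeff k) *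
            ∑ a ∈ Finset.range k, y ^ a * d * x ^ (k - 1 - a)) =
            algebraMap K B (f.coeff k) * (y *
              ∑ a ∈ Finset.range k, y ^ a * d * x ^ (k - 1 - a)) := by
          rw [← mul_assoc, ← Algebra.commutes (f.coeff k) y, mul_assoc]
        have h5 : d * (algebraMap K B (f.coeff k) * x ^ k) =
            algebraMap K B (f.coeff k) * (d * x ^ k) := by
          rw [← mul_assoc, ← Algebra.commutes (f.coeff k) d, mul_assoc]
        rw [h4, h5, mul_assoc (algebraMap K B (f.coeff k)) _ x, ← mul_sub, h1,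
          mul_assoc _ (y ^ k) d, ← mul_sub]
      rw [Finset.sum_congr rfl fun k _ => h3 k, Finset.sum_sub_distrib, ← Finset.sum_mul,
        ← Finset.mul_sum]
      have h4 : ∀ z : B, ∑ k ∈ Finset.range (n + 1), algebraMap K B (f.coeff k) * z ^ k =
          aeval z f := by
        intro z
        rw [aeval_eq_sum_range]
        exact Finset.sum_congr rfl fun k _ => (Algebra.smul_def _ _).symm
      rw [h4, h4, hfx, hfy, zero_mul, mul_zero, sub_zero]
    exact sub_eq_zero.mp h2
  obtain ⟨d, hd⟩ : ∃ d, Φ d ≠ 0 := by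
    by_contra hcon
    push Not at hcon
    have hmy : minpoly K y = f := minpoly.algHom_eq j j.toRingHom.injective α
    have hli : LinearIndependent K fun a : Fin n => y ^ (a : ℕ) := by
      have h := linearIndependent_pow (K := K) y
      rw [hmy] at h
      exact h
    have h1 := sandwich (K := K) (fun a : Fin n => y ^ (a : ℕ)) hli Finset.univ
      (fun a => w a) (fun d => by
        rw [Fin.sum_univ_eq_sum_range (fun a => y ^ a * d * w a) n]
        exact hcon d) ⟨n - 1, by omega⟩ (Finset.mem_univ _)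
    have h2 : w (n - 1) = 1 := by
      change ∑ k ∈ Finset.range (n + 1), (if n - 1 < k then
        algebraMap K B (f.coeff k) * x ^ (k - 1 - (n - 1)) else 0) = 1
      rw [Finset.sum_eq_single_of_mem n (Finset.self_mem_range_succ n)]
      · rw [if_pos (by omega), Nat.sub_self, pow_zero, mul_one, hmon.coeff_natDegree, map_one]
      · intro k hk hkn
        rw [Finset.mem_range] at hk
        rw [if_neg (by omega)]
    have h1 : w (n - 1) = 0 := h1
    rw [h2] at h1
    exact one_ne_zero h1
  refine ⟨Φ d, hd, fun l => ?_⟩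
  obtain ⟨g, rfl⟩ : ∃ g : K[X], l = aeval α g := pb.exists_eq_aeval' l
  rw [← aeval_algHom_apply, ← aeval_algHom_apply]
  change Φ d * aeval x g = aeval y g * Φ d
  induction g using Polynomial.induction_on' with
  | add g₁ g₂ h₁ h₂ => rw [map_add, map_add, mul_add, add_mul, h₁, h₂]
  | monomial k c =>
    have h1 : ∀ k : ℕ, Φ d * x ^ k = y ^ k * Φ d := by
      intro k
      induction k with
      | zero => simp
      | succ k ih => rw [pow_succ, ← mul_assoc, ih, mul_assoc, ← hcomm, ← mul_assoc, ← pow_succ]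
    rw [aeval_monomial, aeval_monomial, ← mul_assoc, ← Algebra.commutes c (Φ d), mul_assoc, h1,
      mul_assoc]

end skolem

/-- B2 symbol algebras -/
theorem exists_symbol [CharZero K] [FiniteDimensional K B] [Algebra.IsCentral K B] (hp : p.Prime)
    (hB : finrank K B = p ^ 2) {ζ : K}
    (hζ : IsPrimitiveRoot ζ p) {a : K} (ha : ∀ c : K, c ^ p ≠ a) {L : Type} [Field L] [Algebra K L]
    (hL : finrank K L = p) {θ : L} (hθ : θ ^ p = algebraMap K L a)
    (h : Spl B p (algebraMap K L)) :
    ∃ (t x : B) (b : K), b ≠ 0 ∧ t ^ p = algebraMap K B a ∧ x ^ p = algebraMap K B b ∧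
      x * t = algebraMap K B ζ * t * x := by
  have hfd : FiniteDimensional K L := Module.finite_of_finrank_pos (by rw [hL]; exact hp.pos)
  obtain ⟨j⟩ := embed_of_spl hB hL h
  obtain ⟨σ, hσ, hfix⟩ := exists_sigma hp hζ ha hL hθ
  obtain ⟨x, hx0, hx⟩ := skolem j (j.comp σ)
  obtain ⟨C', _, _, _, _, ι, hC1, hC2, hC3⟩ := exists_centralizer (m := 1) (n := p)
    (by rw [mul_one]; exact hB) hL hp.pos j
  have hcen : ∀ y : B, (∀ z, y * j z = j z * y) → ∃ l, y = j l := by
    intro y hy
    obtain ⟨c, hc⟩ := hC3 y hy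
    have h1 : finrank L C' = 1 := by rw [hC1, one_pow]
    obtain ⟨l, hl⟩ : ∃ l : L, algebraMap L C' l = c := by
      have h2 := (finrank_eq_one_iff_of_nonzero' (1 : C') one_ne_zero).mp h1 c
      obtain ⟨l, hl⟩ := h2
      exact ⟨l, by rw [Algebra.algebraMap_eq_smul_one, hl]⟩
    exact ⟨l, by rw [← hc, ← hl, hC2]⟩
  have hpow : ∀ (i : ℕ) (l : L), x ^ i * j l = j ((σ ^ i) l) * x ^ i := by
    intro i
    induction i with
    | zero => intro l; simp
    | succ i ih =>
      intro l
      rw [pow_succ, mul_assoc, hx, ← mul_assoc, AlgHom.comp_apply, ih, mul_assoc, ← pow_succ,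
        pow_succ σ, AlgHom.mul_apply]
  have hσp : ∀ l, (σ ^ p) l = l := by
    have h1 : ∀ i : ℕ, (σ ^ i) θ = algebraMap K L (ζ ^ i) * θ := by
      intro i
      induction i with
      | zero => simp
      | succ i ih =>
        rw [pow_succ', AlgHom.mul_apply, ih, map_mul, AlgHom.commutes, hσ, pow_succ, map_mul]
        ring
    intro l
    obtain ⟨g, _, rfl⟩ := exists_poly hp ha hL hθ l
    rw [← aeval_algHom_apply, h1, hζ.pow_eq_one, map_one, one_mul]
  obtain ⟨l, hl⟩ := hcen (x ^ p) fun z => by rw [hpow, hσp]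
  have hl2 : σ l = l := by
    have h1 := hx l
    rw [← hl, ← pow_succ', AlgHom.comp_apply, pow_succ, hl] at h1
    exact (j.toRingHom.injective (mul_right_cancel₀ hx0 h1)).symm
  obtain ⟨b, rfl⟩ := hfix l hl2
  refine ⟨j θ, x, b, ?_, ?_, ?_, ?_⟩
  · rintro rfl
    rw [map_zero, map_zero] at hl
    exact pow_ne_zero p hx0 hl
  · rw [← map_pow, hθ, AlgHom.commutes]
  · rw [hl, AlgHom.commutes]
  · rw [hx, AlgHom.comp_apply, hσ, map_mul, AlgHom.commutes]

end symbol

end Vale.Agent.P011.W
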