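import Vale.Agent.P011.W.Nrd
import Vale.Agent.P011.W.Cent
import Vale.Agent.P011.W.Sign
import Vale.Agent.P011.W.Eich
import Vale.Agent.P011.W.Sym

/-!
The inductive step for the reduced Whitehead group in prime power degree.
-/

open Module Polynomial NumberField

namespace Vale.Agent.P011.W


theorem F0_conj {D A : Type} [DivisionRing D] [CommGroup A] {F0 : D → A}
    (hmul : ∀ a b : D, a ≠ 0 → b ≠ 0 → F0 (a * b) = F0 a * F0 b) {g x : D} (hg : g ≠ 0)
    (hx : x ≠ 0) : F0 (g * x * g⁻¹) = F0 x := by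
  have h1 : F0 (g * x * g⁻¹ * g) = F0 (g * x * g⁻¹) * F0 g :=
    hmul _ _ (mul_ne_zero (mul_ne_zero hg hx) (inv_ne_zero hg)) hg
  rw [inv_mul_cancel_right₀ hg, hmul _ _ hg hx, mul_comm] at h1
  exact (mul_right_cancel h1).symm

/-- The inductive step. -/
theorem sk1_step {p e : ℕ} (hp : p.Prime) {E D A : Type} [Field E] [NumberField E]
    [DivisionRing D] [Algebra E D] [FiniteDimensional E D] [Algebra.IsCentral E D] [CommGroup A]
    (hD : finrank E D = (p ^ (e + 1)) ^ 2) {L Z : Type} [Field L] [Algebra E L]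
    (hL : finrank E L = p ^ (e + 1)) (j : L →ₐ[E] D) [Field Z] [NumberField Z] [Algebra E Z]
    [Algebra Z L] [IsScalarTower E Z L] [FiniteDimensional E Z] [IsGalois E Z]
    (hZ : finrank E Z = p) (u : L) (hu : Algebra.norm E u = 1)
    (IH : ∀ (C : Type) [DivisionRing C] [Algebra Z C] [FiniteDimensional Z C]
      [Algebra.IsCentral Z C] (_ : finrank Z C = (p ^ e) ^ 2) (F0 : C → A)
      (_ : ∀ a b : C, a ≠ 0 → b ≠ 0 → F0 (a * b) = F0 a * F0 b) (_ : F0 (-1) = 1) (u : C)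
      (_ : HasNrd Z (p ^ e) u 1), ∃ k, Nat.Coprime k p ∧ F0 u ^ k = 1)
    (F1 : D → A) (hmul : ∀ a b : D, a ≠ 0 → b ≠ 0 → F1 (a * b) = F1 a * F1 b)
    (hneg : F1 (-1) = 1) : ∃ k, Nat.Coprime k p ∧ F1 (j u) ^ k = 1 := by
  have hfL : FiniteDimensional E L :=
    Module.finite_of_finrank_pos (by rw [hL]; exact pow_pos hp.pos _)
  have hfZL : FiniteDimensional Z L := Module.Finite.of_restrictScalars_finite E Z L
  have hu0 : u ≠ 0 := by
    rintro rfl
    rw [Algebra.norm_zero] at hu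
    exact zero_ne_one hu
  let jZ : Z →ₐ[E] D := j.comp (IsScalarTower.toAlgHom E Z L)
  have hjZ : ∀ z, jZ z = j (algebraMap Z L z) := fun z => rfl
  obtain ⟨C, _, _, _, _, ι, hC, hιZ, hιc⟩ := exists_centralizer (F := E) (D := D) (m := p ^ e)
    (n := p) (by rw [hD, pow_succ' p e]) hZ hp.pos jZ
  have hιinj : Function.Injective ι := ι.injective
  -- the maximal subfield in the centralizer
  have hcomm : ∀ l z, j l * jZ z = jZ z * j l := by
    intro l z
    rw [hjZ, ← map_mul, ← map_mul, mul_comm]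
  choose c hc using fun l => hιc (j l) (hcomm l)
  let jC : L →ₐ[Z] C :=
    { toFun := c
      map_one' := hιinj (by rw [hc, map_one, map_one])
      map_mul' := fun x y => hιinj (by rw [hc, map_mul, map_mul, hc, hc])
      map_zero' := hιinj (by rw [hc, map_zero, map_zero])
      map_add' := fun x y => hιinj (by rw [hc, map_add, map_add, hc, hc])
      commutes' := fun z => hιinj (by rw [hc, hιZ, hjZ]) }
  have hjC : ∀ l, ι (jC l) = j l := hc
  have hZL : finrank Z L = p ^ e := by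
    have h1 := finrank_mul_finrank E Z L
    rw [hZ, hL, pow_succ'] at h1
    exact Nat.eq_of_mul_eq_mul_left hp.pos h1
  have hy0 : HasNrd Z (p ^ e) (jC u) (Algebra.norm Z u) := hasNrd_norm hC hZL jC u
  have hn : Algebra.norm E (Algebra.norm Z u) = 1 := by rw [Algebra.norm_norm, hu]
  -- Hilbert 90
  have : Fact p.Prime := ⟨hp⟩
  have hcard : Nat.card (Z ≃ₐ[E] Z) = p := by rw [IsGalois.card_aut_eq_finrank, hZ]
  have hcyc : IsCyclic (Z ≃ₐ[E] Z) := isCyclic_of_prime_card hcard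
  obtain ⟨σ, hσ⟩ := hcyc.exists_generator
  have hσ1 : σ ≠ 1 := by
    rintro rfl
    have h1 : ∀ τ : Z ≃ₐ[E] Z, τ = 1 := fun τ => by
      have := hσ τ
      rwa [Subgroup.zpowers_one_eq_bot, Subgroup.mem_bot] at this
    have h2 : Nat.card (Z ≃ₐ[E] Z) = 1 := by
      rw [Nat.card_eq_one_iff_unique]
      exact ⟨⟨fun a b => (h1 a).trans (h1 b).symm⟩, ⟨1⟩⟩
    rw [hcard] at h2
    exact hp.one_lt.ne' h2
  obtain ⟨y, hy⟩ := groupCohomology.exists_div_of_norm_eq_one hσ hn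
  have hy00 : (y : Z) ≠ 0 := y.ne_zero
  have hσy : σ (y : Z) ≠ 0 := by
    rw [Ne, EmbeddingLike.map_eq_zero_iff]; exact hy00
  -- Skolem-Noether
  obtain ⟨g, hg0, hg⟩ := skolem jZ (jZ.comp (σ : Z →ₐ[E] Z))
  have hg' : ∀ z, g * jZ z = jZ (σ z) * g := hg
  have hcomm' : ∀ x z, ι x * jZ z = jZ z * ι x := by
    intro x z
    rw [← hιZ, ← map_mul, ← map_mul, Algebra.commutes]
  have hconj : ∀ x z, g * ι x * g⁻¹ * jZ z = jZ z * (g * ι x * g⁻¹) := by
    intro x z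
    obtain ⟨w, rfl⟩ := σ.surjective z
    have h1 : g⁻¹ * jZ (σ w) = jZ w * g⁻¹ := by
      have h2 : jZ (σ w) = g * jZ w * g⁻¹ := by
        rw [hg', mul_assoc, mul_inv_cancel₀ hg0, mul_one]
      rw [h2, ← mul_assoc, ← mul_assoc, inv_mul_cancel₀ hg0, one_mul]
    calc g * ι x * g⁻¹ * jZ (σ w) = g * ι x * (g⁻¹ * jZ (σ w)) := mul_assoc _ _ _
      _ = g * (ι x * jZ w) * g⁻¹ := by rw [h1]; simp only [mul_assoc]
      _ = g * jZ w * ι x * g⁻¹ := by rw [hcomm']; simp only [mul_assoc]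
      _ = jZ (σ w) * (g * ι x * g⁻¹) := by rw [hg']; simp only [mul_assoc]
  choose κ0 hκ0 using fun x => hιc (g * ι x * g⁻¹) (hconj x)
  let κ : C →+* C :=
    { toFun := κ0
      map_one' := hιinj (by rw [hκ0, map_one, mul_one, mul_inv_cancel₀ hg0])
      map_mul' := fun x y => hιinj (by
        rw [hκ0, map_mul, map_mul, hκ0, hκ0]
        simp only [mul_assoc, inv_mul_cancel_left₀ hg0])
      map_zero' := hιinj (by rw [hκ0, map_zero, mul_zero, zero_mul])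
      map_add' := fun x y => hιinj (by rw [hκ0, map_add, map_add, hκ0, hκ0, mul_add, add_mul]) }
  have hκ : ∀ x, ι (κ x) = g * ι x * g⁻¹ := hκ0
  have hκZ : ∀ z, κ (algebraMap Z C z) = algebraMap Z C (σ z) := by
    intro z
    apply hιinj
    rw [hκ, hιZ, hιZ, hg', mul_assoc, mul_inv_cancel₀ hg0, mul_one]
  -- Eichler's theorem
  obtain ⟨c0, hc0, hc1⟩ : ∃ c0 : E, c0 ≠ 0 ∧
      (p = 2 → ∀ φ : Z →+* ℝ, Spl C (p ^ e) φ ∨ 0 < φ (algebraMap E Z c0 * y)) := by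
    by_cases hp2 : p = 2
    · obtain ⟨c0, hc0, h⟩ := exists_sign_of (e := e) hp2 hZ σ hσ1 hC hZL jC hu0 hy00 hy
      exact ⟨c0, hc0, fun _ => h⟩
    · exact ⟨1, one_ne_zero, fun h => absurd h hp2⟩
  have hcE : algebraMap E Z c0 ≠ 0 := (_root_.map_ne_zero _).mpr hc0
  have hcy : algebraMap E Z c0 * y ≠ 0 := mul_ne_zero hcE hy00
  obtain ⟨t, ht⟩ := eichler hp hC (algebraMap E Z c0 * y) hcy hc1
  have ht0 : t ≠ 0 := ht.ne_zero hC hcy
  have hκt : HasNrd Z (p ^ e) (κ t) (σ (algebraMap E Z c0 * y)) := by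
    rw [hasNrd_iff]
    intro Ω _ φ f hf
    have h1 := hasNrd_iff.mp ht Ω (φ.comp (σ : Z →+* Z)) (f.comp κ) (by
      intro z
      rw [RingHom.comp_apply, hκZ, hf]
      rfl)
    exact h1
  have hκt0 : κ t ≠ 0 := by
    rw [Ne, map_eq_zero]; exact ht0
  have hv : HasNrd Z (p ^ e) (jC u * κ t * t⁻¹) 1 := by
    have h1 := (hy0.mul hκt).mul (ht.inv ht0)
    have e1 : Algebra.norm Z u * σ (algebraMap E Z c0 * y) * (algebraMap E Z c0 * y)⁻¹ = 1 := by
      rw [← hy, map_mul, AlgEquiv.commutes]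
      field_simp
    rwa [e1] at h1
  -- the induction hypothesis
  have hι0 : ∀ x : C, x ≠ 0 → ι x ≠ 0 := fun x hx => by rwa [Ne, map_eq_zero]
  obtain ⟨k, hk, hk1⟩ := IH C hC (fun x => F1 (ι x)) (fun a b ha hb => by
    rw [map_mul]; exact hmul _ _ (hι0 a ha) (hι0 b hb)) (by rw [map_neg, map_one]; exact hneg)
    _ hv
  refine ⟨k, hk, ?_⟩
  have hju : j u ≠ 0 := by rwa [Ne, map_eq_zero]
  have hιt : ι t ≠ 0 := hι0 t ht0
  have hιt' : g * ι t * g⁻¹ ≠ 0 := mul_ne_zero (mul_ne_zero hg0 hιt) (inv_ne_zero hg0)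
  have h1 : F1 (ι (jC u * κ t * t⁻¹)) * F1 (ι t) = F1 (j u) * F1 (ι t) := by
    rw [map_mul, map_mul, hjC, hκ, map_inv₀, ← hmul _ _ (mul_ne_zero (mul_ne_zero hju hιt')
      (inv_ne_zero hιt)) hιt, inv_mul_cancel_right₀ hιt, hmul _ _ hju hιt',
      F0_conj hmul hg0 hιt]
  have h2 : F1 (ι (jC u * κ t * t⁻¹)) = F1 (j u) := mul_right_cancel h1
  change F1 (ι (jC u * κ t * t⁻¹)) ^ k = 1 at hk1
  rwa [h2] at hk1

end Vale.Agent.P011.W
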