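import Vale.Agent.P011.W.Defs
import Vale.Agent.P011.Even.LocFin

/-!
Splitting of division algebras and the regular representation over a subfield.
-/

open Module NumberField IsDedekindDomain

namespace Vale.Agent.P011.W

section basic

variable {F D : Type} [Field F] [DivisionRing D] [Algebra F D] {q : ℕ}

theorem spl_of_algHom {R : Type} [Field R] [Algebra F R] (f : D →ₐ[F] Matrix (Fin q) (Fin q) R) :
    Spl D q (algebraMap F R) := by
  refine ⟨f, fun c => ?_⟩
  change f (algebraMap F D c) = _
  rw [f.commutes]
  ext i j
  rw [Matrix.algebraMap_matrix_apply, Matrix.scalar_apply, Matrix.diagonal_apply]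

/-- The algebra homomorphism. -/
theorem Spl.exists_algHom {R : Type} [Field R] [Algebra F R] (h : Spl D q (algebraMap F R)) :
    Nonempty (D →ₐ[F] Matrix (Fin q) (Fin q) R) := by
  obtain ⟨f, hf⟩ := h
  refine ⟨{ f with commutes' := fun c => ?_ }⟩
  change f (algebraMap F D c) = _
  rw [hf]
  ext i j
  rw [Matrix.algebraMap_matrix_apply, Matrix.scalar_apply, Matrix.diagonal_apply]

end basic

section reg

variable {L D : Type} [Field L] [DivisionRing D] (ι : L →+* D)

/-- The vector space structure given by left multiplication. -/
@[reducible] def modL : Module L D := Module.compHom D ι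

/-- The matrices of the right multiplications. -/
theorem exists_reg {n : ℕ} (e : @Module.Basis (Fin n) L D _ _ (modL ι)) :
    ∃ X : D →+* Matrix (Fin n) (Fin n) L, (∀ d i, e i * d = ∑ j, ι (X d i j) * e j) ∧
      ∀ (z : D) (l : Fin n → L), (∀ i, e i * z = ι (l i) * e i) → X z = Matrix.diagonal l := by
  let _ := modL ι
  have hs : ∀ (l : L) (d : D), l • d = ι l * d := fun _ _ => rfl
  let X0 : D → Matrix (Fin n) (Fin n) L := fun d => Matrix.of fun i j => e.repr (e i * d) j
  have h0 : ∀ d i, e i * d = ∑ j, X0 d i j • e j := fun d i => (e.sum_repr (e i * d)).symm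
  have huniq : ∀ (d : D) (M : Matrix (Fin n) (Fin n) L), (∀ i, e i * d = ∑ j, M i j • e j) →
      X0 d = M := by
    intro d M hM
    ext i j
    change e.repr (e i * d) j = _
    rw [hM i, e.repr_sum_self]
  refine ⟨{ toFun := X0
            map_one' := ?_
            map_mul' := ?_
            map_zero' := ?_
            map_add' := ?_ }, fun d i => h0 d i, ?_⟩
  · apply huniq
    intro i
    rw [mul_one, Finset.sum_eq_single i]
    · rw [Matrix.one_apply_eq, one_smul]
    · intro j _ hj
      rw [Matrix.one_apply_ne (Ne.symm hj), zero_smul]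
    · intro h; exact absurd (Finset.mem_univ _) h
  · intro d d'
    apply huniq
    intro i
    rw [← mul_assoc, h0 d i, Finset.sum_mul]
    have h1 : ∀ j, X0 d i j • e j * d' = ∑ k, (X0 d i j * X0 d' j k) • e k := by
      intro j
      rw [hs, mul_assoc, h0 d' j, Finset.mul_sum]
      refine Finset.sum_congr rfl fun k _ => ?_
      rw [hs, hs, map_mul, mul_assoc]
    rw [Finset.sum_congr rfl fun j _ => h1 j, Finset.sum_comm]
    refine Finset.sum_congr rfl fun k _ => ?_
    rw [Matrix.mul_apply, Finset.sum_smul]
  · apply huniq
    intro i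
    simp
  · intro d d'
    apply huniq
    intro i
    rw [mul_add, h0 d i, h0 d' i, ← Finset.sum_add_distrib]
    refine Finset.sum_congr rfl fun j _ => ?_
    rw [Matrix.add_apply, add_smul]
  · intro z l hz
    apply huniq
    intro i
    rw [hz i, Finset.sum_eq_single i]
    · rw [Matrix.diagonal_apply_eq, hs]
    · intro j _ hj
      rw [Matrix.diagonal_apply_ne _ (Ne.symm hj), zero_smul]
    · intro h; exact absurd (Finset.mem_univ _) h

/-- A subfield of the right degree splits the algebra. -/
theorem spl_subfield {F : Type} [Field F] [Algebra F D] [Algebra F L] {q : ℕ} (hq : 0 < q)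
    (hD : finrank F D = q ^ 2) (hL : finrank F L = q) (ι : L →ₐ[F] D) :
    Spl D q (algebraMap F L) := by
  let _ := modL (ι : L →+* D)
  have : IsScalarTower F L D := IsScalarTower.of_algebraMap_smul fun c d => by
    change ι (algebraMap F L c) * d = c • d
    rw [ι.commutes, Algebra.smul_def]
  have hDf : FiniteDimensional F D := Module.finite_of_finrank_pos (by rw [hD]; positivity)
  have hLD : FiniteDimensional L D := Module.Finite.of_restrictScalars_finite F L D
  have hr : finrank L D = q := by
    have h1 := Module.finrank_mul_finrank F L D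
    rw [hL, hD, pow_two] at h1
    exact Nat.eq_of_mul_eq_mul_left hq h1
  obtain ⟨X, -, hX⟩ := exists_reg (ι : L →+* D) (Module.finBasisOfFinrankEq L D hr)
  refine ⟨X, fun c => ?_⟩
  rw [hX _ (fun _ => algebraMap F L c)]
  · rfl
  · intro i
    change _ = ι (algebraMap F L c) * _
    rw [ι.commutes, Algebra.commutes]

end reg

end Vale.Agent.P011.W
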