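import Vale.Agent.P011.W.Red1

/-!
The reduced unitary Whitehead group is trivial in odd degree.
-/

set_option linter.unusedSectionVars false
set_option linter.unusedSimpArgs false

open Matrix Module TensorProduct NumberField

namespace Vale.Agent.P011.W

open Vale.Agent.P011S

variable {K D F : Type} [Field K] [CharZero K] [FiniteDimensional ℚ K] [StarRing K]
  [DivisionRing D] [CharZero D] [StarRing D] [FiniteDimensional ℚ D] [Algebra K D]
  [FiniteDimensional K D] [StarModule K D] [Algebra.IsCentral K D] [Field F] [Algebra K F]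
  {A : Type} [CommGroup A] (F0 : D → A)
  (hmul : ∀ a b : D, a ≠ 0 → b ≠ 0 → F0 (a * b) = F0 a * F0 b)
  (hsym : ∀ s : D, s ≠ 0 → star s = s → F0 s = 1)

include hmul hsym

/-- The reduced unitary Whitehead group is trivial if this holds in two-power degree. -/
theorem suk_of {d : ℕ} (hD : finrank K D = d ^ 2)
    (hne : ∃ k : K, star k ≠ k) (f : D →ₐ[K] Matrix (Fin d) (Fin d) F) {Z : D} (hZ : Z ≠ 0)
    (h : (f (star Z)).det = (f Z).det)
    (T : ∀ (E Δ Ω : Type) [Field E] [CharZero E] [FiniteDimensional ℚ E] [StarRing E]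
      [DivisionRing Δ] [CharZero Δ] [StarRing Δ] [FiniteDimensional ℚ Δ] [Algebra E Δ]
      [FiniteDimensional E Δ] [StarModule E Δ] [Algebra.IsCentral E Δ] [Field Ω] [Algebra E Ω]
      (j : ℕ) (_ : 2 ^ j ∣ d) (_ : finrank E Δ = (2 ^ j) ^ 2) (_ : ∃ e : E, star e ≠ e)
      (f2 : Δ →ₐ[E] Matrix (Fin (2 ^ j)) (Fin (2 ^ j)) Ω) (F1 : Δ → A)
      (_ : ∀ a b : Δ, a ≠ 0 → b ≠ 0 → F1 (a * b) = F1 a * F1 b)
      (_ : ∀ s : Δ, s ≠ 0 → star s = s → F1 s = 1) (Z : Δ) (_ : Z ≠ 0)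
      (_ : (f2 (star Z)).det = (f2 Z).det), ∃ e, Odd e ∧ F1 Z ^ e = 1) : F0 Z = 1 := by
  have hnf : NumberField K :=
    { to_charZero := inferInstance, to_finiteDimensional := inferInstance }
  have hneg : F0 (-1) = 1 := hsym (-1) (neg_ne_zero.mpr one_ne_zero) (by simp only [star_neg, star_one])
  have hd : 0 < d := deg_pos hD
  have hZs : star Z ≠ 0 := star_ne_zero.mpr hZ
  have h1 : F0 (Z * star Z) = 1 := hsym _ (mul_ne_zero hZ hZs) (by simp only [star_mul, star_star])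
  rw [hmul _ _ hZ hZs] at h1
  obtain ⟨u, hu⟩ : ∃ u, u = (star Z)⁻¹ * Z := ⟨_, rfl⟩
  have hu0 : u ≠ 0 := by rw [hu]; exact mul_ne_zero (inv_ne_zero hZs) hZ
  have h2 : (f u).det = 1 := by
    have h3 : (f (star Z)).det * (f u).det = (f Z).det := by
      rw [← Matrix.det_mul, ← map_mul, hu, mul_inv_cancel_left₀ hZs]
    rw [h] at h3
    have h4 : (f Z).det ≠ 0 := by
      intro h0
      have h5 : (f (Z * Z⁻¹)).det = 0 := by rw [map_mul, Matrix.det_mul, h0, zero_mul]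
      rw [mul_inv_cancel₀ hZ, map_one, Matrix.det_one] at h5
      exact one_ne_zero h5
    exact mul_left_cancel₀ h4 (by rw [h3, mul_one])
  have h3 : F0 u = F0 Z ^ 2 := by
    rw [hu, hmul _ _ (inv_ne_zero hZs) hZ, F0_inv F0 hmul hneg hZs, pow_two]
    rw [eq_inv_of_mul_eq_one_right h1, inv_inv]
  have h4 : F0 u ^ (d ^ 2) = 1 := by
    have h5 : Algebra.norm K u = 1 := by
      have h6 := SF.norm_eq_det_pow hd hD f u
      rw [h2, one_pow] at h6
      apply (algebraMap K F).injective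
      rw [h6, map_one]
    have h6 := F0_pow_finrank (K := K) F0 hmul hneg hu0
    rwa [h5, map_one, F0_one F0 hmul hneg, hD] at h6
  rw [h3, ← pow_mul] at h4
  rw [← orderOf_eq_one_iff]
  by_contra hne1
  obtain ⟨p, hp, hpo⟩ := Nat.exists_prime_and_dvd hne1
  by_cases hp2 : p = 2
  · subst hp2
    obtain ⟨e, he, he1⟩ := suk_part_of F0 hmul hsym hD hne f hZ h T
    have h5 : 2 ∣ e := hpo.trans (orderOf_dvd_of_pow_eq_one he1)
    exact Nat.not_odd_iff_even.mpr (even_iff_two_dvd.mpr h5) he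
  · obtain ⟨e, he, he1⟩ := sk1_part_gen F0 hmul hneg hp hp2 hD f h2
    rw [h3, ← pow_mul] at he1
    have h5 : p ∣ 2 * e := hpo.trans (orderOf_dvd_of_pow_eq_one he1)
    rcases (Nat.Prime.dvd_mul hp).mp h5 with h6 | h6
    · exact hp2 ((Nat.prime_dvd_prime_iff_eq hp Nat.prime_two).mp h6)
    · have h7 := Nat.dvd_gcd h6 (dvd_refl p)
      rw [he.gcd_eq_one] at h7
      exact hp.one_lt.ne' (Nat.dvd_one.mp h7)
/-- **The reduced unitary Whitehead group is trivial in odd degree.** -/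
theorem suk_odd {d : ℕ} (hd : Odd d) (hD : finrank K D = d ^ 2)
    (hne : ∃ k : K, star k ≠ k) (f : D →ₐ[K] Matrix (Fin d) (Fin d) F) {Z : D} (hZ : Z ≠ 0)
    (h : (f (star Z)).det = (f Z).det) : F0 Z = 1 := by
  refine suk_of F0 hmul hsym hD hne f hZ h ?_
  intro E Δ Ω _ _ _ _ _ _ _ _ _ _ _ _ _ _ j hj hΔ hneE f2 F1 hmul1 hsym1 Z hZ0 hZ1
  have hj0 : j = 0 := by
    by_contra h0
    have h1 : 2 ∣ d := (dvd_pow_self 2 h0).trans hj
    exact (Nat.not_even_iff_odd.mpr hd) (even_iff_two_dvd.mpr h1)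
  subst hj0
  refine ⟨1, odd_one, ?_⟩
  rw [pow_one]
  apply hsym1 Z hZ0
  obtain ⟨e, he⟩ : Z ∈ Set.range (algebraMap E Δ) := by
    obtain ⟨c, hc⟩ := (finrank_eq_one_iff_of_nonzero' (1 : Δ) one_ne_zero).mp
      (by rw [hΔ, pow_zero, one_pow]) Z
    exact ⟨c, by rw [← hc, Algebra.smul_def, mul_one]⟩
  have hone : ∀ x : E, (f2 (algebraMap E Δ x)).det = algebraMap E Ω x := by
    intro x
    rw [AlgHom.commutes]
    simp [Matrix.algebraMap_eq_diagonal, Matrix.det_diagonal]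
  rw [← he, ← algebraMap_star_comm, hone, hone] at hZ1
  rw [← he, ← algebraMap_star_comm, (algebraMap E Ω).injective hZ1]

end Vale.Agent.P011.W
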